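import Vale.Agent.P368.Ops

namespace P368.D3

open Matrix
open scoped BigOperators InnerProductSpace ComplexOrder

section Act

variable {V : Type} [Fintype V] [DecidableEq V]

abbrev HV (V : Type) [Fintype V] [DecidableEq V] : Type := EuclideanSpace ℂ (V → Bool)

noncomputable def act : Op V ≃⋆ₐ[ℂ] (HV V →L[ℂ] HV V) :=
  Matrix.toEuclideanCLM (𝕜 := ℂ) (n := V → Bool)

/-- rank one projection (for a unit vector) -/
noncomputable def outer (u : Bool → ℂ) : M2 := Matrix.of fun a b => u a * star (u b)

/-- product operator with factors `f q` for `q` in `S`, identity elsewhere -/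
noncomputable def onSet (S : Set V) (f : V → M2) : Op V :=
  open Classical in prodOp (fun q => if q ∈ S then f q else 1)

/-- operator acting on one qubit -/
noncomputable def site (v : V) (A : M2) : Op V := prodOp (Function.update (fun _ => 1) v A)

/-- the vector of a ket -/
noncomputable def vec (ψ : Ket V) : HV V := WithLp.toLp 2 ψ

end Act

end P368.D3
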