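import Vale.Agent.P368.Weak1

namespace P368

open scoped BigOperators InnerProductSpace

section Bessel

variable {H : Type*} [NormedAddCommGroup H] [InnerProductSpace ℂ H] [CompleteSpace H]
variable {β : Type*} [DecidableEq β]

theorem sp_inner {A : H →L[ℂ] H} (hA : IsStarProjection A) (x y : H) :
    ⟪A x, y⟫_ℂ = ⟪x, A y⟫_ℂ := by
  have h : star A = A := hA.isSelfAdjoint
  rw [ContinuousLinearMap.star_eq_adjoint] at h
  rw [← ContinuousLinearMap.adjoint_inner_right, h]

theorem sp_inner_self {A : H →L[ℂ] H} (hA : IsStarProjection A) (x : H) :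
    ⟪A x, A x⟫_ℂ = ⟪A x, x⟫_ℂ := by
  rw [← sp_inner hA]
  have h : A * A = A := hA.isIdempotentElem
  have h2 : A (A x) = A x := by
    have := congrArg (fun B : H →L[ℂ] H => B x) h
    exact this
  rw [h2]

theorem re_inner_self (x : H) : RCLike.re ⟪x, x⟫_ℂ = ‖x‖ ^ 2 := inner_self_eq_norm_sq (𝕜 := ℂ) x

omit [DecidableEq β] in
/-- Bessel inequality for pairwise orthogonal projections -/
theorem sp_bessel (J : Finset β) (S : β → (H →L[ℂ] H)) (hS : ∀ h ∈ J, IsStarProjection (S h))
    (hSS : ∀ h ∈ J, ∀ h' ∈ J, h ≠ h' → S h * S h' = 0) (y : H) :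
    ∑ h ∈ J, ‖S h y‖ ^ 2 ≤ ‖y‖ ^ 2 := by
  classical
  set z := ∑ h ∈ J, S h y with hz
  -- `⟪z, y⟫ = ⟪z, z⟫` and both real parts are the sum of the squares
  have h1 : RCLike.re ⟪z, y⟫_ℂ = ∑ h ∈ J, ‖S h y‖ ^ 2 := by
    rw [hz, sum_inner, map_sum]
    refine Finset.sum_congr rfl fun h hh => ?_
    rw [← sp_inner_self (hS h hh), re_inner_self]
  have h2 : ‖z‖ ^ 2 = ∑ h ∈ J, ‖S h y‖ ^ 2 := by
    rw [← re_inner_self, hz, sum_inner, map_sum]
    refine Finset.sum_congr rfl fun h hh => ?_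
    rw [inner_sum, map_sum, Finset.sum_eq_single h]
    · rw [re_inner_self]
    · intro h' hh' hne
      rw [sp_inner (hS h hh)]
      have h3 : S h (S h' y) = 0 := by
        have := congrArg (fun B : H →L[ℂ] H => B y) (hSS h hh h' hh' hne.symm)
        exact this
      rw [h3, inner_zero_right, map_zero]
    · intro hn
      exact absurd hh hn
  have h3 : 0 ≤ ‖y - z‖ ^ 2 := by positivity
  rw [norm_sub_sq (𝕜 := ℂ), ← inner_conj_symm, RCLike.conj_re, h1, h2] at h3
  linarith

/-- products of commuting projections -/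
theorem sp_mul {A B : H →L[ℂ] H} (hA : IsStarProjection A) (hB : IsStarProjection B)
    (h : Commute A B) : IsStarProjection (A * B) := by
  refine ⟨?_, ?_⟩
  · have h1 : A * A = A := hA.isIdempotentElem
    have h2 : B * B = B := hB.isIdempotentElem
    have h3 : A * B = B * A := h
    change (A * B) * (A * B) = A * B
    calc (A * B) * (A * B) = A * (B * A) * B := by simp only [mul_assoc]
      _ = A * (A * B) * B := by rw [← h3]
      _ = (A * A) * (B * B) := by simp only [mul_assoc]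
      _ = A * B := by rw [h1, h2]
  · have h1 : star A = A := hA.isSelfAdjoint
    have h2 : star B = B := hB.isSelfAdjoint
    change star (A * B) = A * B
    rw [star_mul, h1, h2]
    exact h.symm

theorem sp_one_sub {A : H →L[ℂ] H} (hA : IsStarProjection A) : IsStarProjection (1 - A) := by
  refine ⟨?_, ?_⟩
  · have h1 : A * A = A := hA.isIdempotentElem
    change (1 - A) * (1 - A) = 1 - A
    rw [mul_sub, sub_mul, sub_mul, one_mul, mul_one, one_mul, h1, sub_self, sub_zero]
  · have h1 : star A = A := hA.isSelfAdjoint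
    change star (1 - A) = 1 - A
    rw [star_sub, star_one, h1]

theorem pre_commute (f : ℕ → (H →L[ℂ] H)) (A : H →L[ℂ] H) (j : ℕ)
    (h : ∀ i, i < j → Commute A (f i)) : Commute A (pre f j) := by
  induction j with
  | zero => exact Commute.one_right A
  | succ k ih =>
    exact (h k (Nat.lt_succ_self k)).mul_right (ih fun i hi => h i (Nat.lt_succ_of_lt hi))

/-- Bessel inequality over blocks and gates. `P j h`: block `h` unexcited at gate `j`;
`O j h`: all blocks other than `h` unexcited at gate `j`. -/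
theorem bessel_blocks (m : ℕ) (τ : ℝ) (hτ0 : 0 ≤ τ) (hτ : τ ≤ 1 / 4)
    (Q : ℕ → (H →L[ℂ] H)) (P O : ℕ → β → (H →L[ℂ] H)) (J : Finset β)
    (hQ : ∀ j, IsStarProjection (Q j)) (hQc : ∀ i j, Commute (Q i) (Q j))
    (hP : ∀ j, ∀ h ∈ J, IsStarProjection (P j h)) (hO : ∀ j, ∀ h ∈ J, IsStarProjection (O j h))
    (hPP : ∀ j, ∀ h ∈ J, ∀ h' ∈ J, Commute (P j h) (P j h'))
    (hPO : ∀ j, ∀ h ∈ J, ∀ h' ∈ J, Commute (P j h) (O j h'))
    (hOO : ∀ j, ∀ h ∈ J, ∀ h' ∈ J, Commute (O j h) (O j h'))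
    (hQP : ∀ i j, i ≠ j → ∀ h ∈ J, Commute (Q i) (P j h))
    (hQO : ∀ i j, i ≠ j → ∀ h ∈ J, Commute (Q i) (O j h))
    (hOP : ∀ j, ∀ h ∈ J, ∀ h' ∈ J, h ≠ h' → O j h * P j h' = O j h)
    (ξ : H) (hξ : ∀ h ∈ J, ∀ j, P j h ξ = ξ) :
    ∑ h ∈ J, ∑ j ∈ Finset.range m,
      ‖O j h ((1 - P j h) (Q j
        (pre (fun i => Q i + ((Real.sqrt τ : ℝ) : ℂ) • (1 - Q i)) j ξ)))‖ ^ 2 ≤
      4 / 3 * ‖ξ‖ ^ 2 := by
  rw [Finset.sum_comm]
  refine le_trans (Finset.sum_le_sum fun j _ => ?_) (chain_tele m τ hτ0 hτ Q hQ hQc ξ)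
  set ν := fun i => Q i + ((Real.sqrt τ : ℝ) : ℂ) • (1 - Q i) with hν
  set y := (1 - Q j) (pre ν j ξ) with hy
  -- the projections `S`
  have hS : ∀ h ∈ J, IsStarProjection (O j h * (1 - P j h)) := fun h hh =>
    sp_mul (hO j h hh) (sp_one_sub (hP j h hh))
      ((Commute.one_right _).sub_right (hPO j h hh h hh).symm)
  have hSS : ∀ h ∈ J, ∀ h' ∈ J, h ≠ h' →
      (O j h * (1 - P j h)) * (O j h' * (1 - P j h')) = 0 := by
    intro h hh h' hh' hne
    have c1 : Commute (1 - P j h) (O j h') := (Commute.one_left _).sub_left (hPO j h hh h' hh')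
    have c2 : Commute (1 - P j h) (1 - P j h') :=
      (Commute.one_left _).sub_left ((Commute.one_right _).sub_right (hPP j h hh h' hh'))
    have c3 : Commute (O j h') (1 - P j h') :=
      (Commute.one_right _).sub_right (hPO j h' hh' h' hh').symm
    have e1 : O j h * (1 - P j h') = 0 := by
      rw [mul_sub, mul_one, hOP j h hh h' hh' hne, sub_self]
    calc (O j h * (1 - P j h)) * (O j h' * (1 - P j h'))
        = O j h * ((1 - P j h) * (O j h' * (1 - P j h'))) := by rw [mul_assoc]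
      _ = O j h * ((O j h' * (1 - P j h')) * (1 - P j h)) := by
          rw [(c1.mul_right c2).eq]
      _ = O j h * (((1 - P j h') * O j h') * (1 - P j h)) := by rw [c3.eq]
      _ = (O j h * (1 - P j h')) * (O j h' * (1 - P j h)) := by simp only [mul_assoc]
      _ = 0 := by rw [e1, zero_mul]
  have key : ∀ h ∈ J, ‖O j h ((1 - P j h) (Q j (pre ν j ξ)))‖ =
      ‖(O j h * (1 - P j h)) y‖ := by
    intro h hh
    have hcomm : Commute (O j h * (1 - P j h)) (pre ν j) := by
      apply pre_commute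
      intro i hi
      have hij : i ≠ j := Nat.ne_of_lt hi
      have c1 : Commute (O j h) (Q i) := (hQO i j hij h hh).symm
      have c2 : Commute (1 - P j h) (Q i) :=
        (Commute.one_left _).sub_left (hQP i j hij h hh).symm
      have c3 : Commute (O j h * (1 - P j h)) (Q i) := c1.mul_left c2
      rw [hν]
      exact c3.add_right (((Commute.one_right _).sub_right c3).smul_right _)
    have h0 : (O j h * (1 - P j h)) (pre ν j ξ) = 0 := by
      have e1 : (O j h * (1 - P j h)) (pre ν j ξ) = (pre ν j) ((O j h * (1 - P j h)) ξ) := by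
        have := congrArg (fun B : H →L[ℂ] H => B ξ) hcomm.eq
        exact this
      rw [e1]
      have e2 : (O j h * (1 - P j h)) ξ = 0 := by
        change O j h ((1 - P j h) ξ) = 0
        have e3 : (1 - P j h) ξ = ξ - P j h ξ := rfl
        rw [e3, hξ h hh j, sub_self, map_zero]
      rw [e2, map_zero]
    have e4 : (O j h * (1 - P j h)) y = - O j h ((1 - P j h) (Q j (pre ν j ξ))) := by
      rw [hy]
      have e5 : (1 - Q j) (pre ν j ξ) = pre ν j ξ - Q j (pre ν j ξ) := rfl
      rw [e5, map_sub, h0, zero_sub]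
      rfl
    rw [e4, norm_neg]
  calc ∑ h ∈ J, ‖O j h ((1 - P j h) (Q j (pre ν j ξ)))‖ ^ 2
      = ∑ h ∈ J, ‖(O j h * (1 - P j h)) y‖ ^ 2 :=
        Finset.sum_congr rfl fun h hh => by rw [key h hh]
    _ ≤ ‖y‖ ^ 2 := sp_bessel J (fun h => O j h * (1 - P j h)) hS hSS y

end Bessel

section Mix

variable {H : Type*} [NormedAddCommGroup H] [InnerProductSpace ℂ H] [CompleteSpace H]
variable {β : Type*} [DecidableEq β]

/-- product over `h ∈ s` of `A (h ∈ I) h` -/
noncomputable def mix (A : Bool → β → (H →L[ℂ] H))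
    (hA : ∀ h h', h ≠ h' → ∀ a b, Commute (A a h) (A b h')) (s I : Finset β) : H →L[ℂ] H :=
  s.noncommProd (fun h => A (decide (h ∈ I)) h) (fun h _ h' _ hne => hA h h' hne _ _)

theorem mix_insert (A : Bool → β → (H →L[ℂ] H))
    (hA : ∀ h h', h ≠ h' → ∀ a b, Commute (A a h) (A b h')) (s I : Finset β) (h : β)
    (hs : h ∉ s) : mix A hA (insert h s) I = A (decide (h ∈ I)) h * mix A hA s I :=
  Finset.noncommProd_insert_of_notMem s h (fun h => A (decide (h ∈ I)) h)
    (fun h _ h' _ hne => hA h h' hne _ _) hs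

theorem mix_insert_left (A : Bool → β → (H →L[ℂ] H))
    (hA : ∀ h h', h ≠ h' → ∀ a b, Commute (A a h) (A b h')) (s I : Finset β) (h : β)
    (hs : h ∉ s) (hI : h ∉ I) : mix A hA (insert h s) I = A false h * mix A hA s I := by
  rw [mix_insert A hA s I h hs, decide_eq_false hI]

theorem mix_congr (A : Bool → β → (H →L[ℂ] H))
    (hA : ∀ h h', h ≠ h' → ∀ a b, Commute (A a h) (A b h')) (s I I' : Finset β)
    (h : ∀ x ∈ s, x ∈ I ↔ x ∈ I') : mix A hA s I = mix A hA s I' := by
  unfold mix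
  refine Finset.noncommProd_congr rfl (fun x hx => ?_) _
  have h1 : decide (x ∈ I) = decide (x ∈ I') := by
    rw [decide_eq_decide]
    exact h x hx
  rw [h1]

theorem mix_insert_both (A : Bool → β → (H →L[ℂ] H))
    (hA : ∀ h h', h ≠ h' → ∀ a b, Commute (A a h) (A b h')) (s I : Finset β) (h : β)
    (hs : h ∉ s) (hI : h ∉ I) :
    mix A hA (insert h s) (insert h I) = A true h * mix A hA s I := by
  have h1 : mix A hA (insert h s) (insert h I) = A true h * mix A hA s (insert h I) := by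
    rw [mix_insert A hA s (insert h I) h hs, decide_eq_true (Finset.mem_insert_self h I)]
  rw [h1]
  congr 1
  apply mix_congr
  intro x hx
  rw [Finset.mem_insert]
  constructor
  · rintro (rfl | h2)
    · exact absurd hx hs
    · exact h2
  · exact fun h2 => Or.inr h2

theorem mix_commute (A : Bool → β → (H →L[ℂ] H))
    (hA : ∀ h h', h ≠ h' → ∀ a b, Commute (A a h) (A b h')) (s I : Finset β) (T : H →L[ℂ] H)
    (hT : ∀ h ∈ s, ∀ b, Commute T (A b h)) : Commute T (mix A hA s I) := by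
  unfold mix
  exact Finset.noncommProd_commute _ _ _ _ fun x hx => hT x hx _

theorem rot_norm (p q : ℂ) (hpq : ‖p‖ ^ 2 + ‖q‖ ^ 2 = 1) (a b : H) :
    ‖p • a + q • b‖ ^ 2 + ‖-(starRingEnd ℂ q) • a + (starRingEnd ℂ p) • b‖ ^ 2 =
      ‖a‖ ^ 2 + ‖b‖ ^ 2 := by
  rw [norm_add_sq (𝕜 := ℂ), norm_add_sq (𝕜 := ℂ), inner_smul_left, inner_smul_right,
    inner_smul_left, inner_smul_right]
  simp only [norm_smul, norm_neg, RCLike.norm_conj, map_neg, RingHomCompTriple.comp_apply,
    RingHom.id_apply, mul_pow]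
  have e : RCLike.re ((starRingEnd ℂ) p * (q * ⟪a, b⟫_ℂ)) +
      RCLike.re (-q * ((starRingEnd ℂ) p * ⟪a, b⟫_ℂ)) = 0 := by
    rw [← map_add]
    have : (starRingEnd ℂ) p * (q * ⟪a, b⟫_ℂ) + -q * ((starRingEnd ℂ) p * ⟪a, b⟫_ℂ) = 0 := by
      ring
    rw [this, map_zero]
  have e2 : ‖a‖ ^ 2 * (‖p‖ ^ 2 + ‖q‖ ^ 2) + ‖b‖ ^ 2 * (‖p‖ ^ 2 + ‖q‖ ^ 2) =
      ‖a‖ ^ 2 + ‖b‖ ^ 2 := by rw [hpq]; ring
  linarith

/-- change of basis in every block -/
theorem mix_average (A B : Bool → β → (H →L[ℂ] H))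
    (hA : ∀ h h', h ≠ h' → ∀ a b, Commute (A a h) (A b h'))
    (hB : ∀ h h', h ≠ h' → ∀ a b, Commute (B a h) (B b h'))
    (s : Finset β) (p q : β → ℂ) (hpq : ∀ h ∈ s, ‖p h‖ ^ 2 + ‖q h‖ ^ 2 = 1)
    (hB0 : ∀ h ∈ s, B false h = p h • A false h + q h • A true h)
    (hB1 : ∀ h ∈ s, B true h = -(starRingEnd ℂ (q h)) • A false h + (starRingEnd ℂ (p h)) • A true h)
    (M : H →L[ℂ] H) (v : H) :
    ∑ I ∈ s.powerset, ‖M (mix A hA s I v)‖ ^ 2 = ∑ I ∈ s.powerset, ‖M (mix B hB s I v)‖ ^ 2 := by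
  induction s using Finset.induction_on generalizing M with
  | empty =>
    rw [Finset.powerset_empty, Finset.sum_singleton, Finset.sum_singleton]
    rfl
  | insert h s hs ih =>
    have ih' := fun M => ih (fun x hx => hpq x (Finset.mem_insert_of_mem hx))
      (fun x hx => hB0 x (Finset.mem_insert_of_mem hx))
      (fun x hx => hB1 x (Finset.mem_insert_of_mem hx)) M
    rw [Finset.sum_powerset_insert hs, Finset.sum_powerset_insert hs]
    have hnot : ∀ I ∈ s.powerset, h ∉ I := fun I hI hh => hs (Finset.mem_powerset.1 hI hh)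
    have eA : ∑ I ∈ s.powerset, ‖M (mix A hA (insert h s) I v)‖ ^ 2 +
        ∑ I ∈ s.powerset, ‖M (mix A hA (insert h s) (insert h I) v)‖ ^ 2 =
        ∑ I ∈ s.powerset, ‖(M * A false h) (mix A hA s I v)‖ ^ 2 +
        ∑ I ∈ s.powerset, ‖(M * A true h) (mix A hA s I v)‖ ^ 2 := by
      congr 1
      · refine Finset.sum_congr rfl fun I hI => ?_
        rw [mix_insert_left A hA s I h hs (hnot I hI)]
        rfl
      · refine Finset.sum_congr rfl fun I hI => ?_
        rw [mix_insert_both A hA s I h hs (hnot I hI)]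
        rfl
    have eB : ∑ I ∈ s.powerset, ‖M (mix B hB (insert h s) I v)‖ ^ 2 +
        ∑ I ∈ s.powerset, ‖M (mix B hB (insert h s) (insert h I) v)‖ ^ 2 =
        ∑ I ∈ s.powerset, ‖(M * B false h) (mix B hB s I v)‖ ^ 2 +
        ∑ I ∈ s.powerset, ‖(M * B true h) (mix B hB s I v)‖ ^ 2 := by
      congr 1
      · refine Finset.sum_congr rfl fun I hI => ?_
        rw [mix_insert_left B hB s I h hs (hnot I hI)]
        rfl
      · refine Finset.sum_congr rfl fun I hI => ?_
        rw [mix_insert_both B hB s I h hs (hnot I hI)]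
        rfl
    rw [eA, eB, ih', ih', ← Finset.sum_add_distrib, ← Finset.sum_add_distrib]
    refine Finset.sum_congr rfl fun I _ => ?_
    set u := mix B hB s I v with hu
    have h0 : (M * B false h) u = p h • (M * A false h) u + q h • (M * A true h) u := by
      rw [hB0 h (Finset.mem_insert_self h s)]
      change M ((p h • A false h + q h • A true h) u) = _
      have : (p h • A false h + q h • A true h) u = p h • A false h u + q h • A true h u := rfl
      rw [this, map_add, map_smul, map_smul]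
      rfl
    have h1 : (M * B true h) u = -(starRingEnd ℂ (q h)) • (M * A false h) u +
        (starRingEnd ℂ (p h)) • (M * A true h) u := by
      rw [hB1 h (Finset.mem_insert_self h s)]
      change M ((-(starRingEnd ℂ (q h)) • A false h + (starRingEnd ℂ (p h)) • A true h) u) = _
      have : (-(starRingEnd ℂ (q h)) • A false h + (starRingEnd ℂ (p h)) • A true h) u =
          -(starRingEnd ℂ (q h)) • A false h u + (starRingEnd ℂ (p h)) • A true h u := rfl
      rw [this, map_add, map_smul, map_smul]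
      rfl
    rw [h0, h1, rot_norm (p h) (q h) (hpq h (Finset.mem_insert_self h s))]

end Mix

end P368
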