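import Vale.Agent.P368.Weak1

namespace P368

open scoped BigOperators InnerProductSpace ComplexOrder

section TBound

theorem beta_aux_norm_one_le {A : Type*} [CStarAlgebra A] : ‖(1 : A)‖ ≤ 1 := by
  rcases subsingleton_or_nontrivial A with h | h
  · rw [Subsingleton.elim (1 : A) 0, norm_zero]
    exact zero_le_one
  · rw [CStarRing.norm_one]

theorem beta_aux_norm_refl {A : Type*} [CStarAlgebra A] (X : A) (hX : star X = X)
    (hXX : X * X = 1) : ‖X‖ ≤ 1 := by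
  have h : ‖X‖ * ‖X‖ ≤ 1 := by
    rw [← CStarRing.norm_star_mul_self, hX, hXX]
    exact beta_aux_norm_one_le
  nlinarith [norm_nonneg X]

theorem beta_aux_conj_norm {A : Type*} [CStarAlgebra A] (X Z : A) (hX : star X = X)
    (hXX : X * X = 1) : ‖Z - X * Z * X‖ ≤ 2 * ‖Z‖ := by
  have h := beta_aux_norm_refl X hX hXX
  have h1 : ‖X * Z * X‖ ≤ ‖Z‖ := by
    calc ‖X * Z * X‖ ≤ ‖X * Z‖ * ‖X‖ := norm_mul_le _ _
      _ ≤ ‖X‖ * ‖Z‖ * ‖X‖ := by
        gcongr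
        exact norm_mul_le _ _
      _ ≤ 1 * ‖Z‖ * 1 := by gcongr
      _ = ‖Z‖ := by ring
  calc ‖Z - X * Z * X‖ ≤ ‖Z‖ + ‖X * Z * X‖ := norm_sub_le _ _
    _ ≤ 2 * ‖Z‖ := by linarith

theorem beta_aux_mul_le {A : Type*} [CStarAlgebra A] {a b : A} (ha : ‖a‖ ≤ 1) (hb : ‖b‖ ≤ 1) :
    ‖a * b‖ ≤ 1 := by
  calc ‖a * b‖ ≤ ‖a‖ * ‖b‖ := norm_mul_le _ _
    _ ≤ 1 * 1 := by gcongr
    _ = 1 := by ring

/-- three factors -/
theorem tbound {A : Type*} [CStarAlgebra A] (X E F N : A) (hX : star X = X) (hXX : X * X = 1)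
    (hE : ‖(2 : ℂ) • E - 1‖ ≤ 1) (hF : ‖(2 : ℂ) • F - 1‖ ≤ 1) (hN : ‖(2 : ℂ) • N - 1‖ ≤ 1) :
    ‖(1 / 2 : ℂ) • (E * F * N - X * (E * F * N) * X)‖ ≤ 7 / 8 := by
  obtain ⟨a, ha⟩ : ∃ a, a = (2 : ℂ) • E - 1 := ⟨_, rfl⟩
  obtain ⟨b, hb⟩ : ∃ b, b = (2 : ℂ) • F - 1 := ⟨_, rfl⟩
  obtain ⟨c, hc⟩ : ∃ c, c = (2 : ℂ) • N - 1 := ⟨_, rfl⟩
  rw [← ha] at hE
  rw [← hb] at hF
  rw [← hc] at hN
  have eE : E = (1 / 2 : ℂ) • (1 + a) := by
    rw [ha, add_sub_cancel, smul_smul]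
    norm_num
  have eF : F = (1 / 2 : ℂ) • (1 + b) := by
    rw [hb, add_sub_cancel, smul_smul]
    norm_num
  have eN : N = (1 / 2 : ℂ) • (1 + c) := by
    rw [hc, add_sub_cancel, smul_smul]
    norm_num
  obtain ⟨Z, hZ⟩ : ∃ Z, Z = a + b + c + a * b + a * c + b * c + a * b * c := ⟨_, rfl⟩
  have e1 : E * F * N = (1 / 8 : ℂ) • (1 + Z) := by
    rw [eE, eF, eN]
    simp only [smul_mul_assoc, mul_smul_comm, smul_smul]
    have : (1 + a) * (1 + b) * (1 + c) = 1 + Z := by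
      rw [hZ]
      noncomm_ring
    rw [this]
    norm_num
  have e2 : (1 / 2 : ℂ) • (E * F * N - X * (E * F * N) * X) = (1 / 16 : ℂ) • (Z - X * Z * X) := by
    rw [e1]
    simp only [smul_mul_assoc, mul_smul_comm, ← smul_sub, smul_smul]
    have : 1 + Z - X * (1 + Z) * X = Z - X * Z * X := by
      rw [mul_add, add_mul, mul_one, hXX]
      abel
    rw [this]
    norm_num
  rw [e2, norm_smul]
  have h3 := beta_aux_conj_norm X Z hX hXX
  have h4 : ‖Z‖ ≤ 7 := by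
    rw [hZ]
    calc ‖a + b + c + a * b + a * c + b * c + a * b * c‖
        ≤ ‖a‖ + ‖b‖ + ‖c‖ + ‖a * b‖ + ‖a * c‖ + ‖b * c‖ + ‖a * b * c‖ := by
          refine (norm_add_le _ _).trans (add_le_add ?_ le_rfl)
          refine (norm_add_le _ _).trans (add_le_add ?_ le_rfl)
          refine (norm_add_le _ _).trans (add_le_add ?_ le_rfl)
          refine (norm_add_le _ _).trans (add_le_add ?_ le_rfl)
          refine (norm_add_le _ _).trans (add_le_add ?_ le_rfl)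
          exact norm_add_le _ _
      _ ≤ 1 + 1 + 1 + 1 + 1 + 1 + 1 := by
          gcongr
          · exact beta_aux_mul_le hE hF
          · exact beta_aux_mul_le hE hN
          · exact beta_aux_mul_le hF hN
          · exact beta_aux_mul_le (beta_aux_mul_le hE hF) hN
      _ = 7 := by norm_num
  have h5 : ‖(1 / 16 : ℂ)‖ = 1 / 16 := by norm_num
  rw [h5]
  linarith

/-- two factors -/
theorem tbound2 {A : Type*} [CStarAlgebra A] (X E F : A) (hX : star X = X) (hXX : X * X = 1)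
    (hE : ‖(2 : ℂ) • E - 1‖ ≤ 1) (hF : ‖(2 : ℂ) • F - 1‖ ≤ 1) :
    ‖(1 / 2 : ℂ) • (E * F - X * (E * F) * X)‖ ≤ 3 / 4 := by
  obtain ⟨a, ha⟩ : ∃ a, a = (2 : ℂ) • E - 1 := ⟨_, rfl⟩
  obtain ⟨b, hb⟩ : ∃ b, b = (2 : ℂ) • F - 1 := ⟨_, rfl⟩
  rw [← ha] at hE
  rw [← hb] at hF
  have eE : E = (1 / 2 : ℂ) • (1 + a) := by
    rw [ha, add_sub_cancel, smul_smul]
    norm_num
  have eF : F = (1 / 2 : ℂ) • (1 + b) := by
    rw [hb, add_sub_cancel, smul_smul]
    norm_num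
  obtain ⟨Z, hZ⟩ : ∃ Z, Z = a + b + a * b := ⟨_, rfl⟩
  have e1 : E * F = (1 / 4 : ℂ) • (1 + Z) := by
    rw [eE, eF]
    simp only [smul_mul_assoc, mul_smul_comm, smul_smul]
    have : (1 + a) * (1 + b) = 1 + Z := by
      rw [hZ]
      noncomm_ring
    rw [this]
    norm_num
  have e2 : (1 / 2 : ℂ) • (E * F - X * (E * F) * X) = (1 / 8 : ℂ) • (Z - X * Z * X) := by
    rw [e1]
    simp only [smul_mul_assoc, mul_smul_comm, ← smul_sub, smul_smul]
    have : 1 + Z - X * (1 + Z) * X = Z - X * Z * X := by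
      rw [mul_add, add_mul, mul_one, hXX]
      abel
    rw [this]
    norm_num
  rw [e2, norm_smul]
  have h3 := beta_aux_conj_norm X Z hX hXX
  have h4 : ‖Z‖ ≤ 3 := by
    rw [hZ]
    calc ‖a + b + a * b‖
        ≤ ‖a‖ + ‖b‖ + ‖a * b‖ := by
          refine (norm_add_le _ _).trans (add_le_add ?_ le_rfl)
          exact norm_add_le _ _
      _ ≤ 1 + 1 + 1 := by
          gcongr
          exact beta_aux_mul_le hE hF
      _ = 3 := by norm_num
  have h5 : ‖(1 / 8 : ℂ)‖ = 1 / 8 := by norm_num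
  rw [h5]
  linarith

theorem proj_refl_norm {A : Type*} [CStarAlgebra A] (E : A) (hE : IsStarProjection E) :
    ‖(2 : ℂ) • E - 1‖ ≤ 1 := by
  have h1 : E * E = E := hE.isIdempotentElem
  have h2 : star E = E := hE.isSelfAdjoint
  apply beta_aux_norm_refl
  · rw [star_sub, star_smul, h2, star_one]
    simp
  · have : ((2 : ℂ) • E - 1) * ((2 : ℂ) • E - 1) =
        (4 : ℂ) • (E * E) - (2 : ℂ) • E - (2 : ℂ) • E + 1 := by
      rw [sub_mul, mul_sub, smul_mul_smul_comm, mul_one, one_mul]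
      norm_num
      abel
    rw [this, h1]
    module

end TBound

section Beta

variable {H : Type*} [NormedAddCommGroup H] [InnerProductSpace ℂ H] [CompleteSpace H]

structure PBlock (S : Chain H) where
  X : H →L[ℂ] H
  U : H →L[ℂ] H
  Uc : H →L[ℂ] H
  E : H →L[ℂ] H
  F : H →L[ℂ] H
  lam : ℝ
  hlam0 : 0 ≤ lam
  hlam1 : lam ≤ 1
  hX : star X = X
  hXX : X * X = 1
  hU : IsStarProjection U
  hUc : IsStarProjection Uc
  hE : IsStarProjection E
  hF : IsStarProjection F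
  loc : ∀ j, ∀ A ∈ ({X, U, E, F} : Set (H →L[ℂ] H)),
    ∀ B ∈ ({S.Q j, S.P j, S.O j, S.Φ j, S.D j} : Set (H →L[ℂ] H)), Commute A B
  commUc : ∀ A ∈ ({X, U, E, F} : Set (H →L[ℂ] H)), Commute A Uc
  hUcΦ : ∀ α : H, (∀ j, S.P j α = α) →
    Uc α = ((∏ j ∈ Finset.range S.m, S.c j : ℝ) : ℂ) • pre S.Φ S.m α
  hDpos : ∀ j, 0 ≤ S.D j

namespace PBlock

variable {S : Chain H} (B : PBlock S)

noncomputable def cc (_B : PBlock S) : ℝ := ∏ j ∈ Finset.range S.m, S.c j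

noncomputable def Y : H →L[ℂ] H := (B.lam : ℂ) • (B.E * B.F)

noncomputable def Xp (y : Bool) : H →L[ℂ] H := if y then B.X else 1

/-- reflection of the first layer gate -/
noncomputable def R2 : H →L[ℂ] H := 1 - (2 : ℂ) • (B.U * B.Uc)

noncomputable def core (y : Bool) : H →L[ℂ] H :=
  B.Xp y * (B.Y - ((2 * B.cc ^ 2 : ℝ) : ℂ) • (B.Y * B.U + B.U * B.Y) +
    ((4 * B.cc ^ 2 : ℝ) : ℂ) • (B.U * B.Y * B.U * pre S.Λ S.m)) * B.Xp y

noncomputable def beta : H →L[ℂ] H := (1 / 2 : ℂ) • (B.core false - B.core true)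

end PBlock

/-- operators commuting with the whole chain -/
def BetaLc (S : Chain H) (A : H →L[ℂ] H) : Prop :=
  ∀ j, ∀ B ∈ ({S.Q j, S.P j, S.O j, S.Φ j, S.D j} : Set (H →L[ℂ] H)), Commute A B

theorem BetaLc.mul {S : Chain H} {A B : H →L[ℂ] H} (hA : BetaLc S A) (hB : BetaLc S B) :
    BetaLc S (A * B) := fun j C hC => (hA j C hC).mul_left (hB j C hC)

theorem BetaLc.one {S : Chain H} : BetaLc S 1 := fun _ C _ => Commute.one_left C

theorem BetaLc.smul {S : Chain H} {A : H →L[ℂ] H} (hA : BetaLc S A) (c : ℂ) :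
    BetaLc S (c • A) := fun j C hC => (hA j C hC).smul_left c

theorem BetaLc.q {S : Chain H} {A : H →L[ℂ] H} (hA : BetaLc S A) (j : ℕ) : Commute A (S.Q j) :=
  hA j _ (by simp)

theorem BetaLc.p {S : Chain H} {A : H →L[ℂ] H} (hA : BetaLc S A) (j : ℕ) : Commute A (S.P j) :=
  hA j _ (by simp)

theorem BetaLc.o {S : Chain H} {A : H →L[ℂ] H} (hA : BetaLc S A) (j : ℕ) : Commute A (S.O j) :=
  hA j _ (by simp)

theorem BetaLc.phi {S : Chain H} {A : H →L[ℂ] H} (hA : BetaLc S A) (j : ℕ) :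
    Commute A (S.Φ j) := hA j _ (by simp)

theorem BetaLc.d {S : Chain H} {A : H →L[ℂ] H} (hA : BetaLc S A) (j : ℕ) : Commute A (S.D j) :=
  hA j _ (by simp)

theorem beta_aux_pre_comm (f : ℕ → (H →L[ℂ] H)) (A : H →L[ℂ] H) (h : ∀ j, Commute A (f j))
    (k : ℕ) : Commute A (pre f k) := by
  induction k with
  | zero => exact Commute.one_right A
  | succ k ih => exact (h k).mul_right ih

theorem BetaLc.preQ {S : Chain H} {A : H →L[ℂ] H} (hA : BetaLc S A) (k : ℕ) :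
    Commute A (pre S.Q k) := beta_aux_pre_comm _ _ hA.q k

theorem BetaLc.prePhi {S : Chain H} {A : H →L[ℂ] H} (hA : BetaLc S A) (k : ℕ) :
    Commute A (pre S.Φ k) := beta_aux_pre_comm _ _ hA.phi k

theorem BetaLc.lam {S : Chain H} {A : H →L[ℂ] H} (hA : BetaLc S A) (j : ℕ) :
    Commute A (S.Λ j) := by
  unfold Chain.Λ
  exact ((Commute.one_right A).smul_right _).add_right ((hA.d j).smul_right _)

theorem BetaLc.preLam {S : Chain H} {A : H →L[ℂ] H} (hA : BetaLc S A) (k : ℕ) :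
    Commute A (pre S.Λ k) := beta_aux_pre_comm _ _ hA.lam k

theorem BetaLc.nu {S : Chain H} {A : H →L[ℂ] H} (hA : BetaLc S A) (j : ℕ) :
    Commute A (S.ν j) := by
  unfold Chain.ν
  exact (hA.q j).add_right (((Commute.one_right A).sub_right (hA.q j)).smul_right _)

theorem BetaLc.preNu {S : Chain H} {A : H →L[ℂ] H} (hA : BetaLc S A) (k : ℕ) :
    Commute A (pre S.ν k) := beta_aux_pre_comm _ _ hA.nu k

theorem BetaLc.fix {S : Chain H} {A : H →L[ℂ] H} (hA : BetaLc S A) {x : H}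
    (hx : ∀ j, S.P j x = x) (j : ℕ) : S.P j (A x) = A x := by
  have h : (A * S.P j) x = (S.P j * A) x := by rw [(hA.p j).eq]
  have h2 : A (S.P j x) = S.P j (A x) := h
  rw [hx j] at h2
  exact h2.symm

namespace PBlock

variable {S : Chain H} (B : PBlock S)

theorem lcX : BetaLc S B.X := fun j C hC => B.loc j _ (by simp) C hC

theorem lcU : BetaLc S B.U := fun j C hC => B.loc j _ (by simp) C hC

theorem lcE : BetaLc S B.E := fun j C hC => B.loc j _ (by simp) C hC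

theorem lcF : BetaLc S B.F := fun j C hC => B.loc j _ (by simp) C hC

theorem lcY : BetaLc S B.Y := (B.lcE.mul B.lcF).smul _

theorem lcXp (y : Bool) : BetaLc S (B.Xp y) := by
  unfold Xp
  cases y
  · exact BetaLc.one
  · exact B.lcX

theorem preLam_comm_P (j : ℕ) (k : ℕ) : Commute (S.P j) (pre S.Λ k) := by
  apply beta_aux_pre_comm
  intro i
  unfold Chain.Λ
  refine ((Commute.one_right _).smul_right _).add_right (Commute.smul_right ?_ _)
  by_cases hij : j = i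
  · subst hij
    exact S.commPD j
  · exact S.comm j i hij _ (by simp) _ (by simp)

theorem core_comm_P (y : Bool) (j : ℕ) : Commute (B.core y) (S.P j) := by
  unfold core
  have h1 := (B.lcXp y).p j
  have h2 := B.lcY.p j
  have h3 := B.lcU.p j
  have h4 := (preLam_comm_P (S := S) j S.m).symm
  exact (h1.mul_left ((h2.sub_left (((h2.mul_left h3).add_left (h3.mul_left h2)).smul_left _)).add_left
    ((((h3.mul_left h2).mul_left h3).mul_left h4).smul_left _))).mul_left h1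

end PBlock

/-- beta commutes with the projections P j -/
theorem beta_comm_P {S : Chain H} (B : PBlock S) (j : ℕ) : Commute B.beta (S.P j) := by
  unfold PBlock.beta
  exact ((B.core_comm_P false j).sub_left (B.core_comm_P true j)).smul_left _

namespace Chain

/-- the local factor of N -/
noncomputable def Nf (S : Chain H) (j : ℕ) : H →L[ℂ] H := S.P j + (1 - S.P j) * S.D j

theorem Nf_comm (S : Chain H) (i j : ℕ) : Commute (S.Nf i) (S.Nf j) := by
  by_cases h : i = j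
  · subst h
    exact Commute.refl _
  · have c1 := S.comm i j h
    unfold Nf
    have pp := c1 (S.P i) (by simp) (S.P j) (by simp)
    have pd := c1 (S.P i) (by simp) (S.D j) (by simp)
    have dp := c1 (S.D i) (by simp) (S.P j) (by simp)
    have dd := c1 (S.D i) (by simp) (S.D j) (by simp)
    have a1 : Commute (S.P i) (S.P j + (1 - S.P j) * S.D j) :=
      pp.add_right (((Commute.one_right _).sub_right pp).mul_right pd)
    have a2 : Commute (S.D i) (S.P j + (1 - S.P j) * S.D j) :=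
      dp.add_right (((Commute.one_right _).sub_right dp).mul_right dd)
    exact a1.add_left (((Commute.one_left _).sub_left a1).mul_left a2)

end Chain

theorem beta_aux_proj_nonneg {P : H →L[ℂ] H} (h : IsStarProjection P) : 0 ≤ P := by
  have : P = star P * P := by
    rw [h.isSelfAdjoint.star_eq, h.isIdempotentElem.eq]
  rw [this]
  exact star_mul_self_nonneg P

theorem beta_aux_le_one {D : H →L[ℂ] H} (h0 : 0 ≤ D) (h1 : ‖D‖ ≤ 1) : D ≤ 1 :=
  (CStarAlgebra.norm_le_one_iff_of_nonneg D h0).1 h1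

theorem Chain.Nf_nonneg (S : Chain H) (hD : ∀ j, 0 ≤ S.D j) (j : ℕ) : 0 ≤ S.Nf j := by
  unfold Chain.Nf
  have h1 : 0 ≤ 1 - S.P j := beta_aux_proj_nonneg (S.hP j).one_sub
  exact add_nonneg (beta_aux_proj_nonneg (S.hP j))
    (Commute.mul_nonneg h1 (hD j) ((Commute.one_left _).sub_left (S.commPD j)))

theorem Chain.Nf_le_one (S : Chain H) (hD : ∀ j, 0 ≤ S.D j) (j : ℕ) : S.Nf j ≤ 1 := by
  have h1 : 0 ≤ 1 - S.P j := beta_aux_proj_nonneg (S.hP j).one_sub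
  have h2 : 0 ≤ 1 - S.D j := sub_nonneg.2 (beta_aux_le_one (hD j) (S.hD1 j))
  have h3 : 0 ≤ (1 - S.P j) * (1 - S.D j) :=
    Commute.mul_nonneg h1 h2 ((Commute.one_right _).sub_right
      ((Commute.one_left _).sub_left (S.commPD j)))
  have h4 : (1 - S.P j) * (1 - S.D j) = 1 - S.Nf j := by
    unfold Chain.Nf
    noncomm_ring
  rw [h4] at h3
  exact sub_nonneg.1 h3

theorem beta_aux_pre_nonneg (f : ℕ → (H →L[ℂ] H)) (h0 : ∀ j, 0 ≤ f j) (h1 : ∀ j, f j ≤ 1)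
    (hc : ∀ i j, Commute (f i) (f j)) (k : ℕ) : 0 ≤ pre f k ∧ pre f k ≤ 1 := by
  induction k with
  | zero => exact ⟨zero_le_one, le_rfl⟩
  | succ k ih =>
    have c1 : Commute (f k) (pre f k) := beta_aux_pre_comm _ _ (fun j => hc k j) k
    refine ⟨Commute.mul_nonneg (h0 k) ih.1 c1, ?_⟩
    have h2 : 0 ≤ f k * (1 - pre f k) :=
      Commute.mul_nonneg (h0 k) (sub_nonneg.2 ih.2) ((Commute.one_right _).sub_right c1)
    have h3 : 0 ≤ 1 - f k := sub_nonneg.2 (h1 k)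
    have h4 : 1 - f k * pre f k = (1 - f k) + f k * (1 - pre f k) := by noncomm_ring
    have h5 : 0 ≤ 1 - f k * pre f k := by
      rw [h4]
      exact add_nonneg h3 h2
    exact sub_nonneg.1 h5

theorem beta_aux_refl_norm {N : H →L[ℂ] H} (h0 : 0 ≤ N) (h1 : N ≤ 1) :
    ‖(2 : ℂ) • N - 1‖ ≤ 1 := by
  have hs : star N = N := (IsSelfAdjoint.of_nonneg h0).star_eq
  have hc : Commute N (1 - N) := (Commute.one_right _).sub_right (Commute.refl _)
  have h2 : 0 ≤ N * (1 - N) := Commute.mul_nonneg h0 (sub_nonneg.2 h1) hc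
  have h3 : star ((2 : ℂ) • N - 1) * ((2 : ℂ) • N - 1) = 1 - (4 : ℂ) • (N * (1 - N)) := by
    rw [star_sub, star_smul, hs, star_one]
    have : star (2 : ℂ) = 2 := by simp
    rw [this, sub_mul, mul_sub, smul_mul_smul_comm, mul_one, one_mul, mul_sub, mul_one]
    module
  have h4 : star ((2 : ℂ) • N - 1) * ((2 : ℂ) • N - 1) ≤ 1 := by
    rw [h3]
    apply sub_le_self
    have e4 : (4 : ℂ) • (N * (1 - N)) = (4 : ℝ) • (N * (1 - N)) := by
      rw [← Complex.coe_smul]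
      norm_num
    rw [e4]
    exact smul_nonneg (by norm_num) h2
  have h5 : ‖star ((2 : ℂ) • N - 1) * ((2 : ℂ) • N - 1)‖ ≤ 1 :=
    (CStarAlgebra.norm_le_one_iff_of_nonneg _ (star_mul_self_nonneg _)).2 h4
  rw [CStarRing.norm_star_mul_self] at h5
  nlinarith [norm_nonneg ((2 : ℂ) • N - 1)]

theorem beta_aux_sa {A : H →L[ℂ] H} (h : star A = A) (x y : H) : ⟪A x, y⟫_ℂ = ⟪x, A y⟫_ℂ := by
  have h1 := ContinuousLinearMap.adjoint_inner_right A x y
  rw [← ContinuousLinearMap.star_eq_adjoint, h] at h1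
  exact h1.symm

theorem beta_aux_comm_apply {A B : H →L[ℂ] H} (h : Commute A B) (x : H) : A (B x) = B (A x) := by
  have h1 : (A * B) x = (B * A) x := by rw [h.eq]
  exact h1

theorem beta_aux_fix_pre {S : Chain H} (f : ℕ → (H →L[ℂ] H)) (j : ℕ)
    (k : ℕ) (hf : ∀ i, i < k → Commute (f i) (S.P j)) {x : H} (hx : S.P j x = x) :
    S.P j (pre f k x) = pre f k x := by
  induction k with
  | zero => exact hx
  | succ k ih =>
    show S.P j (f k (pre f k x)) = f k (pre f k x)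
    rw [← beta_aux_comm_apply (hf k (Nat.lt_succ_self k)), ih fun i hi => hf i (by omega)]

theorem beta_aux_pre_comm_lt (f : ℕ → (H →L[ℂ] H)) (A : H →L[ℂ] H) (k : ℕ)
    (h : ∀ j, j < k → Commute A (f j)) : Commute A (pre f k) := by
  induction k with
  | zero => exact Commute.one_right A
  | succ k ih => exact (h k (Nat.lt_succ_self k)).mul_right (ih fun j hj => h j (by omega))

theorem Chain.phi_P_comm (S : Chain H) (i j : ℕ) (h : i ≠ j) : Commute (S.Φ i) (S.P j) :=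
  S.comm i j h _ (by simp) _ (by simp)

theorem beta_aux_PPhi (S : Chain H) (j : ℕ) {x : H} (hx : S.P j x = x) :
    S.P j (S.Φ j x) = (S.c j : ℂ) • x := by
  have h : (S.P j * S.Φ j * S.P j) x = ((S.c j : ℂ) • S.P j) x := by rw [S.hPΦ j]
  have h2 : S.P j (S.Φ j (S.P j x)) = (S.c j : ℂ) • S.P j x := h
  rw [hx] at h2
  exact h2

theorem beta_aux_innerPhi (S : Chain H) (α β : H) (hα : ∀ j, S.P j α = α)
    (hβ : ∀ j, S.P j β = β) (k : ℕ) :
    ⟪pre S.Φ k α, β⟫_ℂ = ((∏ j ∈ Finset.range k, S.c j : ℝ) : ℂ) * ⟪α, β⟫_ℂ := by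
  induction k with
  | zero =>
    show ⟪α, β⟫_ℂ = _
    simp
  | succ k ih =>
    show ⟪S.Φ k (pre S.Φ k α), β⟫_ℂ = _
    have hx : S.P k (pre S.Φ k α) = pre S.Φ k α :=
      beta_aux_fix_pre S.Φ k k (fun i hi => S.phi_P_comm i k (by omega)) (hα k)
    have hs : star (S.P k) = S.P k := (S.hP k).isSelfAdjoint.star_eq
    calc ⟪S.Φ k (pre S.Φ k α), β⟫_ℂ = ⟪S.Φ k (pre S.Φ k α), S.P k β⟫_ℂ := by rw [hβ k]
      _ = ⟪S.P k (S.Φ k (pre S.Φ k α)), β⟫_ℂ := (beta_aux_sa hs _ _).symm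
      _ = ⟪(S.c k : ℂ) • pre S.Φ k α, β⟫_ℂ := by rw [beta_aux_PPhi S k hx]
      _ = (S.c k : ℂ) * ⟪pre S.Φ k α, β⟫_ℂ := by
        rw [inner_smul_left]
        simp
      _ = _ := by
        rw [ih, Finset.prod_range_succ]
        push_cast
        ring

theorem beta_aux_gate (S : Chain H) (j : ℕ) {x y : H} (hx : S.P j x = x) (hy : S.P j y = y) :
    ⟪S.Φ j x, S.Nf j (S.Φ j y)⟫_ℂ = ⟪S.Λ j x, y⟫_ℂ := by
  have hs : star (S.P j) = S.P j := (S.hP j).isSelfAdjoint.star_eq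
  have hPP : ∀ z, S.P j (S.P j z) = S.P j z := by
    intro z
    have h : (S.P j * S.P j) z = S.P j z := by rw [(S.hP j).isIdempotentElem.eq]
    exact h
  have hDy : S.P j (S.D j y) = S.D j y := by
    rw [beta_aux_comm_apply (S.commPD j), hy]
  have hiso : ∀ u v, ⟪S.Φ j u, S.Φ j v⟫_ℂ = ⟪u, v⟫_ℂ := by
    intro u v
    have h1 := ContinuousLinearMap.adjoint_inner_right (S.Φ j) u (S.Φ j v)
    rw [← ContinuousLinearMap.star_eq_adjoint] at h1
    rw [← h1]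
    have h2 : (star (S.Φ j) * S.Φ j) v = v := by rw [S.hΦ j]; rfl
    have h3 : star (S.Φ j) (S.Φ j v) = v := h2
    rw [h3]
  have e1 : ∀ v, S.P j v = v → ⟪S.Φ j x, S.P j (S.Φ j v)⟫_ℂ = ((S.c j ^ 2 : ℝ) : ℂ) * ⟪x, v⟫_ℂ := by
    intro v hv
    calc ⟪S.Φ j x, S.P j (S.Φ j v)⟫_ℂ = ⟪S.Φ j x, S.P j (S.P j (S.Φ j v))⟫_ℂ := by rw [hPP]
      _ = ⟪S.P j (S.Φ j x), S.P j (S.Φ j v)⟫_ℂ := (beta_aux_sa hs _ _).symm
      _ = ⟪(S.c j : ℂ) • x, (S.c j : ℂ) • v⟫_ℂ := by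
        rw [beta_aux_PPhi S j hx, beta_aux_PPhi S j hv]
      _ = _ := by
        rw [inner_smul_left, inner_smul_right]
        simp
        ring
  have hN : S.Nf j (S.Φ j y) = S.P j (S.Φ j y) + (S.Φ j (S.D j y) - S.P j (S.Φ j (S.D j y))) := by
    unfold Chain.Nf
    show S.P j (S.Φ j y) + (S.D j (S.Φ j y) - S.P j (S.D j (S.Φ j y))) = _
    rw [← beta_aux_comm_apply (S.commΦD j)]
  rw [hN, inner_add_right, inner_sub_right, e1 y hy, e1 _ hDy, hiso]
  unfold Chain.Λ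
  show _ = ⟪((S.c j ^ 2 : ℝ) : ℂ) • x + (S.w j : ℂ) • S.D j x, y⟫_ℂ
  rw [inner_add_left, inner_smul_left, inner_smul_left, beta_aux_sa (S.hD j)]
  have hcw : (S.w j : ℂ) = 1 - ((S.c j ^ 2 : ℝ) : ℂ) := by
    have := S.hcw j
    have h2 : S.w j = 1 - S.c j ^ 2 := by linarith
    rw [h2]
    push_cast
    ring
  rw [hcw]
  simp
  ring

theorem beta_aux_lam_sa (S : Chain H) (j : ℕ) : star (S.Λ j) = S.Λ j := by
  unfold Chain.Λ
  rw [star_add, star_smul, star_smul, star_one, S.hD j]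
  simp

theorem beta_aux_lam_comm_P (S : Chain H) (i j : ℕ) : Commute (S.Λ i) (S.P j) := by
  unfold Chain.Λ
  refine ((Commute.one_left _).smul_left _).add_left (Commute.smul_left ?_ _)
  by_cases h : i = j
  · subst h
    exact (S.commPD i).symm
  · exact S.comm i j h _ (by simp) _ (by simp)

theorem beta_aux_lam_comm (S : Chain H) (i j : ℕ) (h : i ≠ j) (A : H →L[ℂ] H)
    (hA : A ∈ ({S.Q j, S.P j, S.O j, S.Φ j, S.D j} : Set (H →L[ℂ] H))) : Commute (S.Λ i) A := by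
  unfold Chain.Λ
  refine ((Commute.one_left _).smul_left _).add_left (Commute.smul_left ?_ _)
  exact S.comm i j h _ (by simp) _ hA

theorem beta_aux_innerN (S : Chain H) (k : ℕ) : ∀ (α β : H), (∀ j, S.P j α = α) →
    (∀ j, S.P j β = β) →
    ⟪pre S.Φ k α, pre S.Nf k (pre S.Φ k β)⟫_ℂ = ⟪pre S.Λ k α, β⟫_ℂ := by
  induction k with
  | zero => intro α β _ _; rfl
  | succ k ih =>
    intro α β hα hβ
    have hNΦ : Commute (S.Φ k) (pre S.Nf k) := by
      apply beta_aux_pre_comm_lt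
      intro j hj
      unfold Chain.Nf
      have a1 : Commute (S.Φ k) (S.P j) := S.comm k j (by omega) _ (by simp) _ (by simp)
      have a2 : Commute (S.Φ k) (S.D j) := S.comm k j (by omega) _ (by simp) _ (by simp)
      exact a1.add_right (((Commute.one_right _).sub_right a1).mul_right a2)
    have hNP : ∀ j, j < k → Commute (S.Nf j) (S.P k) := by
      intro j hj
      unfold Chain.Nf
      have a1 : Commute (S.P j) (S.P k) := S.comm j k (by omega) _ (by simp) _ (by simp)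
      have a2 : Commute (S.D j) (S.P k) := S.comm j k (by omega) _ (by simp) _ (by simp)
      exact a1.add_left (((Commute.one_left _).sub_left a1).mul_left a2)
    have hx : S.P k (pre S.Φ k α) = pre S.Φ k α :=
      beta_aux_fix_pre S.Φ k k (fun i hi => S.phi_P_comm i k (by omega)) (hα k)
    have hy : S.P k (pre S.Φ k β) = pre S.Φ k β :=
      beta_aux_fix_pre S.Φ k k (fun i hi => S.phi_P_comm i k (by omega)) (hβ k)
    have hy2 : S.P k (pre S.Nf k (pre S.Φ k β)) = pre S.Nf k (pre S.Φ k β) :=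
      beta_aux_fix_pre S.Nf k k hNP hy
    have hΛΦ : Commute (S.Λ k) (pre S.Φ k) := by
      apply beta_aux_pre_comm_lt
      intro j hj
      exact beta_aux_lam_comm S k j (by omega) _ (by simp)
    have hΛΛ : Commute (S.Λ k) (pre S.Λ k) := by
      apply beta_aux_pre_comm_lt
      intro j hj
      unfold Chain.Λ
      refine ((Commute.one_left _).smul_left _).add_left (Commute.smul_left ?_ _)
      refine ((Commute.one_right _).smul_right _).add_right (Commute.smul_right ?_ _)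
      exact S.comm k j (by omega) _ (by simp) _ (by simp)
    show ⟪S.Φ k (pre S.Φ k α), S.Nf k (pre S.Nf k (S.Φ k (pre S.Φ k β)))⟫_ℂ =
      ⟪S.Λ k (pre S.Λ k α), β⟫_ℂ
    rw [← beta_aux_comm_apply hNΦ, beta_aux_gate S k hx hy2, beta_aux_comm_apply hΛΦ,
      ih (S.Λ k α) β (fun j => by rw [← beta_aux_comm_apply (beta_aux_lam_comm_P S k j), hα j]) hβ,
      beta_aux_comm_apply hΛΛ]

theorem beta_aux_preLam_sa (S : Chain H) (k : ℕ) : star (pre S.Λ k) = pre S.Λ k := by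
  induction k with
  | zero => exact star_one _
  | succ k ih =>
    show star (S.Λ k * pre S.Λ k) = S.Λ k * pre S.Λ k
    have hΛΛ : Commute (S.Λ k) (pre S.Λ k) := by
      apply beta_aux_pre_comm_lt
      intro j hj
      unfold Chain.Λ
      refine ((Commute.one_left _).smul_left _).add_left (Commute.smul_left ?_ _)
      refine ((Commute.one_right _).smul_right _).add_right (Commute.smul_right ?_ _)
      exact S.comm k j (by omega) _ (by simp) _ (by simp)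
    rw [star_mul, ih, beta_aux_lam_sa, hΛΛ.eq]

theorem beta_aux_N_fix (S : Chain H) {α : H} (hα : ∀ j, S.P j α = α) (k : ℕ) :
    pre S.Nf k α = α := by
  induction k with
  | zero => rfl
  | succ k ih =>
    show S.Nf k (pre S.Nf k α) = α
    rw [ih]
    unfold Chain.Nf
    show S.P k α + (S.D k α - S.P k (S.D k α)) = α
    rw [beta_aux_comm_apply (S.commPD k), hα k]
    simp

namespace PBlock

variable {S : Chain H} (B : PBlock S)

theorem hW : IsStarProjection (B.U * B.Uc) := by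
  have hc : Commute B.U B.Uc := B.commUc _ (by simp)
  refine ⟨?_, ?_⟩
  · show B.U * B.Uc * (B.U * B.Uc) = B.U * B.Uc
    have h1 := B.hU.isIdempotentElem.eq
    have h2 := B.hUc.isIdempotentElem.eq
    calc B.U * B.Uc * (B.U * B.Uc) = B.U * (B.Uc * B.U) * B.Uc := by noncomm_ring
      _ = B.U * (B.U * B.Uc) * B.Uc := by rw [hc.eq]
      _ = (B.U * B.U) * (B.Uc * B.Uc) := by noncomm_ring
      _ = B.U * B.Uc := by rw [h1, h2]
  · show star (B.U * B.Uc) = B.U * B.Uc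
    rw [star_mul, B.hU.isSelfAdjoint.star_eq, B.hUc.isSelfAdjoint.star_eq, hc.eq]

theorem R2_sa : star B.R2 = B.R2 := by
  unfold R2
  rw [star_sub, star_smul, star_one, B.hW.isSelfAdjoint.star_eq]
  simp

theorem R2_sq : B.R2 * B.R2 = 1 := by
  unfold R2
  have h := B.hW.isIdempotentElem.eq
  rw [sub_mul, mul_sub, mul_sub, smul_mul_smul_comm, h, mul_one, one_mul, mul_one]
  module

theorem Xp_sa (y : Bool) : star (B.Xp y) = B.Xp y := by
  unfold Xp
  cases y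
  · simp
  · simpa using B.hX

theorem Xp_sq (y : Bool) : B.Xp y * B.Xp y = 1 := by
  unfold Xp
  cases y
  · simp
  · simpa using B.hXX

/-- the middle operator -/
noncomputable def Kop : H →L[ℂ] H :=
  B.Y - ((2 * B.cc ^ 2 : ℝ) : ℂ) • (B.Y * B.U + B.U * B.Y) +
    ((4 * B.cc ^ 2 : ℝ) : ℂ) • (B.U * B.Y * B.U * pre S.Λ S.m)

theorem Uc_apply {α : H} (hα : ∀ j, S.P j α = α) :
    B.Uc α = (B.cc : ℂ) • pre S.Φ S.m α := B.hUcΦ α hα

theorem R2_apply {α : H} (hα : ∀ j, S.P j α = α) :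
    B.R2 α = α - ((2 * B.cc : ℝ) : ℂ) • B.U (pre S.Φ S.m α) := by
  unfold R2
  show α - (2 : ℂ) • B.U (B.Uc α) = _
  rw [B.Uc_apply hα, map_smul, smul_smul]
  push_cast
  rfl

theorem inner_K {α' α : H} (hα' : ∀ j, S.P j α' = α') (hα : ∀ j, S.P j α = α) :
    ⟪B.R2 α', B.Y (pre S.Nf S.m (B.R2 α))⟫_ℂ = ⟪α', B.Kop α⟫_ℂ := by
  have lY := B.lcY
  have lU := B.lcU
  have sU : star B.U = B.U := B.hU.isSelfAdjoint.star_eq
  have nlc : ∀ A : H →L[ℂ] H, BetaLc S A → Commute A (pre S.Nf S.m) := by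
    intro A hA
    apply beta_aux_pre_comm
    intro j
    unfold Chain.Nf
    exact (hA.p j).add_right (((Commute.one_right _).sub_right (hA.p j)).mul_right (hA.d j))
  have sN : star (pre S.Nf S.m) = pre S.Nf S.m :=
    (IsSelfAdjoint.of_nonneg (beta_aux_pre_nonneg S.Nf (S.Nf_nonneg B.hDpos)
      (S.Nf_le_one B.hDpos) S.Nf_comm S.m).1).star_eq
  have hUα : ∀ j, S.P j (B.U α) = B.U α := lU.fix hα
  have hUα' : ∀ j, S.P j (B.U α') = B.U α' := lU.fix hα'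
  have hYU : ∀ j, S.P j (B.Y (B.U α)) = B.Y (B.U α) := lY.fix hUα
  have hUY : ∀ j, S.P j (B.U (B.Y α)) = B.U (B.Y α) := lU.fix (lY.fix hα)
  -- the four terms
  have t1 : ⟪α', B.Y (pre S.Nf S.m α)⟫_ℂ = ⟪α', B.Y α⟫_ℂ := by
    rw [beta_aux_N_fix S hα]
  have t2 : ⟪B.U (pre S.Φ S.m α'), B.Y (pre S.Nf S.m α)⟫_ℂ =
      (B.cc : ℂ) * ⟪α', B.U (B.Y α)⟫_ℂ := by
    rw [beta_aux_N_fix S hα, beta_aux_sa sU, beta_aux_innerPhi S α' _ hα' hUY]
    rfl
  have eYNU : B.Y (pre S.Nf S.m (B.U (pre S.Φ S.m α))) =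
      pre S.Nf S.m (pre S.Φ S.m (B.Y (B.U α))) := by
    rw [← beta_aux_comm_apply (lY.prePhi S.m), ← beta_aux_comm_apply (lU.prePhi S.m),
      ← beta_aux_comm_apply (nlc _ lY)]
  have t3 : ⟪α', B.Y (pre S.Nf S.m (B.U (pre S.Φ S.m α)))⟫_ℂ =
      (B.cc : ℂ) * ⟪α', B.Y (B.U α)⟫_ℂ := by
    rw [eYNU, ← beta_aux_sa sN, beta_aux_N_fix S hα', ← inner_conj_symm,
      beta_aux_innerPhi S _ α' hYU hα', map_mul, inner_conj_symm]
    simp [PBlock.cc]
  have t4 : ⟪B.U (pre S.Φ S.m α'), B.Y (pre S.Nf S.m (B.U (pre S.Φ S.m α)))⟫_ℂ =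
      ⟪α', B.U (B.Y (B.U (pre S.Λ S.m α)))⟫_ℂ := by
    rw [eYNU, beta_aux_comm_apply (lU.prePhi S.m), beta_aux_innerN S S.m _ _ hUα' hYU,
      beta_aux_sa (beta_aux_preLam_sa S S.m), beta_aux_sa sU,
      ← beta_aux_comm_apply (lY.preLam S.m), ← beta_aux_comm_apply (lU.preLam S.m)]
  have hK : B.Kop α = B.Y α - ((2 * B.cc ^ 2 : ℝ) : ℂ) • (B.Y (B.U α) + B.U (B.Y α)) +
      ((4 * B.cc ^ 2 : ℝ) : ℂ) • (B.U (B.Y (B.U (pre S.Λ S.m α)))) := rfl
  rw [hK, B.R2_apply hα', B.R2_apply hα, map_sub, map_sub, map_smul, map_smul,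
    inner_sub_left, inner_sub_right, inner_sub_right, inner_smul_right, inner_smul_left,
    inner_smul_left, inner_smul_right, t1, t2, t3, t4, inner_add_right, inner_sub_right,
    inner_smul_right, inner_smul_right, inner_add_right]
  simp only [Complex.conj_ofReal]
  push_cast
  ring

end PBlock

theorem beta_norm {S : Chain H} (B : PBlock S) (α : H) (hα : ∀ j, S.P j α = α) :
    ‖star B.beta α‖ ≤ 7 / 8 * ‖α‖ := by
  have sN := beta_aux_pre_nonneg S.Nf (S.Nf_nonneg B.hDpos) (S.Nf_le_one B.hDpos) S.Nf_comm S.m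
  have hN := beta_aux_refl_norm sN.1 sN.2
  obtain ⟨N, hNdef⟩ : ∃ N, N = pre S.Nf S.m := ⟨_, rfl⟩
  rw [← hNdef] at hN
  -- fixed vectors
  have hsP : ∀ j, star (S.P j) = S.P j := fun j => (S.hP j).isSelfAdjoint.star_eq
  have hcomm : ∀ j, Commute (star B.beta) (S.P j) := by
    intro j
    have := (beta_comm_P B j).star_star
    rwa [hsP j] at this
  have hγ : ∀ j, S.P j (star B.beta α) = star B.beta α := by
    intro j
    rw [← beta_aux_comm_apply (hcomm j), hα j]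
  obtain ⟨M, hM⟩ : ∃ M : H →L[ℂ] H, M = (1 / 2 : ℂ) • (B.R2 * (B.Y * N) * B.R2 -
    B.X * (B.R2 * (B.Y * N) * B.R2) * B.X) := ⟨_, rfl⟩
  have sX : star B.X = B.X := B.hX
  have key : ∀ α' α : H, (∀ j, S.P j α' = α') → (∀ j, S.P j α = α) →
      ⟪α', B.beta α⟫_ℂ = ⟪α', M α⟫_ℂ := by
    intro α' α h' h
    have e1 : ∀ α' α : H, (∀ j, S.P j α' = α') → (∀ j, S.P j α = α) →
        ⟪α', (B.R2 * (B.Y * N) * B.R2) α⟫_ℂ = ⟪α', B.Kop α⟫_ℂ := by
      intro α' α h' h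
      rw [← B.inner_K h' h, hNdef]
      exact (beta_aux_sa B.R2_sa _ _).symm
    have e2 : B.beta α = (1 / 2 : ℂ) • (B.Kop α - B.X (B.Kop (B.X α))) := rfl
    have e3 : M α = (1 / 2 : ℂ) • ((B.R2 * (B.Y * N) * B.R2) α -
        B.X ((B.R2 * (B.Y * N) * B.R2) (B.X α))) := by
      rw [hM]
      rfl
    rw [e2, e3, inner_smul_right, inner_smul_right, inner_sub_right, inner_sub_right, e1 _ _ h' h,
      ← beta_aux_sa sX, ← beta_aux_sa sX, e1 _ _ (B.lcX.fix h') (B.lcX.fix h)]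
  have hMn : ‖M‖ ≤ 7 / 8 := by
    obtain ⟨X', hX'⟩ : ∃ X', X' = B.R2 * B.X * B.R2 := ⟨_, rfl⟩
    have sX' : star X' = X' := by
      rw [hX', star_mul, star_mul, B.R2_sa, sX, mul_assoc]
    have qX' : X' * X' = 1 := by
      rw [hX']
      calc B.R2 * B.X * B.R2 * (B.R2 * B.X * B.R2) =
          B.R2 * B.X * (B.R2 * B.R2) * B.X * B.R2 := by noncomm_ring
        _ = B.R2 * (B.X * B.X) * B.R2 := by rw [B.R2_sq]; noncomm_ring
        _ = 1 := by rw [B.hXX, mul_one, B.R2_sq]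
    have hT := tbound X' B.E B.F N sX' qX' (proj_refl_norm _ B.hE) (proj_refl_norm _ B.hF) hN
    have hMe : M = B.R2 * ((B.lam : ℂ) • ((1 / 2 : ℂ) • (B.E * B.F * N -
        X' * (B.E * B.F * N) * X'))) * B.R2 := by
      have hR : B.R2 * X' = B.X * B.R2 := by
        rw [hX', ← mul_assoc, ← mul_assoc, B.R2_sq, one_mul]
      have hR' : X' * B.R2 = B.R2 * B.X := by
        rw [hX', mul_assoc, mul_assoc, B.R2_sq, mul_one]
      rw [hM]
      unfold PBlock.Y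
      have a1 : B.R2 * ((B.lam : ℂ) • ((1 / 2 : ℂ) • (B.E * B.F * N -
        X' * (B.E * B.F * N) * X'))) * B.R2 = ((B.lam : ℂ) * (1 / 2 : ℂ)) •
        (B.R2 * (B.E * B.F * N) * B.R2 - (B.R2 * X') * (B.E * B.F * N) * (X' * B.R2)) := by
        rw [smul_smul, mul_smul_comm, smul_mul_assoc]
        congr 1
        noncomm_ring
      rw [a1, hR, hR']
      have a2 : B.R2 * ((B.lam : ℂ) • (B.E * B.F) * N) * B.R2 =
          (B.lam : ℂ) • (B.R2 * (B.E * B.F * N) * B.R2) := by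
        rw [smul_mul_assoc, mul_smul_comm, smul_mul_assoc]
      rw [a2, mul_smul_comm, smul_mul_assoc, ← smul_sub, smul_smul]
      rw [mul_comm (1 / 2 : ℂ)]
      congr 1
    have hR2n : ‖B.R2‖ ≤ 1 := beta_aux_norm_refl _ B.R2_sa B.R2_sq
    rw [hMe]
    calc ‖B.R2 * ((B.lam : ℂ) • ((1 / 2 : ℂ) • (B.E * B.F * N -
        X' * (B.E * B.F * N) * X'))) * B.R2‖ ≤ ‖B.R2‖ * ‖(B.lam : ℂ) • ((1 / 2 : ℂ) •
          (B.E * B.F * N - X' * (B.E * B.F * N) * X'))‖ * ‖B.R2‖ := by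
          refine (norm_mul_le _ _).trans ?_
          gcongr
          exact norm_mul_le _ _
      _ ≤ 1 * (1 * (7 / 8)) * 1 := by
          gcongr
          rw [norm_smul]
          have : ‖(B.lam : ℂ)‖ ≤ 1 := by
            rw [Complex.norm_real, Real.norm_eq_abs, abs_of_nonneg B.hlam0]
            exact B.hlam1
          gcongr
      _ = 7 / 8 := by ring
  -- conclusion
  by_cases h0 : star B.beta α = 0
  · rw [h0, norm_zero]
    positivity
  have hpos : 0 < ‖star B.beta α‖ := norm_pos_iff.2 h0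
  have h1 : ⟪star B.beta α, star B.beta α⟫_ℂ = ⟪α, B.beta (star B.beta α)⟫_ℂ := by
    have := ContinuousLinearMap.adjoint_inner_left B.beta (star B.beta α) α
    rw [← ContinuousLinearMap.star_eq_adjoint] at this
    exact this
  rw [key α _ hα hγ] at h1
  have h2 : ‖star B.beta α‖ ^ 2 = ‖⟪α, M (star B.beta α)⟫_ℂ‖ := by
    rw [← h1, inner_self_eq_norm_sq_to_K]
    simp
  have h3 : ‖⟪α, M (star B.beta α)⟫_ℂ‖ ≤ ‖α‖ * (7 / 8 * ‖star B.beta α‖) := by
    calc ‖⟪α, M (star B.beta α)⟫_ℂ‖ ≤ ‖α‖ * ‖M (star B.beta α)‖ := norm_inner_le_norm _ _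
      _ ≤ ‖α‖ * (‖M‖ * ‖star B.beta α‖) := by
        gcongr
        exact M.le_opNorm _
      _ ≤ ‖α‖ * (7 / 8 * ‖star B.beta α‖) := by gcongr
  rw [← h2] at h3
  nlinarith

/-- contraction commuting with the chain -/
structure BetaCt (S : Chain H) (A : H →L[ℂ] H) : Prop where
  lc : BetaLc S A
  n : ‖A‖ ≤ 1

theorem BetaCt.mul {S : Chain H} {A B : H →L[ℂ] H} (hA : BetaCt S A) (hB : BetaCt S B) :
    BetaCt S (A * B) := ⟨hA.lc.mul hB.lc, beta_aux_mul_le hA.n hB.n⟩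

theorem BetaCt.norm_le {S : Chain H} {A : H →L[ℂ] H} (hA : BetaCt S A) (x : H) :
    ‖A x‖ ≤ ‖x‖ := by
  calc ‖A x‖ ≤ ‖A‖ * ‖x‖ := A.le_opNorm x
    _ ≤ 1 * ‖x‖ := by
      gcongr
      exact hA.n
    _ = ‖x‖ := one_mul _

theorem BetaCt.cr_le {S : Chain H} {A : H →L[ℂ] H} (hA : BetaCt S A) (x : H) :
    S.Cr (A x) ≤ S.Cr x := by
  unfold Chain.Cr
  refine Finset.sum_le_sum fun j _ => ?_
  have h : S.O j ((1 - S.P j) (S.Q j (pre S.ν j (A x)))) =
      A (S.O j ((1 - S.P j) (S.Q j (pre S.ν j x)))) := by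
    have c1 : Commute A (1 - S.P j) := (Commute.one_right _).sub_right (hA.lc.p j)
    rw [beta_aux_comm_apply (hA.lc.o j), beta_aux_comm_apply c1, beta_aux_comm_apply (hA.lc.q j),
      beta_aux_comm_apply (hA.lc.preNu j)]
  rw [h]
  have := hA.norm_le (S.O j ((1 - S.P j) (S.Q j (pre S.ν j x))))
  gcongr

theorem BetaCt.ka_le {S : Chain H} {A : H →L[ℂ] H} (hA : BetaCt S A) (x : H) :
    S.Ka (A x) ≤ S.Ka x := by
  unfold Chain.Ka
  refine Finset.sum_le_sum fun j _ => ?_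
  have h : (1 - S.O j) (A x) = A ((1 - S.O j) x) := by
    have c1 : Commute A (1 - S.O j) := (Commute.one_right _).sub_right (hA.lc.o j)
    rw [beta_aux_comm_apply c1]
  rw [h]
  have := hA.norm_le ((1 - S.O j) x)
  gcongr

theorem beta_aux_W_nonneg (S : Chain H) : 0 ≤ S.W :=
  (Finset.sum_nonneg fun j _ => S.hw j).trans S.hW

theorem beta_aux_err_le {S : Chain H} {A A' : H →L[ℂ] H} (hA : BetaCt S A) (hA' : BetaCt S A')
    (η' η : H) : S.Err (A' η') (A η) ≤ S.Err η' η := by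
  unfold Chain.Err
  have hK : 0 ≤ S.K := by
    unfold Chain.K
    have := beta_aux_W_nonneg S
    positivity
  have h1 := hA.cr_le η
  have h2 := hA'.cr_le η'
  have h3 := hA.ka_le η
  have h4 := hA'.ka_le η'
  have h5 := hA.norm_le η
  have h6 := hA'.norm_le η'
  gcongr

theorem beta_aux_err_nonneg (S : Chain H) (η' η : H) : 0 ≤ S.Err η' η := by
  unfold Chain.Err
  have hK : 0 ≤ S.K := by
    unfold Chain.K
    have := beta_aux_W_nonneg S
    positivity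
  positivity

theorem beta_aux_c_le (S : Chain H) (j : ℕ) : S.c j ≤ 1 := by
  have h1 := S.hcw j
  have h2 := S.hw j
  have h3 := S.hc j
  nlinarith

theorem PBlock.cc_nonneg {S : Chain H} (B : PBlock S) : 0 ≤ B.cc :=
  Finset.prod_nonneg fun j _ => S.hc j

theorem PBlock.cc_le {S : Chain H} (B : PBlock S) : B.cc ≤ 1 :=
  Finset.prod_le_one (fun j _ => S.hc j) fun j _ => beta_aux_c_le S j

theorem beta_aux_proj_norm {P : H →L[ℂ] H} (h : IsStarProjection P) : ‖P‖ ≤ 1 := by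
  have h1 : ‖star P * P‖ = ‖P‖ := by
    rw [h.isSelfAdjoint.star_eq, h.isIdempotentElem.eq]
  rw [CStarRing.norm_star_mul_self] at h1
  by_contra hc
  push Not at hc
  nlinarith

theorem PBlock.ctXp {S : Chain H} (B : PBlock S) (y : Bool) : BetaCt S (B.Xp y) :=
  ⟨B.lcXp y, beta_aux_norm_refl _ (B.Xp_sa y) (B.Xp_sq y)⟩

theorem PBlock.ctU {S : Chain H} (B : PBlock S) : BetaCt S B.U :=
  ⟨B.lcU, beta_aux_proj_norm B.hU⟩

theorem PBlock.ctY {S : Chain H} (B : PBlock S) : BetaCt S B.Y := by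
  refine ⟨B.lcY, ?_⟩
  unfold PBlock.Y
  rw [norm_smul, Complex.norm_real, Real.norm_eq_abs, abs_of_nonneg B.hlam0]
  calc B.lam * ‖B.E * B.F‖ ≤ 1 * 1 := by
        gcongr
        · exact B.hlam1
        · exact beta_aux_mul_le (beta_aux_proj_norm B.hE) (beta_aux_proj_norm B.hF)
    _ = 1 := by ring

/-- one term of the peeling -/
theorem beta_aux_peel {S : Chain H} (B : PBlock S) (T : H →L[ℂ] H) (hT : BetaCt S T)
    (hTU : Commute T B.U) (a' a : H) (h' : ∀ j, S.P j a' = a') (h : ∀ j, S.P j a = a) :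
    ‖⟪B.R2 a', B.Y (T (pre S.Q S.m (B.R2 a)))⟫_ℂ - ⟪a', B.Kop (T (pre S.Q S.m a))⟫_ℂ‖ ≤
      8 * S.Err a' a := by
  have sU : star B.U = B.U := B.hU.isSelfAdjoint.star_eq
  have cY := B.ctY
  have cU := B.ctU
  have hc0 := B.cc_nonneg
  have hc1 := B.cc_le
  have fixT : ∀ {A : H →L[ℂ] H}, BetaCt S A → ∀ j, S.P j (A a) = A a := fun hA => hA.lc.fix h
  -- second term
  have g2 := chain_E1' S a' ((B.U * B.Y * T) a) h' (fixT ((cU.mul cY).mul hT))
  have g3 := chain_E1 S a' ((B.Y * T * B.U) a) h' (fixT ((cY.mul hT).mul cU))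
  have g4 := chain_E2 S a' ((B.U * B.Y * T * B.U) a) h' (fixT (((cU.mul cY).mul hT).mul cU))
  have one : BetaCt S (1 : H →L[ℂ] H) := ⟨BetaLc.one, beta_aux_norm_one_le⟩
  have b2 : S.Err a' ((B.U * B.Y * T) a) ≤ S.Err a' a :=
    beta_aux_err_le ((cU.mul cY).mul hT) one a' a
  have b3 : S.Err a' ((B.Y * T * B.U) a) ≤ S.Err a' a :=
    beta_aux_err_le ((cY.mul hT).mul cU) one a' a
  have b4 : S.Err a' ((B.U * B.Y * T * B.U) a) ≤ S.Err a' a :=
    beta_aux_err_le (((cU.mul cY).mul hT).mul cU) one a' a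
  have e2 : ⟪B.U (pre S.Φ S.m a'), B.Y (T (pre S.Q S.m a))⟫_ℂ =
      ⟪pre S.Φ S.m a', pre S.Q S.m ((B.U * B.Y * T) a)⟫_ℂ := by
    rw [beta_aux_sa sU, ← beta_aux_comm_apply (((cU.mul cY).mul hT).lc.preQ S.m)]
    rfl
  have e3 : ⟪a', B.Y (T (pre S.Q S.m (B.U (pre S.Φ S.m a))))⟫_ℂ =
      ⟪a', pre S.Q S.m (pre S.Φ S.m ((B.Y * T * B.U) a))⟫_ℂ := by
    rw [← beta_aux_comm_apply (((cY.mul hT).mul cU).lc.prePhi S.m),
      ← beta_aux_comm_apply (((cY.mul hT).mul cU).lc.preQ S.m)]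
    show _ = ⟪a', B.Y (T (B.U (pre S.Q S.m (pre S.Φ S.m a))))⟫_ℂ
    rw [beta_aux_comm_apply (cU.lc.preQ S.m)]
  have e4 : ⟪B.U (pre S.Φ S.m a'), B.Y (T (pre S.Q S.m (B.U (pre S.Φ S.m a))))⟫_ℂ =
      ⟪pre S.Φ S.m a', pre S.Q S.m (pre S.Φ S.m ((B.U * B.Y * T * B.U) a))⟫_ℂ := by
    rw [beta_aux_sa sU, ← beta_aux_comm_apply ((((cU.mul cY).mul hT).mul cU).lc.prePhi S.m),
      ← beta_aux_comm_apply ((((cU.mul cY).mul hT).mul cU).lc.preQ S.m)]
    show _ = ⟪pre S.Φ S.m a', B.U (B.Y (T (B.U (pre S.Q S.m (pre S.Φ S.m a)))))⟫_ℂ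
    rw [beta_aux_comm_apply (cU.lc.preQ S.m)]
  have f2 : ⟪a', pre S.Q S.m ((B.U * B.Y * T) a)⟫_ℂ =
      ⟪a', B.U (B.Y (T (pre S.Q S.m a)))⟫_ℂ := by
    rw [← beta_aux_comm_apply (((cU.mul cY).mul hT).lc.preQ S.m)]
    rfl
  have f3 : ⟪a', pre S.Q S.m ((B.Y * T * B.U) a)⟫_ℂ =
      ⟪a', B.Y (B.U (T (pre S.Q S.m a)))⟫_ℂ := by
    rw [← beta_aux_comm_apply (((cY.mul hT).mul cU).lc.preQ S.m)]
    show ⟪a', B.Y (T (B.U (pre S.Q S.m a)))⟫_ℂ = _
    rw [beta_aux_comm_apply hTU]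
  have f4 : ⟪pre S.Λ S.m a', pre S.Q S.m ((B.U * B.Y * T * B.U) a)⟫_ℂ =
      ⟪a', B.U (B.Y (B.U (pre S.Λ S.m (T (pre S.Q S.m a)))))⟫_ℂ := by
    rw [beta_aux_sa (beta_aux_preLam_sa S S.m),
      ← beta_aux_comm_apply ((((cU.mul cY).mul hT).mul cU).lc.preQ S.m),
      ← beta_aux_comm_apply ((((cU.mul cY).mul hT).mul cU).lc.preLam S.m)]
    show ⟪a', B.U (B.Y (T (B.U (pre S.Λ S.m (pre S.Q S.m a)))))⟫_ℂ = _
    rw [beta_aux_comm_apply hTU, beta_aux_comm_apply (hT.lc.preLam S.m)]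
  have hK : ∀ z, B.Kop z = B.Y z - ((2 * B.cc ^ 2 : ℝ) : ℂ) • (B.Y (B.U z) + B.U (B.Y z)) +
      ((4 * B.cc ^ 2 : ℝ) : ℂ) • (B.U (B.Y (B.U (pre S.Λ S.m z)))) := fun z => rfl
  have hcc : ((∏ j ∈ Finset.range S.m, S.c j : ℝ) : ℂ) = (B.cc : ℂ) := rfl
  rw [hcc] at g2 g3
  rw [f2] at g2
  rw [f3] at g3
  rw [f4] at g4
  rw [← e2] at g2
  rw [← e3] at g3
  rw [← e4] at g4
  have main : ⟪B.R2 a', B.Y (T (pre S.Q S.m (B.R2 a)))⟫_ℂ -
      ⟪a', B.Kop (T (pre S.Q S.m a))⟫_ℂ =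
      -(2 * (B.cc : ℂ)) * (⟪B.U (pre S.Φ S.m a'), B.Y (T (pre S.Q S.m a))⟫_ℂ -
        (B.cc : ℂ) * ⟪a', B.U (B.Y (T (pre S.Q S.m a)))⟫_ℂ) -
      (2 * (B.cc : ℂ)) * (⟪a', B.Y (T (pre S.Q S.m (B.U (pre S.Φ S.m a))))⟫_ℂ -
        (B.cc : ℂ) * ⟪a', B.Y (B.U (T (pre S.Q S.m a)))⟫_ℂ) +
      (4 * (B.cc : ℂ) ^ 2) *
        (⟪B.U (pre S.Φ S.m a'), B.Y (T (pre S.Q S.m (B.U (pre S.Φ S.m a))))⟫_ℂ -
        ⟪a', B.U (B.Y (B.U (pre S.Λ S.m (T (pre S.Q S.m a)))))⟫_ℂ) := by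
    rw [B.R2_apply h', B.R2_apply h, hK]
    simp only [map_sub, map_smul, inner_sub_left, inner_sub_right, inner_smul_left,
      inner_smul_right, inner_add_right, Complex.conj_ofReal]
    push_cast
    ring
  rw [main]
  have n1 : ‖-(2 * (B.cc : ℂ))‖ = 2 * B.cc := by
    rw [norm_neg, norm_mul, Complex.norm_real, Real.norm_eq_abs, abs_of_nonneg hc0]
    norm_num
  have n2 : ‖(2 * (B.cc : ℂ))‖ = 2 * B.cc := by
    rw [norm_mul, Complex.norm_real, Real.norm_eq_abs, abs_of_nonneg hc0]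
    norm_num
  have n3 : ‖(4 * (B.cc : ℂ) ^ 2)‖ = 4 * B.cc ^ 2 := by
    rw [norm_mul, norm_pow, Complex.norm_real, Real.norm_eq_abs, abs_of_nonneg hc0]
    norm_num
  have he := beta_aux_err_nonneg S a' a
  have hcc2 : B.cc ^ 2 ≤ 1 := by nlinarith
  refine (norm_add_le _ _).trans ?_
  refine (add_le_add (norm_sub_le _ _) le_rfl).trans ?_
  rw [norm_mul (-(2 * (B.cc : ℂ))), norm_mul (2 * (B.cc : ℂ)), norm_mul (4 * (B.cc : ℂ) ^ 2),
    n1, n2, n3]
  calc _ ≤ 2 * 1 * S.Err a' a + 2 * 1 * S.Err a' a + 4 * 1 * S.Err a' a := by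
        gcongr
        · exact g2.trans b2
        · exact g3.trans b3
        · exact g4.trans b4
    _ = 8 * S.Err a' a := by ring

/-- replacing one block by beta; T is the effect of the other blocks -/
theorem peel_one {S : Chain H} (B : PBlock S) (T : H →L[ℂ] H) (hT : ‖T‖ ≤ 1)
    (hTX : Commute T B.X) (hTU : Commute T B.U) (hTE : Commute T B.E) (hTF : Commute T B.F)
    (hTc : ∀ j, ∀ A ∈ ({S.Q j, S.P j, S.O j, S.Φ j, S.D j} : Set (H →L[ℂ] H)), Commute T A)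
    (hTc' : ∀ j, ∀ A ∈ ({S.Q j, S.P j, S.O j, S.Φ j, S.D j} : Set (H →L[ℂ] H)),
      Commute (star T) A)
    (η' η : H) (h' : ∀ j, S.P j η' = η') (h : ∀ j, S.P j η = η) :
    ‖(1 / 2 : ℂ) * (⟪B.R2 (B.Xp false η'), B.Y (T (pre S.Q S.m (B.R2 (B.Xp false η))))⟫_ℂ -
        ⟪B.R2 (B.Xp true η'), B.Y (T (pre S.Q S.m (B.R2 (B.Xp true η))))⟫_ℂ) -
      ⟪star B.beta η', T (pre S.Q S.m η)⟫_ℂ‖ ≤ 8 * S.Err η' η := by
  have cT : BetaCt S T := ⟨hTc, hT⟩
  have hXp : ∀ y, Commute T (B.Xp y) := by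
    intro y
    unfold PBlock.Xp
    cases y
    · exact Commute.one_right _
    · exact hTX
  have k : ∀ y, ‖⟪B.R2 (B.Xp y η'), B.Y (T (pre S.Q S.m (B.R2 (B.Xp y η))))⟫_ℂ -
      ⟪η', B.Xp y (B.Kop (B.Xp y (T (pre S.Q S.m η))))⟫_ℂ‖ ≤ 8 * S.Err η' η := by
    intro y
    have h1 := beta_aux_peel B T cT hTU (B.Xp y η') (B.Xp y η) ((B.lcXp y).fix h')
      ((B.lcXp y).fix h)
    have h2 : ⟪B.Xp y η', B.Kop (T (pre S.Q S.m (B.Xp y η)))⟫_ℂ =
        ⟪η', B.Xp y (B.Kop (B.Xp y (T (pre S.Q S.m η))))⟫_ℂ := by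
      rw [beta_aux_sa (B.Xp_sa y), ← beta_aux_comm_apply ((B.lcXp y).preQ S.m),
        beta_aux_comm_apply (hXp y)]
    rw [h2] at h1
    refine h1.trans ?_
    have := beta_aux_err_le (B.ctXp y) (B.ctXp y) η' η
    linarith
  have hb : ⟪star B.beta η', T (pre S.Q S.m η)⟫_ℂ = (1 / 2 : ℂ) *
      (⟪η', B.Xp false (B.Kop (B.Xp false (T (pre S.Q S.m η))))⟫_ℂ -
        ⟪η', B.Xp true (B.Kop (B.Xp true (T (pre S.Q S.m η))))⟫_ℂ) := by
    have e1 := ContinuousLinearMap.adjoint_inner_left B.beta (T (pre S.Q S.m η)) η'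
    rw [← ContinuousLinearMap.star_eq_adjoint] at e1
    rw [e1]
    have e2 : B.beta (T (pre S.Q S.m η)) = (1 / 2 : ℂ) •
        (B.Xp false (B.Kop (B.Xp false (T (pre S.Q S.m η)))) -
          B.Xp true (B.Kop (B.Xp true (T (pre S.Q S.m η))))) := rfl
    rw [e2, inner_smul_right, inner_sub_right]
  rw [hb]
  have e3 : ∀ a b c d : ℂ, (1 / 2 : ℂ) * (a - b) - (1 / 2 : ℂ) * (c - d) =
      (1 / 2 : ℂ) * (a - c) - (1 / 2 : ℂ) * (b - d) := by
    intro a b c d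
    ring
  rw [e3]
  refine (norm_sub_le _ _).trans ?_
  rw [norm_mul, norm_mul]
  have hh : ‖(1 / 2 : ℂ)‖ = 1 / 2 := by norm_num
  rw [hh]
  have k1 := k false
  have k2 := k true
  linarith

end Beta

end P368
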