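import Vale.Agent.P368.CandB

namespace P368.D3

open Matrix
open scoped BigOperators InnerProductSpace ComplexOrder Matrix.Norms.L2Operator

namespace Dat

variable {V : Type} [Fintype V] [DecidableEq V] (d : Dat V)

theorem mem_O (K : Finset V) (hK : Disjoint d.Cand K) (h : d.Cand) (q : V) :
    q ∈ (d.ps K hK).O h ↔ rep d.cg q = rep d.cg h.1 := by
  simp [ps]

/-- the reflection of a block is the gate seen above the second layer of one-qubit gates -/
theorem R_eq (K : Finset V) (hK : Disjoint d.Cand K) (h : d.Cand) :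
    (d.ps K hK).R h =
      prodOp d.W₁ * (1 - (2 : ℂ) • Ug d.cg (rep d.cg h.1)) * star (prodOp d.W₁) := by
  have htr : (d.ps K hK).tr h = decide (¬ (d.cg (rep d.cg h.1)).Nonempty) := rfl
  unfold PS.R
  rw [htr]
  by_cases hr : (d.cg (rep d.cg h.1)).Nonempty
  · have h0 : decide (¬ (d.cg (rep d.cg h.1)).Nonempty) = false := by simp [hr]
    rw [h0]
    simp only [Bool.false_eq_true, if_false]
    rw [mul_sub, mul_one, sub_mul, prodOp_mul_star _ d.hW₁, mul_smul_comm, smul_mul_assoc]
    congr 2
    unfold Ug
    rw [if_pos hr, prodOp_star, prodOp_mul, prodOp_mul]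
    unfold onSet
    congr 1
    funext q
    have hmem : q ∈ ((d.ps K hK).O h : Set V) ↔ q ∈ gate d.cg (rep d.cg h.1) := by
      rw [Finset.mem_coe, d.mem_O, rep_iff d.hcg hr]
    have hth : (d.ps K hK).th q = d.W₁ q *ᵥ gvec d.cg q := rfl
    by_cases hq : q ∈ gate d.cg (rep d.cg h.1)
    · rw [if_pos (hmem.2 hq)]
      change outer ((d.ps K hK).th q) = _
      rw [hth, outer_mulVec]
      have hg : outer (gvec d.cg q) = gfac d.cg (rep d.cg h.1) q := by
        unfold gate at hq
        rw [if_pos hr, Finset.mem_insert] at hq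
        unfold gfac
        rcases hq with hq | hq
        · have h1 : q ∉ d.cg (rep d.cg h.1) := by
            rw [hq]
            exact d.hcg.target_notMem _
          rw [if_neg h1, if_pos hq]
          exact outer_gvec_true (by rwa [hq])
        · rw [if_pos hq]
          refine outer_gvec_false ?_
          intro hqn
          have hne : rep d.cg h.1 ≠ q := fun e => d.hcg.target_notMem _ (e ▸ hq)
          exact Finset.disjoint_left.1 (d.hcg.disjoint _ _ hne hr hqn)
            (Finset.mem_insert_of_mem hq) (Finset.mem_insert_self _ _)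
      rw [hg]
    · rw [if_neg (fun hh => hq (hmem.1 hh))]
      have hg : gfac d.cg (rep d.cg h.1) q = 1 := by
        unfold gate at hq
        rw [if_pos hr, Finset.mem_insert, not_or] at hq
        unfold gfac
        rw [if_neg hq.2, if_neg hq.1]
      rw [hg, mul_one, Unitary.mul_star_self_of_mem (d.hW₁ q)]
  · have h0 : decide (¬ (d.cg (rep d.cg h.1)).Nonempty) = true := by simp [hr]
    rw [h0]
    simp only [if_true]
    unfold Ug
    rw [if_neg hr, smul_zero, sub_zero, mul_one, prodOp_mul_star _ d.hW₁]

/-- representatives of the gates that carry no block of `J` -/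
def SJ (J : Finset d.Cand) : Set V := {v | ∀ h ∈ J, rep d.cg h.1 ≠ v}

open Classical in
/-- the first layer gates that carry no block of `J` -/
noncomputable def AJ (J : Finset d.Cand) : Op V :=
  prodOp d.W₁ * tof (res d.cg (d.SJ J)) * star (prodOp d.W₁)

theorem AJ_empty : d.AJ ∅ = lay d.W₁ d.cg := by
  unfold AJ lay
  congr 2
  congr 1
  funext v
  simp [res, SJ]

theorem AJ_insert (K : Finset V) (hK : Disjoint d.Cand K) (J : Finset d.Cand) (h : d.Cand)
    (hJ : h ∉ J) : d.AJ J = (d.ps K hK).R h * d.AJ (insert h J) := by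
  classical
  rw [R_eq]
  have h1 := d.hcg.tof_insert (d.SJ (insert h J)) (rep d.cg h.1)
    (by
      intro hh
      exact hh h (Finset.mem_insert_self _ _) rfl)
  have h2 : insert (rep d.cg h.1) (d.SJ (insert h J)) = d.SJ J := by
    ext v
    simp only [SJ, Set.mem_insert_iff, Set.mem_ofPred_eq, Finset.mem_insert]
    constructor
    · rintro (rfl | hv) k hk
      · intro e
        have := Subtype.ext (d.hinj _ k.2 _ h.2 e)
        exact hJ (this ▸ hk)
      · exact hv k (Or.inr hk)
    · intro hv
      by_cases hvh : v = rep d.cg h.1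
      · exact Or.inl hvh
      · right
        rintro k (rfl | hk)
        · exact fun e => hvh e.symm
        · exact hv k hk
  have h3 : tof (res d.cg (d.SJ J)) =
      (1 - (2 : ℂ) • Ug d.cg (rep d.cg h.1)) * tof (res d.cg (d.SJ (insert h J))) := by
    rw [← h1]
    congr 1
    funext v
    simp only [res, h2]
  unfold AJ
  rw [h3]
  calc prodOp d.W₁ * ((1 - (2 : ℂ) • Ug d.cg (rep d.cg h.1)) *
        tof (res d.cg (d.SJ (insert h J)))) * star (prodOp d.W₁)
      = prodOp d.W₁ * (1 - (2 : ℂ) • Ug d.cg (rep d.cg h.1)) * 1 *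
        tof (res d.cg (d.SJ (insert h J))) * star (prodOp d.W₁) := by
        rw [mul_one]
        simp only [mul_assoc]
    _ = _ := by
        rw [← prodOp_star_mul _ d.hW₁]
        simp only [mul_assoc]

theorem AJ_mem (J : Finset d.Cand) :
    d.AJ J ∈ locAlg {q | ∀ h ∈ J, rep d.cg h.1 ≠ rep d.cg q} := by
  classical
  unfold AJ
  refine locAlg_conj _ d.hW₁ ?_
  exact d.hcg.tof_res_mem (d.SJ J)

theorem AJ_commute (K : Finset V) (hK : Disjoint d.Cand K) (J : Finset d.Cand) (h : d.Cand)
    (hJ : h ∈ J) {M : Op V} (hM : M ∈ locAlg ((d.ps K hK).O h : Set V)) :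
    Commute (d.AJ J) M := by
  refine locAlg_commute ?_ (d.AJ_mem J) hM
  rw [Set.disjoint_left]
  intro q hq hq'
  rw [Finset.mem_coe, d.mem_O] at hq'
  exact hq h hJ hq'.symm

theorem AJ_star_mul (J : Finset d.Cand) : star (d.AJ J) * d.AJ J = 1 := by
  classical
  unfold AJ
  have hT := (d.hcg.res (d.SJ J)).tof_mul_self
  have hTs := (d.hcg.res (d.SJ J)).star_tof
  rw [star_mul, star_mul, star_star, hTs]
  calc prodOp d.W₁ * (tof (res d.cg (d.SJ J)) * star (prodOp d.W₁)) *
        (prodOp d.W₁ * tof (res d.cg (d.SJ J)) * star (prodOp d.W₁))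
      = prodOp d.W₁ * tof (res d.cg (d.SJ J)) *
        (star (prodOp d.W₁) * prodOp d.W₁) *
        tof (res d.cg (d.SJ J)) * star (prodOp d.W₁) := by
        simp only [mul_assoc]
    _ = prodOp d.W₁ * (tof (res d.cg (d.SJ J)) *
        tof (res d.cg (d.SJ J))) * star (prodOp d.W₁) := by
        rw [prodOp_star_mul _ d.hW₁, mul_one]
        simp only [mul_assoc]
    _ = 1 := by rw [hT, mul_one, prodOp_mul_star _ d.hW₁]

/-- the state above the first layer as a product of block operators -/
theorem state_eq (K₁ : Finset V) (hK₁ : Disjoint d.Cand K₁) (J : Finset d.Cand) :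
    ∀ (I : Finset d.Cand), I ⊆ J → ∀ K : Finset V, (∀ h ∈ J, h.1 ∉ K) →
      act (lay d.W₁ d.cg) (inpVec d.W (K ∪ I.map (Function.Embedding.subtype _))) =
        (d.ps K₁ hK₁).CC J I (act (d.AJ J) (inpVec d.W K)) := by
  induction J using Finset.induction_on with
  | empty =>
    intro I hI K _
    rw [Finset.subset_empty] at hI
    subst hI
    rw [Finset.map_empty, Finset.union_empty, d.AJ_empty]
    have : (d.ps K₁ hK₁).CC ∅ ∅ = 1 := by
      unfold PS.CC mix
      exact Finset.noncommProd_empty _ _
    rw [this]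
    rfl
  | insert h J hJ ih =>
    intro I hI K hK
    set p := d.ps K₁ hK₁ with hp
    have hKJ : ∀ k ∈ J, k.1 ∉ K := fun k hk => hK k (Finset.mem_insert_of_mem hk)
    have hKh : h.1 ∉ K := hK h (Finset.mem_insert_self _ _)
    have hA := d.AJ_insert K₁ hK₁ J h hJ
    have hAX : Commute (d.AJ (insert h J)) (p.X h) :=
      d.AJ_commute K₁ hK₁ (insert h J) h (Finset.mem_insert_self _ _) (p.X_mem_O h)
    -- commuting the block operator of `h` with those of `J`
    have hcomm : ∀ (I' : Finset d.Cand) (b : Bool), Commute (p.Cop b h) (p.CC J I') := by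
      intro I' b
      refine mix_commute _ _ _ _ _ fun k hk b' => ?_
      exact p.Cop_comm h k (fun e => hJ (e ▸ hk)) b b'
    by_cases hhI : h ∈ I
    · -- `I = insert h I'`
      set I' := I.erase h with hI'
      have hIins : I = insert h I' := (Finset.insert_erase hhI).symm
      have hI'J : I' ⊆ J := by
        intro k hk
        have hk1 := Finset.mem_of_mem_erase hk
        rcases Finset.mem_insert.1 (hI hk1) with e | hk2
        · exact absurd e (Finset.ne_of_mem_erase hk)
        · exact hk2
      have hnI' : h ∉ I' := Finset.notMem_erase _ _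
      have e1 : K ∪ I.map (Function.Embedding.subtype _) =
          insert h.1 K ∪ I'.map (Function.Embedding.subtype _) := by
        rw [hIins, Finset.map_insert]
        ext x
        simp only [Finset.mem_union, Finset.mem_insert, Function.Embedding.subtype_apply]
        tauto
      have hK' : ∀ k ∈ J, k.1 ∉ insert h.1 K := by
        intro k hk hh
        rcases Finset.mem_insert.1 hh with e | hh
        · exact hJ (Subtype.ext e ▸ hk)
        · exact hKJ k hk hh
      rw [e1, ih I' hI'J (insert h.1 K) hK', inpVec_insert d.W d.hW K h.1 hKh]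
      have e2 : act (d.AJ J) (act (site h.1 (d.W h.1 * xm * star (d.W h.1))) (inpVec d.W K)) =
          p.Cop true h (act (d.AJ (insert h J)) (inpVec d.W K)) := by
        have e3 : p.Cop true h = act (p.R h * p.X h) := rfl
        have e4 : site h.1 (d.W h.1 * xm * star (d.W h.1)) = p.X h := rfl
        rw [e3, e4, ← top_act_mul_apply, ← top_act_mul_apply, hA, mul_assoc, hAX.eq, ← mul_assoc]
      rw [e2]
      have e5 : p.CC (insert h J) I = p.Cop true h * p.CC J I' := by
        rw [hIins]
        exact mix_insert_both _ _ _ _ _ hJ hnI'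
      rw [e5, (hcomm I' true).eq]
      rfl
    · have hIJ : I ⊆ J := by
        intro k hk
        rcases Finset.mem_insert.1 (hI hk) with e | hk2
        · exact absurd (e ▸ hk) hhI
        · exact hk2
      rw [ih I hIJ K hKJ]
      have e2 : act (d.AJ J) (inpVec d.W K) =
          p.Cop false h (act (d.AJ (insert h J)) (inpVec d.W K)) := by
        have e3 : p.Cop false h = act (p.R h) := rfl
        rw [e3, ← top_act_mul_apply, hA]
      rw [e2]
      have e5 : p.CC (insert h J) I = p.Cop false h * p.CC J I :=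
        mix_insert_left _ _ _ _ _ hJ hhI
      rw [e5, (hcomm I false).eq]
      rfl

/-- the reference vectors are in the domain -/
theorem dom_eq (K₁ : Finset V) (hK₁ : Disjoint d.Cand K₁) (J : Finset d.Cand) (K : Finset V)
    (hK : ∀ h ∈ J, ∀ q, rep d.cg q = rep d.cg h.1 → (q ∈ K ↔ q ∈ K₁)) :
    (d.ps K₁ hK₁).Dom J (act (d.AJ J) (inpVec d.W K)) := by
  intro h hh
  set p := d.ps K₁ hK₁ with hp
  have hc : Commute (d.AJ J) (p.Pf h) := d.AJ_commute K₁ hK₁ J h hh (onSet_mem _ _)
  rw [← top_act_mul_apply, ← hc.eq, top_act_mul_apply]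
  congr 1
  rw [inpVec_kron]
  unfold PS.Pf onSet
  rw [act_kron]
  congr 1
  funext q
  by_cases hq : q ∈ (p.O h : Set V)
  · rw [if_pos hq]
    have hq' : rep d.cg q = rep d.cg h.1 := by
      rwa [Finset.mem_coe, d.mem_O] at hq
    have e1 : (fun b => d.W q b (decide (q ∈ K))) = d.qv K₁ q := by
      have e2 : decide (q ∈ K) = decide (q ∈ K₁) := by
        rw [decide_eq_decide]
        exact hK h hh q hq'
      funext b
      unfold qv
      rw [e2]
      simp
    rw [e1]
    have e3 : p.pi q = ph (d.ov K₁ q) • d.qv K₁ q := rfl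
    funext b
    have e4 : (outer (p.pi q) *ᵥ d.qv K₁ q) b =
        (star (ph (d.ov K₁ q)) * ph (d.ov K₁ q)) * (∑ b', star (d.qv K₁ q b') * d.qv K₁ q b') *
          d.qv K₁ q b := by
      rw [e3]
      simp only [outer, Matrix.mulVec, dotProduct, Matrix.of_apply, Fintype.sum_bool,
        Pi.smul_apply, smul_eq_mul, star_mul']
      ring
    rw [e4, star_ph_mul, dot_self, d.qv_unit]
    simp
  · rw [if_neg hq, Matrix.one_mulVec]

end Dat

end P368.D3
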