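import Vale.Agent.P368.CoreBound
import Vale.Agent.P368.CandC

namespace P368.D3

open Matrix
open scoped BigOperators InnerProductSpace ComplexOrder Matrix.Norms.L2Operator

/-- one input in each of many different first layer gates -/
theorem cand_bound (ε : ℝ) (hε : 0 < ε) : ∃ N : ℕ, ∀ (V : Type) [Fintype V] [DecidableEq V]
    (c cg : V → Finset V) (_hc : Good c) (_hcg : Good cg) (W₁ W : V → M2)
    (_hW₁ : ∀ q, W₁ q ∈ unitary M2) (_hW : ∀ q, W q ∈ unitary M2) (Θ : V → M2) (o : V)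
    (_hΘ : ∀ q, q ≠ o → IsStarProjection (Θ q)) (_ho : ‖Θ o‖ ≤ 1) (In Cand : Finset V),
    Cand ⊆ In → (∀ h ∈ Cand, ∀ h' ∈ Cand, rep cg h = rep cg h' → h = h') →
    (∀ h ∈ Cand, rep cg h ≠ rep cg o) → N ≤ Cand.card →
    ‖sig W₁ W cg (regOp c Θ Set.univ) In‖ ≤ ε := by
  obtain ⟨N, hN⟩ := core_bound ε hε
  refine ⟨N, ?_⟩
  intro V _ _ c cg hc hcg W₁ W hW₁ hW Θ o hΘ ho In Cand hsub hinj hoC hcard
  let d : Dat V := ⟨c, cg, hc, hcg, W₁, W, hW₁, hW, Θ, o, hΘ, ho, Cand, hinj, hoC⟩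
  set f : Finset V → ℂ := fun K => ⟪act (lay W₁ cg) (inpVec W K),
    act (regOp c Θ Set.univ) (act (lay W₁ cg) (inpVec W K))⟫_ℂ with hf
  have e0 : sig W₁ W cg (regOp c Θ Set.univ) In =
      (1 / 2 ^ In.card : ℂ) * ∑ K ∈ In.powerset, (-1 : ℂ) ^ K.card * f K := rfl
  have hIn : (In \ Cand) ∪ Cand = In := Finset.sdiff_union_of_subset hsub
  rw [e0, ← hIn, avg_split _ _ Finset.sdiff_disjoint f]
  refine avg_le _ _ ε fun K₁ hK₁ => ?_
  rw [norm_mul, norm_pow, norm_neg, norm_one, one_pow, one_mul]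
  have hdK : Disjoint d.Cand K₁ := by
    rw [Finset.disjoint_left]
    intro q hq hq'
    exact (Finset.mem_sdiff.1 (Finset.mem_powerset.1 hK₁ hq')).2 hq
  obtain ⟨J, hJ⟩ := hN V d.Cand (d.ps K₁ hdK) (by simpa using hcard)
  set J' : Finset V := J.map (Function.Embedding.subtype _) with hJ'
  have hJ'C : J' ⊆ Cand := by
    intro q hq
    obtain ⟨k, -, rfl⟩ := Finset.mem_map.1 hq
    exact k.2
  have hC : (Cand \ J') ∪ J' = Cand := Finset.sdiff_union_of_subset hJ'C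
  rw [← hC, avg_split _ _ Finset.sdiff_disjoint (fun L => f (K₁ ∪ L))]
  refine avg_le _ _ ε fun K₂ hK₂ => ?_
  rw [norm_mul, norm_pow, norm_neg, norm_one, one_pow, one_mul]
  set a : HV V := act (d.AJ J) (inpVec W (K₁ ∪ K₂)) with ha
  have hnot : ∀ h ∈ J, h.1 ∉ K₁ ∪ K₂ := by
    intro h hh hq
    rcases Finset.mem_union.1 hq with h1 | h1
    · exact Finset.disjoint_left.1 hdK h.2 h1
    · have := (Finset.mem_sdiff.1 (Finset.mem_powerset.1 hK₂ h1)).2
      exact this (Finset.mem_map.2 ⟨h, hh, rfl⟩)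
  have hdom : (d.ps K₁ hdK).Dom J a := by
    refine d.dom_eq K₁ hdK J (K₁ ∪ K₂) ?_
    intro h hh q hq
    constructor
    · intro h1
      rcases Finset.mem_union.1 h1 with h2 | h2
      · exact h2
      · exfalso
        have h3 := Finset.mem_sdiff.1 (Finset.mem_powerset.1 hK₂ h2)
        have h4 : q = h.1 := d.hinj q h3.1 h.1 h.2 hq
        exact h3.2 (h4 ▸ Finset.mem_map.2 ⟨h, hh, rfl⟩)
    · exact fun h1 => Finset.mem_union_left _ h1
  have hna : ‖a‖ = 1 := by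
    rw [ha, norm_act_of_star_mul (d.AJ_star_mul J), norm_inpVec W hW]
  have e1 : (1 / 2 ^ J'.card : ℂ) * ∑ L ∈ J'.powerset, (-1 : ℂ) ^ L.card *
      f (K₁ ∪ (K₂ ∪ L)) = (d.ps K₁ hdK).Gam0 J a a := by
    unfold PS.Gam0
    rw [hJ', Finset.card_map]
    congr 1
    symm
    refine Finset.sum_bij (fun I _ => I.map (Function.Embedding.subtype _)) ?_ ?_ ?_ ?_
    · intro I hI
      rw [Finset.mem_powerset] at hI ⊢
      exact Finset.map_subset_map.mpr hI
    · intro I _ I' _ h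
      exact Finset.map_injective _ h
    · intro K hK
      rw [Finset.mem_powerset] at hK
      obtain ⟨u, hu, rfl⟩ := Finset.subset_map_iff.mp hK
      exact ⟨u, Finset.mem_powerset.mpr hu, rfl⟩
    · intro I hI
      rw [Finset.card_map, ← Finset.union_assoc]
      have e2 := d.state_eq K₁ hdK J I (Finset.mem_powerset.1 hI) (K₁ ∪ K₂) hnot
      simp only [hf]
      have e3 : lay d.W₁ d.cg = lay W₁ cg := rfl
      have e4 : d.W = W := rfl
      rw [e3, e4] at e2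
      rw [e2]
      rfl
  rw [e1]
  have := hJ a a hdom hdom
  rw [hna, mul_one, mul_one] at this
  exact this

end P368.D3
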