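import Vale.Agent.P368.Top

namespace P368.D3

open Matrix
open scoped BigOperators InnerProductSpace ComplexOrder

section Fin0

variable {V : Type} [Fintype V] [DecidableEq V]

/-- vector of the gate projection at qubit `q`: `|1>` on controls, `(|0>-|1>)/√2` on targets -/
noncomputable def gvec (c : V → Finset V) (q : V) (b : Bool) : ℂ :=
  if (c q).Nonempty then (if b = true then -1 else 1) / (Real.sqrt 2 : ℂ)
  else if b = true then 1 else 0

/-- the product vector with `W q |1>` for `q` in `K` and `W q |0>` for the other `q` -/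
noncomputable def inpVec (W : V → M2) (K : Finset V) : HV V :=
  act (prodOp W) (vec (Pi.single (fun q => decide (q ∈ K)) 1))

/-- layer of gates conjugated by one-qubit operators -/
noncomputable def lay (W₁ : V → M2) (cg : V → Finset V) : Op V :=
  prodOp W₁ * tof cg * star (prodOp W₁)

/-- signed average over the subsets of `In` -/
noncomputable def sig (W₁ W : V → M2) (cg : V → Finset V) (Ξ : Op V) (In : Finset V) : ℂ :=
  (1 / 2 ^ In.card : ℂ) * ∑ K ∈ In.powerset, (-1 : ℂ) ^ K.card *
    ⟪act (lay W₁ cg) (inpVec W K), act Ξ (act (lay W₁ cg) (inpVec W K))⟫_ℂ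

theorem gvec_unit (c : V → Finset V) (q : V) : ∑ b, ‖gvec c q b‖ ^ 2 = 1 := by
  have h2 : ‖(Real.sqrt 2 : ℂ)‖ ^ 2 = 2 := by
    rw [Complex.norm_real, Real.norm_eq_abs, sq_abs, Real.sq_sqrt (by norm_num)]
  unfold gvec
  rw [Fintype.sum_bool]
  by_cases h : (c q).Nonempty
  · simp only [h, if_true, Bool.false_eq_true, if_false, norm_div, norm_neg, norm_one, div_pow,
      one_pow, h2]
    norm_num
  · simp [h]

theorem sum_powerset_union (S T : Finset V) (hd : Disjoint S T) (f : Finset V → ℂ) :
    ∑ K ∈ (S ∪ T).powerset, f K = ∑ K ∈ S.powerset, ∑ L ∈ T.powerset, f (K ∪ L) := by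
  induction T using Finset.induction_on generalizing f with
  | empty => simp
  | insert t T ht ih =>
    have htS : t ∉ S := fun h => Finset.disjoint_left.1 hd h (Finset.mem_insert_self t T)
    have hd' : Disjoint S T := hd.mono_right (Finset.subset_insert t T)
    have ht' : t ∉ S ∪ T := by simp [htS, ht]
    have e1 : S ∪ insert t T = insert t (S ∪ T) := by
      ext x
      simp only [Finset.mem_union, Finset.mem_insert]
      tauto
    rw [e1, Finset.sum_powerset_insert ht', ih hd', ih hd']
    simp only [← Finset.sum_add_distrib]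
    refine Finset.sum_congr rfl fun K _ => ?_
    rw [Finset.sum_powerset_insert ht]
    simp only [← Finset.sum_add_distrib]
    refine Finset.sum_congr rfl fun L _ => ?_
    congr 2
    ext x
    simp only [Finset.mem_union, Finset.mem_insert]
    tauto

theorem avg_le (S : Finset V) (g : Finset V → ℂ) (ε : ℝ) (hg : ∀ K ∈ S.powerset, ‖g K‖ ≤ ε) :
    ‖(1 / 2 ^ S.card : ℂ) * ∑ K ∈ S.powerset, g K‖ ≤ ε := by
  have e3 : ‖(1 / 2 ^ S.card : ℂ)‖ = (1 / 2 ^ S.card : ℝ) := by
    rw [norm_div, norm_one, norm_pow]
    norm_num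
  rw [norm_mul, e3]
  calc (1 / 2 ^ S.card : ℝ) * ‖∑ K ∈ S.powerset, g K‖
      ≤ (1 / 2 ^ S.card : ℝ) * ∑ K ∈ S.powerset, ε := by
        gcongr
        exact (norm_sum_le _ _).trans (Finset.sum_le_sum hg)
    _ = ε := by
        rw [Finset.sum_const, Finset.card_powerset, nsmul_eq_mul]
        push_cast
        field_simp

end Fin0

end P368.D3
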