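import Vale.Agent.P368.SysB

namespace P368.D3

open Matrix
open scoped BigOperators InnerProductSpace ComplexOrder

namespace Sys

variable {V β : Type} [Fintype V] [DecidableEq V] [DecidableEq β] (s : Sys V β)

theorem CC_commute {S : Set V} {M : Op V} (hM : M ∈ locAlg S) (J I : Finset β)
    (hd : ∀ h ∈ J, Disjoint S (s.O h : Set V)) : Commute (act M) (s.CC J I) :=
  mix_commute _ _ _ _ _ fun h hh b => s.Cop_commute hM h (hd h hh) b

theorem YY_commute {S : Set V} {M : Op V} (hM : M ∈ locAlg S) (J : Finset β)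
    (hd : ∀ h ∈ J, Disjoint S (s.zone h)) : Commute (act M) (s.YY J) := by
  unfold YY
  refine Finset.noncommProd_commute _ _ _ _ fun h hh => ?_
  exact commute_act (hd h hh) hM (s.Y_mem h)

theorem YY_commute_star {S : Set V} {M : Op V} (hM : M ∈ locAlg S) (J : Finset β)
    (hd : ∀ h ∈ J, Disjoint S (s.zone h)) : Commute (star (s.YY J)) (act M) := by
  have h1 := (s.YY_commute (star_mem_locAlg hM) J hd).star_star
  rw [star_act, star_star] at h1
  exact h1.symm

theorem CC_insert_left (J I : Finset β) (h : β) (hJ : h ∉ J) (hI : h ∉ I) :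
    s.CC (insert h J) I = s.Cop false h * s.CC J I := mix_insert_left _ _ _ _ _ hJ hI

theorem CC_insert_both (J I : Finset β) (h : β) (hJ : h ∉ J) (hI : h ∉ I) :
    s.CC (insert h J) (insert h I) = s.Cop true h * s.CC J I := mix_insert_both _ _ _ _ _ hJ hI

theorem YY_insert (J : Finset β) (h : β) (hJ : h ∉ J) :
    s.YY (insert h J) = act (s.Y h) * s.YY J :=
  Finset.noncommProd_insert_of_notMem _ _ _ _ hJ

/-- splitting the signed average at block `h` -/
theorem Gam_insert (J : Finset β) (h : β) (hJ : h ∉ J) (b a : HV V) :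
    s.Gam (insert h J) b a = (1 / 2 ^ J.card : ℂ) * ∑ I ∈ J.powerset, (-1 : ℂ) ^ I.card *
      ((1 / 2 : ℂ) * (⟪s.Cop false h (s.CC J I b),
          act (s.Y h) (s.YY J (s.Qall (s.Cop false h (s.CC J I a))))⟫_ℂ -
        ⟪s.Cop true h (s.CC J I b),
          act (s.Y h) (s.YY J (s.Qall (s.Cop true h (s.CC J I a))))⟫_ℂ)) := by
  unfold Gam
  rw [Finset.sum_powerset_insert hJ, Finset.card_insert_of_notMem hJ, ← Finset.sum_add_distrib,
    Finset.mul_sum, Finset.mul_sum]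
  refine Finset.sum_congr rfl fun I hI => ?_
  have hI' : h ∉ I := fun hh => hJ (Finset.mem_powerset.1 hI hh)
  rw [s.CC_insert_left J I h hJ hI', s.CC_insert_both J I h hJ hI', s.YY_insert J h hJ,
    Finset.card_insert_of_notMem hI', pow_succ, pow_succ]
  simp only [ContinuousLinearMap.mul_apply]
  field_simp
  ring

/-- operators commuting with all operators on the blocks of `J` -/
def BC (J : Finset β) (T : HV V →L[ℂ] HV V) : Prop :=
  ∀ h ∈ J, ∀ M ∈ locAlg (s.O h : Set V), Commute T (act M)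

variable {s}

theorem BC.mul {J : Finset β} {T T' : HV V →L[ℂ] HV V} (h : s.BC J T) (h' : s.BC J T') :
    s.BC J (T * T') := fun k hk M hM => (h k hk M hM).mul_left (h' k hk M hM)

theorem BC.add {J : Finset β} {T T' : HV V →L[ℂ] HV V} (h : s.BC J T) (h' : s.BC J T') :
    s.BC J (T + T') := fun k hk M hM => (h k hk M hM).add_left (h' k hk M hM)

theorem BC.sub {J : Finset β} {T T' : HV V →L[ℂ] HV V} (h : s.BC J T) (h' : s.BC J T') :
    s.BC J (T - T') := fun k hk M hM => (h k hk M hM).sub_left (h' k hk M hM)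

theorem BC.smul {J : Finset β} {T : HV V →L[ℂ] HV V} (h : s.BC J T) (c : ℂ) :
    s.BC J (c • T) := fun k hk M hM => (h k hk M hM).smul_left c

theorem BC.one {J : Finset β} : s.BC J 1 := fun _ _ _ _ => Commute.one_left _

theorem BC.star {J : Finset β} {T : HV V →L[ℂ] HV V} (h : s.BC J T) : s.BC J (star T) := by
  intro k hk M hM
  have h1 := (h k hk _ (star_mem_locAlg hM)).star_star
  rw [star_act, star_star] at h1
  exact h1

theorem BC.pre {J : Finset β} {f : ℕ → (HV V →L[ℂ] HV V)} (h : ∀ j, s.BC J (f j)) (k : ℕ) :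
    s.BC J (P368.pre f k) := by
  induction k with
  | zero => exact BC.one
  | succ k ih => exact (h k).mul ih

theorem BC.of_mem {J : Finset β} {S : Set V} {M : Op V} (hM : M ∈ locAlg S)
    (hd : ∀ h ∈ J, Disjoint S (s.O h : Set V)) : s.BC J (act M) :=
  fun k hk _ hN => commute_act (hd k hk) hM hN

theorem BC.CC {J : Finset β} {T : HV V →L[ℂ] HV V} (h : s.BC J T) (I : Finset β) :
    Commute T (s.CC J I) := by
  refine mix_commute _ _ _ _ _ fun k hk b => ?_
  unfold Cop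
  split_ifs
  · exact h k hk _ (Subalgebra.mul_mem _ (s.R_mem k) (s.X_mem_O k))
  · exact h k hk _ (s.R_mem k)

theorem BC.CC_apply {J : Finset β} {T : HV V →L[ℂ] HV V} (h : s.BC J T) (I : Finset β)
    (a : HV V) : T (s.CC J I a) = s.CC J I (T a) := by
  have := h.CC I
  exact congrArg (fun L : HV V →L[ℂ] HV V => L a) this.eq

theorem BC.dom {J : Finset β} {T : HV V →L[ℂ] HV V} (h : s.BC J T) {a : HV V}
    (ha : s.Dom J a) : s.Dom J (T a) := by
  intro k hk
  have h1 := h k hk _ (s.Pf_mem k)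
  have h2 : act (s.Pf k) (T a) = T (act (s.Pf k) a) :=
    (congrArg (fun L : HV V →L[ℂ] HV V => L a) h1.eq).symm
  rw [h2, ha k hk]

variable (s)

theorem Dom.mono {s : Sys V β} {J J' : Finset β} (h : J' ⊆ J) {a : HV V} (ha : s.Dom J a) :
    s.Dom J' a := fun k hk => ha k (h hk)

theorem BC_Y (J : Finset β) (h : β) (hJ : h ∉ J) : s.BC J (act (s.Y h)) :=
  BC.of_mem (s.Y_mem h) fun k hk => s.zone_O h k (fun e => hJ (e ▸ hk))

theorem BC_O (J : Finset β) (h : β) (hJ : h ∉ J) {M : Op V} (hM : M ∈ locAlg (s.O h : Set V)) :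
    s.BC J (act M) :=
  BC.of_mem hM fun k hk => by
    have := s.O_disj h k (fun e => hJ (e ▸ hk))
    exact_mod_cast this

section Step

variable (τ W : ℝ) (hτ0 : 0 ≤ τ) (hτ : τ ≤ 1 / 4) (J : Finset β) (h : β) (hh : h ∈ J)
  (hW : ∑ j ∈ Finset.range s.m, s.wt j h ≤ W)

theorem Dop_mem (j : ℕ) : s.Dop τ J h j ∈ locAlg (s.G j \ {q | ∃ h' ∈ J, q ∈ s.O h'}) := by
  unfold Dop
  split_ifs with h1
  · exact (s.exists_D τ J h h1 j).choose_spec.1
  · exact Subalgebra.zero_mem _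

theorem BC_D (j : ℕ) : s.BC J (act (s.Dop τ J h j)) :=
  BC.of_mem (s.Dop_mem τ J h j) fun k hk => by
    rw [Set.disjoint_left]
    rintro q ⟨_, hq⟩ hq'
    exact hq ⟨k, hk, hq'⟩

theorem pblock_Y : (s.pblock τ W hτ0 hτ J h hh hW).Y = act (s.Y h) := by
  simp only [PBlock.Y, Y, map_smul, map_mul]
  rfl

theorem Cop_apply (y : Bool) (v : HV V) :
    s.Cop y h v = act (s.R h) ((s.pblock τ W hτ0 hτ J h hh hW).Xp y v) := by
  cases y
  · rfl
  · show act (s.R h * s.X h) v = _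
    rw [map_mul]
    rfl

theorem BC_Xp (y : Bool) : s.BC (J.erase h) ((s.pblock τ W hτ0 hτ J h hh hW).Xp y) := by
  cases y
  · exact BC.one
  · exact s.BC_O _ h (Finset.notMem_erase h J) (s.X_mem_O h)

theorem BC_R2 : s.BC (J.erase h) (s.pblock τ W hτ0 hτ J h hh hW).R2 := by
  have h1 : s.BC (J.erase h) (act (s.Ul h)) :=
    s.BC_O _ h (Finset.notMem_erase h J) (locAlg_mono Set.inter_subset_left (onSet_mem _ _))
  have h2 : s.BC (J.erase h) (act (s.Uw τ h)) :=
    s.BC_O _ h (Finset.notMem_erase h J) (locAlg_mono Set.inter_subset_left (onSet_mem _ _))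
  exact BC.one.sub ((h1.mul h2).smul 2)

theorem BC_beta : s.BC (J.erase h) (s.pblock τ W hτ0 hτ J h hh hW).beta := by
  set B := s.pblock τ W hτ0 hτ J h hh hW with hB
  have hX := s.BC_Xp τ W hτ0 hτ J h hh hW
  have hU : s.BC (J.erase h) B.U :=
    s.BC_O _ h (Finset.notMem_erase h J) (locAlg_mono Set.inter_subset_left (onSet_mem _ _))
  have hY : s.BC (J.erase h) B.Y := by
    rw [hB, s.pblock_Y]
    exact s.BC_Y _ h (Finset.notMem_erase h J)
  have hΛ : ∀ j, s.BC (J.erase h) ((s.chain τ W hτ0 hτ J h hh hW).Λ j) := by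
    intro j
    refine (BC.one.smul _).add (BC.smul ?_ _)
    intro k hk
    exact s.BC_D τ J h j k (Finset.mem_of_mem_erase hk)
  have hcore : ∀ y, s.BC (J.erase h) (B.core y) := by
    intro y
    refine ((hX y).mul ((hY.sub (((hY.mul hU).add (hU.mul hY)).smul _)).add
      (BC.smul ((((hU.mul hY).mul hU)).mul (BC.pre hΛ _)) _))).mul (hX y)
  exact ((hcore false).sub (hcore true)).smul _

theorem norm_Y_le : ‖act (s.Y h)‖ ≤ 1 := by
  have h1 := s.norm_YY_le {h}
  have h2 : s.YY {h} = act (s.Y h) := by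
    unfold YY
    exact Finset.noncommProd_singleton _ _
  rwa [h2] at h1

/-- moving a block operator through the average -/
theorem Gam_move (J' : Finset β) {T T' : HV V →L[ℂ] HV V} (hT : s.BC J' T) (hT' : s.BC J' T')
    (b a : HV V) :
    (1 / 2 ^ J'.card : ℂ) * ∑ I ∈ J'.powerset, (-1 : ℂ) ^ I.card *
      ⟪T (s.CC J' I b), s.YY J' (s.Qall (T' (s.CC J' I a)))⟫_ℂ = s.Gam J' (T b) (T' a) := by
  unfold Gam
  refine congrArg _ (Finset.sum_congr rfl fun I _ => ?_)
  rw [hT.CC_apply, hT'.CC_apply]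

theorem inner_split (C R : HV V →L[ℂ] HV V) (Yh T : HV V →L[ℂ] HV V) (x z : HV V) :
    ⟪C x, Yh (T (C z))⟫_ℂ = ⟪(star Yh * C) x, T ((C - R) z)⟫_ℂ +
      ⟪(star Yh * (C - R)) x, T (R z)⟫_ℂ + ⟪R x, Yh (T (R z))⟫_ℂ := by
  have h1 : ∀ u v : HV V, ⟪star Yh u, v⟫_ℂ = ⟪u, Yh v⟫_ℂ := fun u v =>
    ContinuousLinearMap.adjoint_inner_left Yh v u
  simp only [ContinuousLinearMap.mul_apply, h1, ContinuousLinearMap.sub_apply, map_sub,
    inner_sub_left, inner_sub_right]
  ring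

end Step

section Step2

variable (τ W : ℝ) (hτ0 : 0 ≤ τ) (hτ : τ ≤ 1 / 4) (J : Finset β) (h : β) (hh : h ∈ J)
  (hW : ∑ j ∈ Finset.range s.m, s.wt j h ≤ W)

theorem op_le {T : HV V →L[ℂ] HV V} (hT : ‖T‖ ≤ 1) (v : HV V) : ‖T v‖ ≤ ‖v‖ := by
  calc ‖T v‖ ≤ ‖T‖ * ‖v‖ := T.le_opNorm v
    _ ≤ 1 * ‖v‖ := by gcongr
    _ = ‖v‖ := one_mul _

theorem peel_h (ζ g : ℝ)
    (hζ : ∑ j ∈ (Finset.range s.m).filter (fun j => τ < s.wt j h), s.wt j h ≤ ζ)
    (hg0 : 0 ≤ g)
    (hg : ∀ a b, s.Dom (J.erase h) a → s.Dom (J.erase h) b →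
      ‖s.Gam (J.erase h) b a‖ ≤ g * ‖b‖ * ‖a‖)
    (a b : HV V) (ha : s.Dom J a) (hb : s.Dom J b) :
    ‖s.Gam J b a‖ ≤ (7 / 8 + 4 * Real.sqrt ζ) * g * ‖b‖ * ‖a‖ +
      (1 / 2 ^ (J.erase h).card : ℝ) * ∑ I ∈ (J.erase h).powerset,
        8 * (s.chain τ W hτ0 hτ J h hh hW).Err (s.CC (J.erase h) I b)
          (s.CC (J.erase h) I a) := by
  set J' := J.erase h with hJ'
  have hnot : h ∉ J' := Finset.notMem_erase h J
  set B := s.pblock τ W hτ0 hτ J h hh hW with hB
  set Yh : HV V →L[ℂ] HV V := act (s.Y h) with hYh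
  set C : Bool → (HV V →L[ℂ] HV V) := fun y => s.Cop y h with hC
  set R : Bool → (HV V →L[ℂ] HV V) := fun y => B.R2 * B.Xp y with hR
  have haD : s.Dom J' a := Dom.mono (Finset.erase_subset _ _) ha
  have hbD : s.Dom J' b := Dom.mono (Finset.erase_subset _ _) hb
  have bcY : s.BC J' Yh := s.BC_Y _ h hnot
  have bcR : ∀ y, s.BC J' (R y) := fun y =>
    (s.BC_R2 τ W hτ0 hτ J h hh hW).mul (s.BC_Xp τ W hτ0 hτ J h hh hW y)
  have hCapp : ∀ y v, C y v = act (s.R h) (B.Xp y v) := fun y v =>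
    s.Cop_apply τ W hτ0 hτ J h hh hW y v
  have hCmul : ∀ y, C y = act (s.R h) * B.Xp y := by
    intro y
    ext1 v
    exact hCapp y v
  have bcC : ∀ y, s.BC J' (C y) := by
    intro y
    rw [hCmul]
    exact (s.BC_O _ h hnot (s.R_mem h)).mul (s.BC_Xp τ W hτ0 hτ J h hh hW y)
  have bcβ : s.BC J' B.beta := s.BC_beta τ W hτ0 hτ J h hh hW
  -- norms
  have nX : ∀ y, ‖B.Xp y‖ ≤ 1 := fun y => beta_aux_norm_refl _ (B.Xp_sa y) (B.Xp_sq y)
  have nR2 : ‖B.R2‖ ≤ 1 := beta_aux_norm_refl _ B.R2_sa B.R2_sq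
  have nYs : ‖star Yh‖ ≤ 1 := by
    have e0 : ‖star Yh‖ = ‖Yh‖ := LinearIsometryEquiv.norm_map ContinuousLinearMap.adjoint Yh
    rw [e0]
    exact s.norm_Y_le h
  have nCa : ∀ y v, ‖C y v‖ = ‖v‖ := fun y v => s.norm_Cop y h v
  have nRv : ∀ y v, ‖R y v‖ ≤ ‖v‖ := fun y v =>
    (op_le nR2 _).trans (op_le (nX y) v)
  have nE : ∀ y v, act (s.Pf h) v = v → ‖(C y - R y) v‖ ≤ 2 * Real.sqrt ζ * ‖v‖ := by
    intro y v hv
    have h1 := s.R_sub_R2 τ ζ h hζ v hv y
    have h2 : (C y - R y) v = act (s.R h) ((if y then act (s.X h) else 1) v) -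
        (1 - (2 : ℂ) • (act (s.Ul h) * act (s.Uw τ h))) ((if y then act (s.X h) else 1) v) := by
      rw [ContinuousLinearMap.sub_apply, hCapp]
      rfl
    rw [h2]
    exact h1
  -- decomposition
  have hdec : s.Gam J b a =
      (1 / 2 : ℂ) * ((s.Gam J' ((star Yh * C false) b) ((C false - R false) a) +
          s.Gam J' ((star Yh * (C false - R false)) b) (R false a)) -
        (s.Gam J' ((star Yh * C true) b) ((C true - R true) a) +
          s.Gam J' ((star Yh * (C true - R true)) b) (R true a))) +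
      (1 / 2 ^ J'.card : ℂ) * ∑ I ∈ J'.powerset, (-1 : ℂ) ^ I.card *
        ((1 / 2 : ℂ) * (⟪R false (s.CC J' I b), Yh (s.YY J' (s.Qall (R false (s.CC J' I a))))⟫_ℂ -
          ⟪R true (s.CC J' I b), Yh (s.YY J' (s.Qall (R true (s.CC J' I a))))⟫_ℂ)) := by
    have e1 : s.Gam J b a = s.Gam (insert h J') b a := by
      rw [hJ', Finset.insert_erase hh]
    rw [e1, s.Gam_insert J' h hnot b a,
      ← s.Gam_move J' ((bcY.star).mul (bcC false)) ((bcC false).sub (bcR false)),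
      ← s.Gam_move J' ((bcY.star).mul ((bcC false).sub (bcR false))) (bcR false),
      ← s.Gam_move J' ((bcY.star).mul (bcC true)) ((bcC true).sub (bcR true)),
      ← s.Gam_move J' ((bcY.star).mul ((bcC true).sub (bcR true))) (bcR true)]
    simp only [Finset.mul_sum, ← Finset.sum_add_distrib, ← Finset.sum_sub_distrib]
    refine Finset.sum_congr rfl fun I _ => ?_
    have k0 := inner_split (V := V) (C false) (R false) Yh (s.YY J' * s.Qall) (s.CC J' I b)
      (s.CC J' I a)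
    have k1 := inner_split (V := V) (C true) (R true) Yh (s.YY J' * s.Qall) (s.CC J' I b)
      (s.CC J' I a)
    simp only [ContinuousLinearMap.mul_apply] at k0 k1 ⊢
    rw [show s.Cop false h = C false from rfl, show s.Cop true h = C true from rfl, k0, k1]
    ring
  -- main term
  have hmain : ‖(1 / 2 ^ J'.card : ℂ) * ∑ I ∈ J'.powerset, (-1 : ℂ) ^ I.card *
        ((1 / 2 : ℂ) * (⟪R false (s.CC J' I b), Yh (s.YY J' (s.Qall (R false (s.CC J' I a))))⟫_ℂ -
          ⟪R true (s.CC J' I b), Yh (s.YY J' (s.Qall (R true (s.CC J' I a))))⟫_ℂ)) -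
      s.Gam J' (star B.beta b) a‖ ≤
      (1 / 2 ^ J'.card : ℝ) * ∑ I ∈ J'.powerset,
        8 * (s.chain τ W hτ0 hτ J h hh hW).Err (s.CC J' I b) (s.CC J' I a) := by
    have e2 : s.Gam J' (star B.beta b) a = (1 / 2 ^ J'.card : ℂ) * ∑ I ∈ J'.powerset,
        (-1 : ℂ) ^ I.card * ⟪star B.beta (s.CC J' I b), s.YY J' (s.Qall (s.CC J' I a))⟫_ℂ := by
      have := s.Gam_move J' bcβ.star BC.one b a
      rw [ContinuousLinearMap.one_apply] at this
      rw [← this]
      rfl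
    rw [e2, ← mul_sub, ← Finset.sum_sub_distrib, norm_mul]
    have e3 : ‖(1 / 2 ^ J'.card : ℂ)‖ = (1 / 2 ^ J'.card : ℝ) := by
      rw [norm_div, norm_one, norm_pow]
      norm_num
    rw [e3]
    refine mul_le_mul_of_nonneg_left ?_ (by positivity)
    refine (norm_sum_le _ _).trans (Finset.sum_le_sum fun I _ => ?_)
    rw [← mul_sub, norm_mul, norm_pow, norm_neg, norm_one, one_pow, one_mul]
    have hP : ∀ v : HV V, s.Dom J v → ∀ j, (s.chain τ W hτ0 hτ J h hh hW).P j (s.CC J' I v) =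
        s.CC J' I v := by
      intro v hv j
      have c1 : s.BC J' (act (s.P j h)) :=
        s.BC_O _ h hnot (locAlg_mono Set.inter_subset_left (onSet_mem _ _))
      show act (s.P j h) (s.CC J' I v) = _
      rw [c1.CC_apply, Dom.P_fix hv hh]
    have hz : ∀ k ∈ J', Disjoint (s.zone h) (s.zone k) := fun k hk =>
      s.zone_disj h k (fun e => hnot (e ▸ hk))
    have hGz : ∀ j, ∀ k ∈ J', Disjoint (s.G j) (s.zone k) := fun j k _ => (s.zone_G k j).symm
    have hcS : ∀ j, ∀ A ∈ ({(s.chain τ W hτ0 hτ J h hh hW).Q j,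
        (s.chain τ W hτ0 hτ J h hh hW).P j, (s.chain τ W hτ0 hτ J h hh hW).O j,
        (s.chain τ W hτ0 hτ J h hh hW).Φ j, (s.chain τ W hτ0 hτ J h hh hW).D j} :
        Set (HV V →L[ℂ] HV V)), ∃ M : Op V, M ∈ locAlg (s.G j) ∧ A = act M := by
      intro j A hA
      simp only [Set.mem_insert_iff, Set.mem_singleton_iff] at hA
      rcases hA with rfl | rfl | rfl | rfl | rfl
      · exact ⟨s.Q j, s.Q_mem j, rfl⟩
      · exact ⟨s.P j h, locAlg_mono Set.inter_subset_right (onSet_mem _ _), rfl⟩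
      · exact ⟨s.Ot J h j, locAlg_mono Set.inter_subset_right (onSet_mem _ _), rfl⟩
      · refine ⟨s.Φ τ h j, ?_, rfl⟩
        unfold Φ
        split_ifs
        · exact locAlg_mono Set.inter_subset_right (onSet_mem _ _)
        · exact Subalgebra.one_mem _
      · exact ⟨s.Dop τ J h j, locAlg_mono Set.diff_subset (s.Dop_mem τ J h j), rfl⟩
    have key := peel_one B (s.YY J') (s.norm_YY_le J')
      ((s.YY_commute (s.X_mem_zone h) J' hz).symm)
      ((s.YY_commute (locAlg_mono Set.inter_subset_right (onSet_mem _ _)) J' hz).symm)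
      ((s.YY_commute (s.E_mem h) J' hz).symm) ((s.YY_commute (s.F_mem h) J' hz).symm)
      (fun j A hA => by
        obtain ⟨M, hM, rfl⟩ := hcS j A hA
        exact (s.YY_commute hM J' (hGz j)).symm)
      (fun j A hA => by
        obtain ⟨M, hM, rfl⟩ := hcS j A hA
        exact s.YY_commute_star hM J' (hGz j))
      (s.CC J' I b) (s.CC J' I a) (hP b hb) (hP a ha)
    have eY : B.Y = Yh := s.pblock_Y τ W hτ0 hτ J h hh hW
    rw [eY] at key
    exact key
  -- assembling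
  have hζ0 : 0 ≤ Real.sqrt ζ := Real.sqrt_nonneg _
  have hPa : act (s.Pf h) a = a := ha h hh
  have hPb : act (s.Pf h) b = b := hb h hh
  have g1 : ∀ y, ‖s.Gam J' ((star Yh * C y) b) ((C y - R y) a)‖ ≤
      2 * Real.sqrt ζ * g * ‖b‖ * ‖a‖ := by
    intro y
    refine (hg _ _ (((bcC y).sub (bcR y)).dom haD) ((bcY.star.mul (bcC y)).dom hbD)).trans ?_
    have n1 : ‖(star Yh * C y) b‖ ≤ ‖b‖ := by
      show ‖star Yh (C y b)‖ ≤ _
      exact (op_le nYs _).trans (nCa y b).le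
    have n2 := nE y a hPa
    calc g * ‖(star Yh * C y) b‖ * ‖(C y - R y) a‖ ≤ g * ‖b‖ * (2 * Real.sqrt ζ * ‖a‖) := by
          gcongr
      _ = _ := by ring
  have g2 : ∀ y, ‖s.Gam J' ((star Yh * (C y - R y)) b) (R y a)‖ ≤
      2 * Real.sqrt ζ * g * ‖b‖ * ‖a‖ := by
    intro y
    refine (hg _ _ ((bcR y).dom haD) ((bcY.star.mul ((bcC y).sub (bcR y))).dom hbD)).trans ?_
    have n1 : ‖(star Yh * (C y - R y)) b‖ ≤ 2 * Real.sqrt ζ * ‖b‖ := by
      show ‖star Yh ((C y - R y) b)‖ ≤ _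
      exact (op_le nYs _).trans (nE y b hPb)
    have n2 := nRv y a
    calc g * ‖(star Yh * (C y - R y)) b‖ * ‖R y a‖ ≤ g * (2 * Real.sqrt ζ * ‖b‖) * ‖a‖ := by
          gcongr
      _ = _ := by ring
  have g3 : ‖s.Gam J' (star B.beta b) a‖ ≤ 7 / 8 * g * ‖b‖ * ‖a‖ := by
    refine (hg _ _ haD (bcβ.star.dom hbD)).trans ?_
    have n1 : ‖star B.beta b‖ ≤ 7 / 8 * ‖b‖ :=
      beta_norm B b (fun j => Dom.P_fix hb hh j)
    calc g * ‖star B.beta b‖ * ‖a‖ ≤ g * (7 / 8 * ‖b‖) * ‖a‖ := by gcongr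
      _ = _ := by ring
  rw [hdec]
  set M := (1 / 2 ^ J'.card : ℂ) * ∑ I ∈ J'.powerset, (-1 : ℂ) ^ I.card *
        ((1 / 2 : ℂ) * (⟪R false (s.CC J' I b), Yh (s.YY J' (s.Qall (R false (s.CC J' I a))))⟫_ℂ -
          ⟪R true (s.CC J' I b), Yh (s.YY J' (s.Qall (R true (s.CC J' I a))))⟫_ℂ)) with hM
  have hM' : ‖M‖ ≤ 7 / 8 * g * ‖b‖ * ‖a‖ + (1 / 2 ^ J'.card : ℝ) * ∑ I ∈ J'.powerset,
        8 * (s.chain τ W hτ0 hτ J h hh hW).Err (s.CC J' I b) (s.CC J' I a) := by
    calc ‖M‖ = ‖s.Gam J' (star B.beta b) a + (M - s.Gam J' (star B.beta b) a)‖ := by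
          congr 1; ring
      _ ≤ _ := (norm_add_le _ _).trans (add_le_add g3 hmain)
  have hS : ‖(1 / 2 : ℂ) * ((s.Gam J' ((star Yh * C false) b) ((C false - R false) a) +
          s.Gam J' ((star Yh * (C false - R false)) b) (R false a)) -
        (s.Gam J' ((star Yh * C true) b) ((C true - R true) a) +
          s.Gam J' ((star Yh * (C true - R true)) b) (R true a)))‖ ≤
      4 * Real.sqrt ζ * g * ‖b‖ * ‖a‖ := by
    rw [norm_mul]
    have e5 : ‖(1 / 2 : ℂ)‖ = 1 / 2 := by norm_num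
    rw [e5]
    have := norm_sub_le (s.Gam J' ((star Yh * C false) b) ((C false - R false) a) +
          s.Gam J' ((star Yh * (C false - R false)) b) (R false a))
        (s.Gam J' ((star Yh * C true) b) ((C true - R true) a) +
          s.Gam J' ((star Yh * (C true - R true)) b) (R true a))
    have t1 := norm_add_le (s.Gam J' ((star Yh * C false) b) ((C false - R false) a))
          (s.Gam J' ((star Yh * (C false - R false)) b) (R false a))
    have t2 := norm_add_le (s.Gam J' ((star Yh * C true) b) ((C true - R true) a))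
          (s.Gam J' ((star Yh * (C true - R true)) b) (R true a))
    have a1 := g1 false
    have a2 := g1 true
    have a3 := g2 false
    have a4 := g2 true
    linarith
  calc _ ≤ 4 * Real.sqrt ζ * g * ‖b‖ * ‖a‖ + (7 / 8 * g * ‖b‖ * ‖a‖ +
        (1 / 2 ^ J'.card : ℝ) * ∑ I ∈ J'.powerset,
        8 * (s.chain τ W hτ0 hτ J h hh hW).Err (s.CC J' I b) (s.CC J' I a)) :=
        (norm_add_le _ _).trans (add_le_add hS hM')
    _ = _ := by ring

end Step2

end Sys

end P368.D3
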