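import Vale.Agent.P368.PS
import Vale.Agent.P368.Peel
import Vale.Agent.P368.Fin0

namespace P368.D3

open Matrix
open scoped BigOperators InnerProductSpace ComplexOrder

section One

/-- a phase turning `z` into its modulus -/
noncomputable def ph (z : ℂ) : ℂ := if z = 0 then 1 else star z / (‖z‖ : ℂ)

theorem ph_norm (z : ℂ) : ‖ph z‖ = 1 := by
  unfold ph
  split_ifs with h
  · exact norm_one
  · have : ‖z‖ ≠ 0 := norm_ne_zero_iff.2 h
    rw [norm_div, norm_star, Complex.norm_real, norm_norm, div_self this]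

theorem ph_mul (z : ℂ) : ph z * z = (‖z‖ : ℂ) := by
  unfold ph
  split_ifs with h
  · simp [h]
  · have h1 : (‖z‖ : ℂ) ≠ 0 := by exact_mod_cast norm_ne_zero_iff.2 h
    rw [div_mul_eq_mul_div, div_eq_iff h1]
    have h2 : star z * z = ((‖z‖ : ℂ)) ^ 2 := by
      rw [← Complex.conj_mul' z]
      rfl
    rw [h2, sq]

theorem star_ph_mul (z : ℂ) : star (ph z) * ph z = 1 := by
  have h2 : star (ph z) * ph z = ((‖ph z‖ : ℂ)) ^ 2 := by
    rw [← Complex.conj_mul' (ph z)]
    rfl
  rw [h2, ph_norm]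
  simp

theorem uni_dot (U : M2) (hU : U ∈ unitary M2) (u v : Bool → ℂ) :
    ∑ b, star ((U *ᵥ u) b) * (U *ᵥ v) b = ∑ b, star (u b) * v b := by
  have h : star (U *ᵥ u) ⬝ᵥ (U *ᵥ v) = star u ⬝ᵥ v := by
    rw [Matrix.star_mulVec, Matrix.dotProduct_mulVec, Matrix.vecMul_vecMul,
      ← Matrix.star_eq_conjTranspose, Unitary.star_mul_self_of_mem hU, Matrix.vecMul_one]
  exact h

theorem dot_self (u : Bool → ℂ) : ∑ b, star (u b) * u b = ((∑ b, ‖u b‖ ^ 2 : ℝ) : ℂ) := by
  push_cast
  refine Finset.sum_congr rfl fun b _ => ?_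
  rw [← Complex.conj_mul' (u b)]
  rfl

theorem uni_norm (U : M2) (hU : U ∈ unitary M2) (u : Bool → ℂ) :
    ∑ b, ‖(U *ᵥ u) b‖ ^ 2 = ∑ b, ‖u b‖ ^ 2 := by
  have h := uni_dot U hU u u
  rw [dot_self, dot_self] at h
  exact_mod_cast h

theorem col_norm (U : M2) (hU : U ∈ unitary M2) (x : Bool) : ∑ b, ‖U b x‖ ^ 2 = 1 := by
  have h := uni_norm U hU (Pi.single x 1)
  have e : U *ᵥ Pi.single x 1 = fun b => U b x := by
    funext b
    simp
  rw [e] at h
  rw [h]
  cases x <;> simp

theorem dot_le (u v : Bool → ℂ) (hu : ∑ b, ‖u b‖ ^ 2 = 1) (hv : ∑ b, ‖v b‖ ^ 2 = 1) :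
    ‖∑ b, star (u b) * v b‖ ≤ 1 := by
  have h1 : ‖∑ b, star (u b) * v b‖ ≤ ∑ b, ‖u b‖ * ‖v b‖ := by
    refine (norm_sum_le _ _).trans (Finset.sum_le_sum fun b _ => ?_)
    rw [norm_mul, norm_star]
  have h2 := Finset.sum_mul_sq_le_sq_mul_sq Finset.univ (fun b => ‖u b‖) (fun b => ‖v b‖)
  rw [hu, hv, one_mul] at h2
  have h3 : ∑ b, ‖u b‖ * ‖v b‖ ≤ 1 := by
    have h0 : 0 ≤ ∑ b, ‖u b‖ * ‖v b‖ := Finset.sum_nonneg fun b _ => by positivity
    nlinarith
  exact h1.trans h3

/-- the flip -/
noncomputable def xm : M2 := Matrix.of fun a b => if a = b then 0 else 1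

theorem xm_star : star xm = xm := by
  ext a b
  simp only [xm, Matrix.star_apply, Matrix.of_apply]
  cases a <;> cases b <;> simp

theorem xm_sq : xm * xm = 1 := by
  ext a b
  simp only [xm, Matrix.mul_apply, Matrix.of_apply, Fintype.sum_bool]
  cases a <;> cases b <;> simp

theorem outer_mulVec (U : M2) (u : Bool → ℂ) : outer (U *ᵥ u) = U * outer u * star U := by
  ext a b
  simp only [outer, Matrix.mul_apply, Matrix.of_apply, Fintype.sum_bool, Matrix.mulVec,
    dotProduct, Matrix.star_apply, star_add, star_mul']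
  ring

theorem outer_gvec_false {V : Type} {c : V → Finset V} {q : V} (h : ¬ (c q).Nonempty) :
    outer (gvec c q) = e1 := by
  ext a b
  simp only [outer, gvec, e1, Matrix.of_apply, h, if_false]
  cases a <;> cases b <;> simp

theorem outer_gvec_true {V : Type} {c : V → Finset V} {q : V} (h : (c q).Nonempty) :
    outer (gvec c q) = em := by
  have h2 : (Real.sqrt 2 : ℂ) * (Real.sqrt 2 : ℂ) = 2 := by
    rw [← Complex.ofReal_mul, Real.mul_self_sqrt (by norm_num)]
    norm_num
  have h3 : (Real.sqrt 2 : ℂ) ≠ 0 := by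
    intro h0
    rw [h0] at h2
    norm_num at h2
  have h4 : star (Real.sqrt 2 : ℂ) = (Real.sqrt 2 : ℂ) := Complex.conj_ofReal _
  ext a b
  simp only [outer, gvec, em, Matrix.of_apply, h, if_true, star_div₀, h4]
  cases a <;> cases b <;> simp <;> field_simp <;> rw [← h2] <;> ring

end One

section Kron

variable {V : Type} [Fintype V] [DecidableEq V]

/-- product vector -/
noncomputable def kron (u : V → Bool → ℂ) : HV V := vec (fun z => ∏ v, u v (z v))

theorem act_kron (B : V → M2) (u : V → Bool → ℂ) :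
    act (prodOp B) (kron u) = kron (fun v => B v *ᵥ u v) := by
  unfold kron
  rw [top_act_vec]
  congr 1
  funext z
  simp only [prodOp, Matrix.mulVec, dotProduct, Matrix.of_apply, ← Finset.prod_mul_distrib]
  rw [Finset.prod_univ_sum, Fintype.piFinset_univ]

theorem single_kron (z : V → Bool) :
    vec (Pi.single z (1 : ℂ)) = kron (fun v => Pi.single (z v) 1) := by
  unfold kron
  congr 1
  funext y
  by_cases h : y = z
  · subst h
    simp
  · rw [Pi.single_eq_of_ne h]
    obtain ⟨v, hv⟩ : ∃ v, y v ≠ z v := by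
      by_contra hcon
      push Not at hcon
      exact h (funext hcon)
    symm
    exact Finset.prod_eq_zero (Finset.mem_univ v) (Pi.single_eq_of_ne hv _)

theorem inpVec_kron (W : V → M2) (K : Finset V) :
    inpVec W K = kron (fun q b => W q b (decide (q ∈ K))) := by
  unfold inpVec
  rw [single_kron, act_kron]
  congr 1
  funext q b
  simp

theorem norm_act_of_star_mul {M : Op V} (hM : star M * M = 1) (v : HV V) : ‖act M v‖ = ‖v‖ := by
  have h1 : ⟪act M v, act M v⟫_ℂ = ⟪v, v⟫_ℂ := by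
    have h2 : ⟪act M v, act M v⟫_ℂ = ⟪v, act (star M) (act M v)⟫_ℂ := by
      have h3 := ContinuousLinearMap.adjoint_inner_right (act M) v (act M v)
      rw [← ContinuousLinearMap.star_eq_adjoint, Sys.star_act] at h3
      exact h3.symm
    rw [h2, ← top_act_mul_apply, hM, map_one]
    rfl
  have h4 : ‖act M v‖ ^ 2 = ‖v‖ ^ 2 := by
    have h5 := congrArg RCLike.re h1
    rwa [inner_self_eq_norm_sq (𝕜 := ℂ), inner_self_eq_norm_sq (𝕜 := ℂ)] at h5
  exact (sq_eq_sq₀ (norm_nonneg _) (norm_nonneg _)).1 h4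

theorem prodOp_star_mul (W : V → M2) (hW : ∀ q, W q ∈ unitary M2) :
    star (prodOp W) * prodOp W = 1 := by
  rw [prodOp_star, prodOp_mul, ← prodOp_one]
  congr 1
  funext v
  exact Unitary.star_mul_self_of_mem (hW v)

theorem prodOp_mul_star (W : V → M2) (hW : ∀ q, W q ∈ unitary M2) :
    prodOp W * star (prodOp W) = 1 := by
  rw [prodOp_star, prodOp_mul, ← prodOp_one]
  congr 1
  funext v
  exact Unitary.mul_star_self_of_mem (hW v)

theorem norm_vec_single (z : V → Bool) : ‖vec (Pi.single z (1 : ℂ))‖ = 1 := by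
  have h : vec (Pi.single z (1 : ℂ)) = EuclideanSpace.single z (1 : ℂ) := rfl
  rw [h]
  simp

theorem norm_inpVec (W : V → M2) (hW : ∀ q, W q ∈ unitary M2) (K : Finset V) :
    ‖inpVec W K‖ = 1 := by
  unfold inpVec
  rw [norm_act_of_star_mul (prodOp_star_mul W hW), norm_vec_single]

/-- flipping the input at `h` -/
theorem inpVec_insert (W : V → M2) (hW : ∀ q, W q ∈ unitary M2) (K : Finset V) (h : V)
    (hK : h ∉ K) :
    inpVec W (insert h K) = act (site h (W h * xm * star (W h))) (inpVec W K) := by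
  rw [inpVec_kron, inpVec_kron]
  unfold site
  rw [act_kron]
  congr 1
  funext q
  rcases eq_or_ne q h with rfl | hq
  · rw [Function.update_self]
    have e : (fun b => W q b (decide (q ∈ K))) = W q *ᵥ Pi.single false 1 := by
      funext b
      simp [hK]
    rw [e, Matrix.mulVec_mulVec, mul_assoc, Unitary.star_mul_self_of_mem (hW q), mul_one,
      ← Matrix.mulVec_mulVec]
    funext b
    simp [xm, Matrix.mulVec, dotProduct]
  · rw [Function.update_of_ne hq, Matrix.one_mulVec]
    funext b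
    simp [hq]

theorem avg_split (S T : Finset V) (hd : Disjoint S T) (f : Finset V → ℂ) :
    (1 / 2 ^ (S ∪ T).card : ℂ) * ∑ K ∈ (S ∪ T).powerset, (-1 : ℂ) ^ K.card * f K =
      (1 / 2 ^ S.card : ℂ) * ∑ K ∈ S.powerset, ((-1 : ℂ) ^ K.card *
        ((1 / 2 ^ T.card : ℂ) * ∑ L ∈ T.powerset, (-1 : ℂ) ^ L.card * f (K ∪ L))) := by
  rw [sum_powerset_union S T hd, Finset.card_union_of_disjoint hd, pow_add]
  simp only [Finset.mul_sum]
  refine Finset.sum_congr rfl fun K hK => Finset.sum_congr rfl fun L hL => ?_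
  have hKL : Disjoint K L := hd.mono (Finset.mem_powerset.1 hK) (Finset.mem_powerset.1 hL)
  rw [Finset.card_union_of_disjoint hKL, pow_add]
  field_simp

theorem rep_iff {c : V → Finset V} (hc : Good c) {r : V} (hr : (c r).Nonempty) (q : V) :
    rep c q = r ↔ q ∈ gate c r := by
  constructor
  · intro h
    by_cases hex : ∃ v, q ∈ gate c v
    · obtain ⟨v, hv⟩ := hex
      have := hc.rep_eq hv
      rw [h] at this
      rwa [this]
    · push Not at hex
      have h1 := rep_eq_self hex
      rw [h] at h1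
      exfalso
      apply hex r
      rw [← h1]
      unfold gate
      rw [if_pos hr]
      exact Finset.mem_insert_self _ _
  · exact fun h => hc.rep_eq h

theorem rep_rep {c : V → Finset V} (hc : Good c) (q : V) : rep c (rep c q) = rep c q := by
  by_cases hex : ∃ v, q ∈ gate c v
  · obtain ⟨v, hv⟩ := hex
    rw [hc.rep_eq hv]
    apply hc.rep_eq
    unfold gate at hv ⊢
    split_ifs at hv ⊢ with h1
    · exact Finset.mem_insert_self _ _
    · simp at hv
  · push Not at hex
    rw [rep_eq_self hex, rep_eq_self hex]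

end Kron

end P368.D3
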