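import Vale.Agent.P368.CandA

namespace P368.D3

open Matrix
open scoped BigOperators InnerProductSpace ComplexOrder Matrix.Norms.L2Operator

/-- two layers, an observable, candidate inputs in different first layer gates -/
structure Dat (V : Type) [Fintype V] [DecidableEq V] where
  c : V → Finset V
  cg : V → Finset V
  hc : Good c
  hcg : Good cg
  W₁ : V → M2
  W : V → M2
  hW₁ : ∀ q, W₁ q ∈ unitary M2
  hW : ∀ q, W q ∈ unitary M2
  Θ : V → M2
  o : V
  hΘ : ∀ q, q ≠ o → IsStarProjection (Θ q)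
  ho : ‖Θ o‖ ≤ 1
  Cand : Finset V
  hinj : ∀ h ∈ Cand, ∀ h' ∈ Cand, rep cg h = rep cg h' → h = h'
  hoC : ∀ h ∈ Cand, rep cg h ≠ rep cg o

namespace Dat

variable {V : Type} [Fintype V] [DecidableEq V] (d : Dat V)

/-- gate vector -/
noncomputable def tv (q : V) : Bool → ℂ := d.W₁ q *ᵥ gvec d.cg q

/-- qubit state before the first layer gates -/
noncomputable def qv (K : Finset V) (q : V) : Bool → ℂ := d.W q *ᵥ Pi.single (decide (q ∈ K)) 1

noncomputable def ov (K : Finset V) (q : V) : ℂ := ∑ b, star (d.tv q b) * d.qv K q b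

noncomputable def pv (K : Finset V) (q : V) : Bool → ℂ := ph (d.ov K q) • d.qv K q

theorem tv_unit (q : V) : ∑ b, ‖d.tv q b‖ ^ 2 = 1 := by
  unfold tv
  rw [uni_norm _ (d.hW₁ q), gvec_unit]

theorem qv_unit (K : Finset V) (q : V) : ∑ b, ‖d.qv K q b‖ ^ 2 = 1 := by
  unfold qv
  rw [uni_norm _ (d.hW q)]
  cases decide (q ∈ K) <;> simp

theorem pv_unit (K : Finset V) (q : V) : ∑ b, ‖d.pv K q b‖ ^ 2 = 1 := by
  have h : ∀ b, ‖d.pv K q b‖ ^ 2 = ‖d.qv K q b‖ ^ 2 := by
    intro b
    unfold pv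
    rw [Pi.smul_apply, norm_smul, ph_norm, one_mul]
  simp only [h]
  exact d.qv_unit K q

/-- the blocks when the inputs in `K` are set -/
noncomputable def ps (K : Finset V) (hK : Disjoint d.Cand K) : PS V d.Cand where
  c := d.c
  good := d.hc
  Θ := d.Θ
  o := d.o
  hΘ := d.hΘ
  ho := d.ho
  O := fun h => Finset.univ.filter fun q => rep d.cg q = rep d.cg h.1
  inp := fun h => h.1
  tr := fun h => decide (¬ (d.cg (rep d.cg h.1)).Nonempty)
  pi := d.pv K
  th := d.tv
  γ := fun q => ‖d.ov K q‖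
  x1 := fun h => d.W h.1 * xm * star (d.W h.1)
  pi_unit := d.pv_unit K
  th_unit := d.tv_unit
  γ0 := fun q => norm_nonneg _
  γ1 := fun q => dot_le _ _ (d.tv_unit q) (d.qv_unit K q)
  hγ := fun h q _ _ => by
    have e : ∑ b, star (d.tv q b) * d.pv K q b = ph (d.ov K q) * d.ov K q := by
      unfold pv ov
      rw [Finset.mul_sum]
      refine Finset.sum_congr rfl fun b _ => ?_
      rw [Pi.smul_apply, smul_eq_mul]
      ring
    rw [e, ph_mul]
  x1_star := fun h => by
    rw [star_mul, star_mul, star_star, xm_star, mul_assoc]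
  x1_sq := fun h => by
    calc d.W h.1 * xm * star (d.W h.1) * (d.W h.1 * xm * star (d.W h.1))
        = d.W h.1 * xm * (star (d.W h.1) * d.W h.1) * xm * star (d.W h.1) := by
          simp only [mul_assoc]
      _ = d.W h.1 * (xm * xm) * star (d.W h.1) := by
          rw [Unitary.star_mul_self_of_mem (d.hW h.1), mul_one]
          simp only [mul_assoc]
      _ = 1 := by rw [xm_sq, mul_one, Unitary.mul_star_self_of_mem (d.hW h.1)]
  x1_off := fun h => by
    have hn : h.1 ∉ K := fun hh => Finset.disjoint_left.1 hK h.2 hh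
    have e : ∀ b, star (d.pv K h.1 b) * ((d.W h.1 * xm * star (d.W h.1)) *ᵥ d.pv K h.1) b =
        (star (ph (d.ov K h.1)) * ph (d.ov K h.1)) *
          (star ((d.W h.1 *ᵥ Pi.single false 1) b) *
            (d.W h.1 *ᵥ (xm *ᵥ Pi.single false 1)) b) := by
      intro b
      have e1 : (d.W h.1 * xm * star (d.W h.1)) *ᵥ d.pv K h.1 =
          ph (d.ov K h.1) • (d.W h.1 *ᵥ (xm *ᵥ Pi.single false 1)) := by
        unfold pv qv
        rw [Matrix.mulVec_smul, Matrix.mulVec_mulVec, mul_assoc,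
          Unitary.star_mul_self_of_mem (d.hW h.1), mul_one, ← Matrix.mulVec_mulVec]
        simp [hn]
      rw [e1]
      have e2 : d.pv K h.1 b = ph (d.ov K h.1) * (d.W h.1 *ᵥ Pi.single false 1) b := by
        unfold pv qv
        rw [Pi.smul_apply, smul_eq_mul]
        simp [hn]
      rw [e2, Pi.smul_apply, smul_eq_mul, star_mul']
      ring
    simp only [e]
    rw [← Finset.mul_sum, uni_dot _ (d.hW h.1)]
    simp [xm, Matrix.mulVec, dotProduct]
  O_disj := fun h h' hne => by
    rw [Finset.disjoint_left]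
    intro q hq hq'
    rw [Finset.mem_filter] at hq hq'
    exact hne (Subtype.ext (d.hinj _ h.2 _ h'.2 (hq.2.symm.trans hq'.2)))
  inp_O := fun h => by simp
  o_notMem := fun h => by
    rw [Finset.mem_filter]
    rintro ⟨-, hh⟩
    exact d.hoC _ h.2 hh.symm

end Dat

end P368.D3
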