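import Vale.Agent.P368.Beta

namespace P368

open scoped BigOperators

section NormCore

variable {𝔄 : Type*} [CStarAlgebra 𝔄] {β : Type*} [DecidableEq β]

noncomputable def prodC (J : Finset β) (X : β → 𝔄) (hX : ∀ h h', h ≠ h' → Commute (X h) (X h')) :
    𝔄 :=
  J.noncommProd X (fun h _ h' _ hne => hX h h' hne)

theorem prodC_insert (J : Finset β) (X : β → 𝔄) (hX : ∀ h h', h ≠ h' → Commute (X h) (X h'))
    (h : β) (hh : h ∉ J) : prodC (insert h J) X hX = X h * prodC J X hX :=
  Finset.noncommProd_insert_of_notMem J h X (fun h _ h' _ hne => hX h h' hne) hh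

theorem prodC_commute (J : Finset β) (X : β → 𝔄) (hX : ∀ h h', h ≠ h' → Commute (X h) (X h'))
    (T : 𝔄) (hT : ∀ h ∈ J, Commute T (X h)) : Commute T (prodC J X hX) :=
  Finset.noncommProd_commute _ _ _ _ fun x hx => hT x hx

theorem norm_core_aux1 (k : ℕ) (Y B S : 𝔄) :
    (-1 : ℂ) ^ k • (Y * S) + (-1 : ℂ) ^ (k + 1) • (B * S) =
      Y * ((-1 : ℂ) ^ k • S) - B * ((-1 : ℂ) ^ k • S) := by
  rw [mul_smul_comm, mul_smul_comm, pow_succ, mul_neg_one, neg_smul, ← sub_eq_add_neg]

theorem norm_core_aux2 (k : ℕ) (B S : 𝔄) :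
    (1 / 2 ^ (k + 1) : ℂ) • (B * S) = ((1 / 2 : ℂ) • B) * ((1 / 2 ^ k : ℂ) • S) := by
  rw [smul_mul_assoc, mul_smul_comm, smul_smul, pow_succ]
  congr 1
  rw [one_div_mul_one_div, mul_comm]

/-- signed average of `X_I Y X_I` over subsets `I` of `J`, when `Y` factorises over the blocks -/
theorem norm_core (J : Finset β) (X E F : β → 𝔄) (lam : β → ℝ) (Z : 𝔄)
    (hXX : ∀ h h', h ≠ h' → Commute (X h) (X h'))
    (hYY : ∀ h h', h ≠ h' → Commute ((lam h : ℂ) • (E h * F h)) ((lam h' : ℂ) • (E h' * F h')))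
    (hX : ∀ h, star (X h) = X h) (hX2 : ∀ h, X h * X h = 1)
    (hE : ∀ h, IsStarProjection (E h)) (hF : ∀ h, IsStarProjection (F h))
    (h0 : ∀ h, 0 ≤ lam h) (h1 : ∀ h, lam h ≤ 1)
    (hXE : ∀ h ∈ J, ∀ h' ∈ J, h ≠ h' → Commute (X h) (E h'))
    (hXF : ∀ h ∈ J, ∀ h' ∈ J, h ≠ h' → Commute (X h) (F h'))
    (hXZ : ∀ h ∈ J, Commute (X h) Z) (hZ : ‖Z‖ ≤ 1) :
    ‖(1 / 2 ^ J.card : ℂ) • ∑ I ∈ J.powerset, (-1 : ℂ) ^ I.card •
      (prodC I X hXX * (prodC J (fun h => (lam h : ℂ) • (E h * F h)) hYY * Z) *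
        prodC I X hXX)‖ ≤ (3 / 4) ^ J.card := by
  induction J using Finset.induction_on with
  | empty =>
    rw [Finset.powerset_empty, Finset.sum_singleton, Finset.card_empty]
    have e : (prodC ∅ X hXX * (prodC ∅ (fun h => (lam h : ℂ) • (E h * F h)) hYY * Z) *
        prodC ∅ X hXX) = Z := by
      have e1 : prodC ∅ X hXX = 1 := Finset.noncommProd_empty _ _
      have e2 : prodC ∅ (fun h => (lam h : ℂ) • (E h * F h)) hYY = 1 :=
        Finset.noncommProd_empty _ _
      rw [e1, e2, one_mul, one_mul, mul_one]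
    rw [e]
    simpa using hZ
  | insert h J hh ih =>
    have hYd : ∀ h' , (fun h => (lam h : ℂ) • (E h * F h)) h' = (lam h' : ℂ) • (E h' * F h') :=
      fun _ => rfl
    have ih' := ih (fun x hx y hy => hXE x (Finset.mem_insert_of_mem hx) y
        (Finset.mem_insert_of_mem hy))
      (fun x hx y hy => hXF x (Finset.mem_insert_of_mem hx) y (Finset.mem_insert_of_mem hy))
      (fun x hx => hXZ x (Finset.mem_insert_of_mem hx))
    -- commutation facts
    have hne : ∀ x ∈ J, h ≠ x := by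
      rintro x hx rfl
      exact hh hx
    obtain ⟨Yh, hYh⟩ : ∃ Y : 𝔄, Y = (lam h : ℂ) • (E h * F h) := ⟨_, rfl⟩
    obtain ⟨P, hP⟩ : ∃ P : 𝔄, P = prodC J (fun h => (lam h : ℂ) • (E h * F h)) hYY := ⟨_, rfl⟩
    have hmem := Finset.mem_insert_self h J
    have hXhP : Commute (X h) P := by
      rw [hP]
      apply prodC_commute
      intro x hx
      have hx' : x ∈ insert h J := Finset.mem_insert_of_mem hx
      exact ((hXE h hmem x hx' (hne x hx)).mul_right (hXF h hmem x hx' (hne x hx))).smul_right _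
    have hXhZ : Commute (X h) Z := hXZ h hmem
    have hIYh : ∀ I ∈ J.powerset, Commute Yh (prodC I X hXX) := by
      intro I hI
      apply prodC_commute
      intro x hx
      rw [hYh]
      have hxJ : x ∈ J := Finset.mem_powerset.1 hI hx
      have hx' : x ∈ insert h J := Finset.mem_insert_of_mem hxJ
      exact (((hXE x hx' h hmem (hne x hxJ).symm).mul_right
        (hXF x hx' h hmem (hne x hxJ).symm)).smul_right _).symm
    have hIXh : ∀ I ∈ J.powerset, Commute (X h) (prodC I X hXX) := by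
      intro I hI
      apply prodC_commute
      intro x hx
      exact hXX h x (hne x (Finset.mem_powerset.1 hI hx))
    have hins : prodC (insert h J) (fun h => (lam h : ℂ) • (E h * F h)) hYY = Yh * P := by
      rw [hYh, hP]
      exact prodC_insert J _ hYY h hh
    have hnot : ∀ I ∈ J.powerset, h ∉ I := fun I hI hx => hh (Finset.mem_powerset.1 hI hx)
    obtain ⟨S, hS⟩ : ∃ S : 𝔄, S = ∑ I ∈ J.powerset, (-1 : ℂ) ^ I.card •
      (prodC I X hXX * (P * Z) * prodC I X hXX) := ⟨_, rfl⟩
    rw [← hP, ← hS] at ih'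
    have hsum : ∑ I ∈ (insert h J).powerset, (-1 : ℂ) ^ I.card •
        (prodC I X hXX * (prodC (insert h J) (fun h => (lam h : ℂ) • (E h * F h)) hYY * Z) *
          prodC I X hXX) = (Yh - X h * Yh * X h) * S := by
      rw [Finset.sum_powerset_insert hh, hins, sub_mul, hS, Finset.mul_sum, Finset.mul_sum,
        ← Finset.sum_add_distrib, ← Finset.sum_sub_distrib]
      refine Finset.sum_congr rfl fun I hI => ?_
      have e1 : prodC I X hXX * (Yh * P * Z) * prodC I X hXX =
          Yh * (prodC I X hXX * (P * Z) * prodC I X hXX) := by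
        calc prodC I X hXX * (Yh * P * Z) * prodC I X hXX
            = (prodC I X hXX * Yh) * (P * Z) * prodC I X hXX := by simp only [mul_assoc]
          _ = (Yh * prodC I X hXX) * (P * Z) * prodC I X hXX := by rw [(hIYh I hI).eq]
          _ = _ := by simp only [mul_assoc]
      have e2 : prodC (insert h I) X hXX = X h * prodC I X hXX := prodC_insert I X hXX h (hnot I hI)
      have e3 : prodC (insert h I) X hXX * (Yh * P * Z) * prodC (insert h I) X hXX =
          X h * Yh * X h * (prodC I X hXX * (P * Z) * prodC I X hXX) := by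
        rw [e2]
        have c1 : Commute (X h) (prodC I X hXX * (P * Z) * prodC I X hXX) :=
          ((hIXh I hI).mul_right (hXhP.mul_right hXhZ)).mul_right (hIXh I hI)
        calc X h * prodC I X hXX * (Yh * P * Z) * (X h * prodC I X hXX)
            = X h * (prodC I X hXX * (Yh * P * Z)) * (X h * prodC I X hXX) := by
              simp only [mul_assoc]
          _ = X h * (prodC I X hXX * (Yh * P * Z)) * (prodC I X hXX * X h) := by
              rw [(hIXh I hI).eq]
          _ = X h * (prodC I X hXX * (Yh * P * Z) * prodC I X hXX) * X h := by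
              simp only [mul_assoc]
          _ = X h * (Yh * (prodC I X hXX * (P * Z) * prodC I X hXX)) * X h := by rw [e1]
          _ = X h * Yh * ((prodC I X hXX * (P * Z) * prodC I X hXX) * X h) := by
              simp only [mul_assoc]
          _ = X h * Yh * (X h * (prodC I X hXX * (P * Z) * prodC I X hXX)) := by rw [c1.eq]
          _ = _ := by simp only [mul_assoc]
      rw [e1, e3, Finset.card_insert_of_notMem (hnot I hI)]
      exact norm_core_aux1 _ _ _ _
    rw [hsum, Finset.card_insert_of_notMem hh]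
    have hfac : (1 / 2 ^ (J.card + 1) : ℂ) • ((Yh - X h * Yh * X h) * S) =
        ((1 / 2 : ℂ) • (Yh - X h * Yh * X h)) * ((1 / 2 ^ J.card : ℂ) • S) := by
      exact norm_core_aux2 _ _ _
    rw [hfac]
    have hb : ‖(1 / 2 : ℂ) • (Yh - X h * Yh * X h)‖ ≤ 3 / 4 := by
      have h2 := tbound2 (X h) (E h) (F h) (hX h) (hX2 h) (proj_refl_norm _ (hE h))
        (proj_refl_norm _ (hF h))
      have h3 : (1 / 2 : ℂ) • (Yh - X h * Yh * X h) =
          (lam h : ℂ) • ((1 / 2 : ℂ) • (E h * F h - X h * (E h * F h) * X h)) := by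
        rw [hYh, mul_smul_comm, smul_mul_assoc, ← smul_sub, smul_comm]
      rw [h3, norm_smul]
      have h4 : ‖(lam h : ℂ)‖ = lam h := by
        rw [Complex.norm_real, Real.norm_of_nonneg (h0 h)]
      rw [h4]
      calc lam h * ‖(1 / 2 : ℂ) • (E h * F h - X h * (E h * F h) * X h)‖
          ≤ 1 * (3 / 4) := mul_le_mul (h1 h) h2 (norm_nonneg _) zero_le_one
        _ = 3 / 4 := one_mul _
    calc ‖((1 / 2 : ℂ) • (Yh - X h * Yh * X h)) * ((1 / 2 ^ J.card : ℂ) • S)‖
        ≤ ‖(1 / 2 : ℂ) • (Yh - X h * Yh * X h)‖ * ‖(1 / 2 ^ J.card : ℂ) • S‖ := norm_mul_le _ _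
      _ ≤ (3 / 4) * (3 / 4) ^ J.card := mul_le_mul hb ih' (norm_nonneg _) (by norm_num)
      _ = (3 / 4) ^ (J.card + 1) := by rw [pow_succ]; ring

end NormCore

end P368
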