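import Vale.Agent.P368.Supp

namespace P368.D3

open Matrix
open scoped BigOperators InnerProductSpace ComplexOrder

section KetBra

/-- rank one matrix -/
noncomputable def kb (u w : Bool → ℂ) : M2 := Matrix.of fun a b => u a * star (w b)

noncomputable def perp (u : Bool → ℂ) : Bool → ℂ :=
  fun b => if b = true then star (u false) else -star (u true)

theorem outer_eq (u : Bool → ℂ) : outer u = kb u u := rfl

theorem kb_mul (u v w z : Bool → ℂ) :
    kb u v * kb w z = (∑ b, star (v b) * w b) • kb u z := by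
  ext a b
  simp only [kb, Matrix.mul_apply, Matrix.of_apply, Matrix.smul_apply, smul_eq_mul,
    Fintype.sum_bool]
  ring

theorem kb_star (u v : Bool → ℂ) : star (kb u v) = kb v u := by
  ext a b
  simp only [kb, Matrix.star_apply, Matrix.of_apply, star_mul', star_star]
  ring

theorem unit_inner {u : Bool → ℂ} (hu : ∑ b, ‖u b‖ ^ 2 = 1) : ∑ b, star (u b) * u b = 1 := by
  have h : ∀ z : ℂ, star z * z = ((‖z‖ ^ 2 : ℝ) : ℂ) := by
    intro z
    rw [← starRingEnd_apply, Complex.conj_mul']
    push_cast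
    rfl
  rw [Fintype.sum_bool] at hu ⊢
  rw [h, h, ← Complex.ofReal_add, hu, Complex.ofReal_one]

theorem perp_inner (u : Bool → ℂ) : ∑ b, star (perp u b) * u b = 0 := by
  simp only [perp, Fintype.sum_bool]
  simp
  ring

theorem inner_perp (u : Bool → ℂ) : ∑ b, star (u b) * perp u b = 0 := by
  simp only [perp, Fintype.sum_bool]
  simp
  ring

theorem perp_unit {u : Bool → ℂ} (hu : ∑ b, ‖u b‖ ^ 2 = 1) : ∑ b, ‖perp u b‖ ^ 2 = 1 := by
  rw [Fintype.sum_bool] at hu ⊢
  simp only [perp]
  simp only [if_true, Bool.false_eq_true, if_false, norm_neg, norm_star]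
  rw [← hu]
  ring

theorem kb_perp_sum {u : Bool → ℂ} (hu : ∑ b, ‖u b‖ ^ 2 = 1) :
    kb u u + kb (perp u) (perp u) = 1 := by
  have h := unit_inner hu
  rw [Fintype.sum_bool] at h
  ext a b
  simp only [kb, perp, Matrix.add_apply, Matrix.of_apply]
  cases a <;> cases b <;> simp at h ⊢
  · rw [← h]
    ring
  · ring
  · ring
  · rw [← h]
    ring

theorem outer_proj {u : Bool → ℂ} (hu : ∑ b, ‖u b‖ ^ 2 = 1) : IsStarProjection (outer u) := by
  refine ⟨?_, ?_⟩
  · unfold IsIdempotentElem
    rw [outer_eq, kb_mul, unit_inner hu, one_smul]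
  · unfold IsSelfAdjoint
    rw [outer_eq, kb_star]

end KetBra

section OnSet

variable {V : Type} [Fintype V] [DecidableEq V]

theorem onSet_mul (S : Set V) (f g : V → M2) :
    onSet S f * onSet S g = onSet S (fun q => f q * g q) := by
  unfold onSet
  rw [prodOp_mul]
  congr 1
  funext q
  split_ifs <;> simp

theorem onSet_union {S T : Set V} (hd : Disjoint S T) (f : V → M2) :
    onSet (S ∪ T) f = onSet S f * onSet T f := by
  unfold onSet
  rw [prodOp_mul]
  congr 1
  funext q
  by_cases hS : q ∈ S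
  · have hT : q ∉ T := Set.disjoint_left.mp hd hS
    rw [if_pos (Set.mem_union_left T hS), if_pos hS, if_neg hT, mul_one]
  · by_cases hT : q ∈ T
    · rw [if_pos (Set.mem_union_right S hT), if_neg hS, if_pos hT, one_mul]
    · rw [if_neg (fun h => h.elim hS hT : ¬ q ∈ S ∪ T), if_neg hS, if_neg hT, one_mul]

theorem onSet_congr {S : Set V} {f g : V → M2} (h : ∀ q ∈ S, f q = g q) :
    onSet S f = onSet S g := by
  unfold onSet
  congr 1
  funext q
  split_ifs with hq
  · exact h q hq
  · rfl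

theorem onSet_star (S : Set V) (f : V → M2) :
    star (onSet S f) = onSet S (fun q => star (f q)) := by
  unfold onSet
  rw [prodOp_star]
  congr 1
  funext q
  split_ifs <;> simp

theorem onSet_empty (f : V → M2) : onSet (∅ : Set V) f = 1 := by
  unfold onSet
  rw [← prodOp_one]
  congr 1
  funext q
  simp

theorem onSet_one (S : Set V) : onSet S (fun _ => 1) = 1 := by
  unfold onSet
  rw [← prodOp_one]
  congr 1
  funext q
  split_ifs <;> rfl

theorem onSet_proj {S : Set V} {f : V → M2} (h : ∀ q ∈ S, IsStarProjection (f q)) :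
    IsStarProjection (onSet S f) := by
  unfold onSet
  refine prodOp_proj _ fun q => ?_
  split_ifs with hq
  · exact h q hq
  · exact .one _

theorem prodOp_smul' (a : V → ℂ) (B : V → M2) :
    prodOp (fun q => a q • B q) = (∏ q, a q) • prodOp B := by
  ext x y
  simp only [prodOp, Matrix.of_apply, Matrix.smul_apply, smul_eq_mul, Finset.prod_mul_distrib]

open Classical in
theorem onSet_smul (S : Set V) (a : V → ℂ) (f : V → M2) :
    onSet S (fun q => a q • f q) = (∏ q ∈ Finset.univ.filter (fun q => q ∈ S), a q) • onSet S f := by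
  unfold onSet
  rw [Finset.prod_filter, ← prodOp_smul']
  congr 1
  funext q
  split_ifs <;> simp

end OnSet

section Contract

variable {V : Type} [Fintype V] [DecidableEq V]

theorem kb_sand (u v w z : Bool → ℂ) (A : M2) :
    kb u v * A * kb w z = (∑ a, ∑ b, star (v a) * A a b * w b) • kb u z := by
  ext a b
  simp only [kb, Matrix.mul_apply, Matrix.of_apply, Matrix.smul_apply, smul_eq_mul,
    Fintype.sum_bool]
  ring

theorem site_mul_prodOp (q : V) (A : M2) (C : V → M2) :
    site q A * prodOp C = prodOp (Function.update C q (A * C q)) := by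
  unfold site
  rw [prodOp_mul]
  congr 1
  funext w
  rcases eq_or_ne w q with rfl | hw
  · rw [Function.update_self, Function.update_self]
  · rw [Function.update_of_ne hw, Function.update_of_ne hw, one_mul]

theorem prodOp_mul_site (q : V) (A : M2) (C : V → M2) :
    prodOp C * site q A = prodOp (Function.update C q (C q * A)) := by
  unfold site
  rw [prodOp_mul]
  congr 1
  funext w
  rcases eq_or_ne w q with rfl | hw
  · rw [Function.update_self, Function.update_self]
  · rw [Function.update_of_ne hw, Function.update_of_ne hw, mul_one]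

theorem site_star (q : V) (A : M2) : star (site q A) = site q (star A) := by
  unfold site
  rw [prodOp_star]
  congr 1
  funext w
  rcases eq_or_ne w q with rfl | hw
  · rw [Function.update_self, Function.update_self]
  · rw [Function.update_of_ne hw, Function.update_of_ne hw, star_one]

theorem site_mul_site (q : V) (A B : M2) : site q A * site q B = site q (A * B) := by
  unfold site
  rw [prodOp_mul]
  congr 1
  funext w
  rcases eq_or_ne w q with rfl | hw
  · rw [Function.update_self, Function.update_self, Function.update_self]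
  · rw [Function.update_of_ne hw, Function.update_of_ne hw, Function.update_of_ne hw, one_mul]

theorem site_zero (q : V) : site q (0 : M2) = 0 := by
  have := prodOp_smul (Function.update (fun _ : V => (1 : M2)) q 0) q 0
  simpa [site] using this

theorem site_add (q : V) (A B : M2) : site q (A + B) = site q A + site q B :=
  prodOp_add _ q A B

theorem site_one (q : V) : site q (1 : M2) = 1 := by
  unfold site
  rw [← prodOp_one]
  congr 1
  funext w
  rcases eq_or_ne w q with rfl | hw
  · rw [Function.update_self]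
  · rw [Function.update_of_ne hw]

/-- conditional expectation at one qubit -/
noncomputable def ctE (q : V) (p : Bool → ℂ) (M : Op V) : Op V :=
  site q (kb p p) * M * site q (kb p p) +
    site q (kb (perp p) p) * M * site q (kb p (perp p))

theorem ctE_add (q : V) (p : Bool → ℂ) (M N : Op V) : ctE q p (M + N) = ctE q p M + ctE q p N := by
  unfold ctE
  rw [mul_add, mul_add, add_mul, add_mul]
  abel

theorem ctE_sub (q : V) (p : Bool → ℂ) (M N : Op V) : ctE q p (M - N) = ctE q p M - ctE q p N := by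
  unfold ctE
  rw [mul_sub, mul_sub, sub_mul, sub_mul]
  abel

theorem ctE_smul (q : V) (p : Bool → ℂ) (a : ℂ) (M : Op V) :
    ctE q p (a • M) = a • ctE q p M := by
  unfold ctE
  rw [mul_smul_comm, mul_smul_comm, smul_mul_assoc, smul_mul_assoc, smul_add]

theorem ctE_prodOp (q : V) {p : Bool → ℂ} (hp : ∑ b, ‖p b‖ ^ 2 = 1) (C : V → M2) :
    ctE q p (prodOp C) = (∑ a, ∑ b, star (p a) * C q a b * p b) •
      prodOp (Function.update C q 1) := by
  unfold ctE
  rw [site_mul_prodOp, site_mul_prodOp, prodOp_mul_site, prodOp_mul_site]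
  simp only [Function.update_self, Function.update_idem]
  rw [kb_sand, kb_sand]
  have h1 : ∀ (a : ℂ) (B : M2), prodOp (Function.update C q (a • B)) =
      a • prodOp (Function.update C q B) := by
    intro a B
    have := prodOp_smul (Function.update C q B) q a
    simpa using this
  rw [h1, h1, ← smul_add, ← prodOp_add, kb_perp_sum hp]

theorem ctE_one (q : V) {p : Bool → ℂ} (hp : ∑ b, ‖p b‖ ^ 2 = 1) : ctE q p (1 : Op V) = 1 := by
  unfold ctE
  rw [mul_one, mul_one, site_mul_site, site_mul_site, kb_mul, kb_mul, unit_inner hp, one_smul,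
    one_smul, ← site_add, kb_perp_sum hp, site_one]

theorem span_mul_mem {S : Set V} {x y : Op V}
    (hx : x ∈ Submodule.span ℂ {N : Op V | ∃ B : V → M2, (∀ v, v ∉ S → B v = 1) ∧ N = prodOp B})
    (hy : y ∈ Submodule.span ℂ {N : Op V | ∃ B : V → M2, (∀ v, v ∉ S → B v = 1) ∧ N = prodOp B}) :
    x * y ∈ Submodule.span ℂ {N : Op V | ∃ B : V → M2, (∀ v, v ∉ S → B v = 1) ∧ N = prodOp B} := by
  induction hx using Submodule.span_induction with
  | mem x hx =>
    induction hy using Submodule.span_induction with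
    | mem y hy =>
      obtain ⟨B, hB, rfl⟩ := hx
      obtain ⟨C, hC, rfl⟩ := hy
      rw [prodOp_mul]
      exact Submodule.subset_span ⟨_, fun v hv => by rw [hB v hv, hC v hv, one_mul], rfl⟩
    | zero =>
      rw [mul_zero]
      exact zero_mem _
    | add y z _ _ hy hz =>
      rw [mul_add]
      exact add_mem hy hz
    | smul a y _ hy =>
      rw [mul_smul_comm]
      exact Submodule.smul_mem _ _ hy
  | zero =>
    rw [zero_mul]
    exact zero_mem _
  | add x z _ _ hx hz =>
    rw [add_mul]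
    exact add_mem hx hz
  | smul a x _ hx =>
    rw [smul_mul_assoc]
    exact Submodule.smul_mem _ _ hx

theorem locAlg_span {S : Set V} {M : Op V} (hM : M ∈ locAlg S) :
    M ∈ Submodule.span ℂ {N : Op V | ∃ B : V → M2, (∀ v, v ∉ S → B v = 1) ∧ N = prodOp B} := by
  unfold locAlg at hM
  induction hM using Algebra.adjoin_induction with
  | mem x hx => exact Submodule.subset_span hx
  | algebraMap r =>
    rw [Algebra.algebraMap_eq_smul_one, ← prodOp_one]
    exact Submodule.smul_mem _ _ (Submodule.subset_span ⟨_, fun _ _ => rfl, rfl⟩)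
  | add x y _ _ hx hy => exact add_mem hx hy
  | mul x y _ _ hx hy => exact span_mul_mem hx hy

theorem ctE_mem_aux (q : V) {p : Bool → ℂ} (hp : ∑ b, ‖p b‖ ^ 2 = 1) {S : Set V} {M : Op V}
    (h : M ∈ Submodule.span ℂ {N : Op V | ∃ B : V → M2, (∀ v, v ∉ S → B v = 1) ∧ N = prodOp B}) :
    ctE q p M ∈ locAlg (S \ {q}) := by
  induction h using Submodule.span_induction with
  | mem x hx =>
    obtain ⟨B, hB, rfl⟩ := hx
    rw [ctE_prodOp q hp]
    refine Subalgebra.smul_mem _ (prodOp_mem _ fun v hv => ?_) _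
    rcases eq_or_ne v q with rfl | hw
    · rw [Function.update_self]
    · rw [Function.update_of_ne hw]
      exact hB v fun hS => hv ⟨hS, hw⟩
  | zero =>
    have : ctE q p (0 : Op V) = 0 := by
      unfold ctE
      simp
    rw [this]
    exact zero_mem _
  | add x y _ _ hx hy =>
    rw [ctE_add]
    exact add_mem hx hy
  | smul a x _ hx =>
    rw [ctE_smul]
    exact Subalgebra.smul_mem _ hx _

theorem ctE_mem (q : V) {p : Bool → ℂ} (hp : ∑ b, ‖p b‖ ^ 2 = 1) {S : Set V} {M : Op V}
    (hM : M ∈ locAlg S) : ctE q p M ∈ locAlg (S \ {q}) :=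
  ctE_mem_aux q hp (locAlg_span hM)

theorem ctE_nonneg (q : V) (p : Bool → ℂ) {M : Op V} (h0 : 0 ≤ act M) : 0 ≤ act (ctE q p M) := by
  unfold ctE
  have e1 : site q (kb p p) = star (site q (kb p p) : Op V) := by
    rw [site_star, kb_star]
  have e2 : site q (kb p (perp p)) = star (site q (kb (perp p) p) : Op V) := by
    rw [site_star, kb_star]
  rw [map_add, map_mul, map_mul, map_mul, map_mul, e2, map_star]
  conv_rhs => enter [1, 2]; rw [e1, map_star]
  exact add_nonneg (star_right_conjugate_nonneg h0 _) (star_right_conjugate_nonneg h0 _)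

theorem ctE_sand (q : V) {p : Bool → ℂ} (hp : ∑ b, ‖p b‖ ^ 2 = 1) (M : Op V) :
    site q (kb p p) * ctE q p M * site q (kb p p) = site q (kb p p) * M * site q (kb p p) := by
  have h1 : site q (kb p p) * site q (kb p p) = (site q (kb p p) : Op V) := by
    rw [site_mul_site, kb_mul, unit_inner hp, one_smul]
  have h2 : site q (kb p p) * site q (kb (perp p) p) = (0 : Op V) := by
    rw [site_mul_site, kb_mul, inner_perp, zero_smul, site_zero]
  unfold ctE
  calc site q (kb p p) * (site q (kb p p) * M * site q (kb p p) +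
        site q (kb (perp p) p) * M * site q (kb p (perp p))) * site q (kb p p)
      = (site q (kb p p) * site q (kb p p)) * M * (site q (kb p p) * site q (kb p p)) +
        (site q (kb p p) * site q (kb (perp p) p)) * M * (site q (kb p (perp p)) *
          site q (kb p p)) := by noncomm_ring
    _ = _ := by rw [h1, h2, zero_mul, zero_mul, add_zero]

theorem onSet_singleton (q : V) (f : V → M2) : onSet {q} f = site q (f q) := by
  unfold onSet site
  congr 1
  funext w
  rcases eq_or_ne w q with rfl | hw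
  · rw [Function.update_self, if_pos (Set.mem_singleton w)]
  · rw [Function.update_of_ne hw, if_neg (fun h => hw (Set.mem_singleton_iff.mp h))]

/-- partial contraction of an operator with the product vector `pi` on `B` -/
theorem exists_contract (B S : Set V) (p : V → Bool → ℂ) (hp : ∀ q, ∑ b, ‖p q b‖ ^ 2 = 1)
    (M : Op V) (hM : M ∈ locAlg S) (h0 : 0 ≤ act M) (h1 : act M ≤ 1) :
    ∃ D : Op V, D ∈ locAlg (S \ B) ∧ 0 ≤ act D ∧ act D ≤ 1 ∧
      onSet B (fun q => outer (p q)) * M * onSet B (fun q => outer (p q)) =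
        onSet B (fun q => outer (p q)) * D * onSet B (fun q => outer (p q)) := by
  have key : ∀ T : Finset V, ∃ D : Op V, D ∈ locAlg (S \ (T : Set V)) ∧ 0 ≤ act D ∧ act D ≤ 1 ∧
      onSet (T : Set V) (fun q => outer (p q)) * M * onSet (T : Set V) (fun q => outer (p q)) =
        onSet (T : Set V) (fun q => outer (p q)) * D *
          onSet (T : Set V) (fun q => outer (p q)) := by
    intro T
    induction T using Finset.induction_on with
    | empty =>
      refine ⟨M, ?_, h0, h1, rfl⟩
      rw [Finset.coe_empty, Set.sdiff_empty]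
      exact hM
    | insert q T hq ih =>
      obtain ⟨D, hD, hD0, hD1, hDM⟩ := ih
      refine ⟨ctE q (p q) D, ?_, ctE_nonneg q (p q) hD0, ?_, ?_⟩
      · have := ctE_mem q (hp q) hD
        have hset : S \ ((insert q T : Finset V) : Set V) = (S \ (T : Set V)) \ {q} := by
          ext w
          simp only [Finset.coe_insert, Set.mem_sdiff, Set.mem_insert_iff, Set.mem_singleton_iff,
            Finset.mem_coe, not_or]
          tauto
        rw [hset]
        exact this
      · have h2 : 0 ≤ act (ctE q (p q) (1 - D)) := by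
          refine ctE_nonneg q (p q) ?_
          rw [map_sub, map_one]
          exact sub_nonneg.mpr hD1
        rw [ctE_sub, ctE_one q (hp q), map_sub, map_one] at h2
        exact sub_nonneg.mp h2
      · have hset : ((insert q T : Finset V) : Set V) = {q} ∪ (T : Set V) := by
          rw [Finset.coe_insert, Set.insert_eq]
        have hdis : Disjoint ({q} : Set V) (T : Set V) :=
          Set.disjoint_singleton_left.mpr (by simpa using hq)
        have hc : Commute (site q (kb (p q) (p q)) : Op V)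
            (onSet (T : Set V) (fun q => outer (p q))) :=
          locAlg_commute hdis (site_mem _ _) (onSet_mem _ _)
        rw [hset, onSet_union hdis, onSet_singleton, outer_eq]
        set P := (site q (kb (p q) (p q)) : Op V)
        set T' := onSet (T : Set V) (fun q => outer (p q))
        calc P * T' * M * (P * T') = P * T' * M * (T' * P) := by rw [hc.eq]
          _ = P * (T' * M * T') * P := by noncomm_ring
          _ = P * (T' * D * T') * P := by rw [hDM]
          _ = (P * T') * D * (T' * P) := by noncomm_ring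
          _ = (T' * P) * D * (P * T') := by rw [hc.eq]
          _ = T' * (P * D * P) * T' := by noncomm_ring
          _ = T' * (P * ctE q (p q) D * P) * T' := by rw [ctE_sand q (hp q)]
          _ = (T' * P) * ctE q (p q) D * (P * T') := by noncomm_ring
          _ = (P * T') * ctE q (p q) D * (P * T') := by rw [hc.eq]
  classical
  obtain ⟨D, hD⟩ := key (Finset.univ.filter fun q => q ∈ B)
  have hset : ((Finset.univ.filter fun q => q ∈ B : Finset V) : Set V) = B := by
    ext w
    simp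
  rw [hset] at hD
  exact ⟨D, hD⟩

end Contract

namespace Sys

variable {V β : Type} [Fintype V] [DecidableEq V] [DecidableEq β] (s : Sys V β)

theorem wt_prod (j : ℕ) (h : β) [DecidablePred fun q => q ∈ s.G j] :
    0 ≤ ∏ q ∈ (s.O h).filter (fun q => q ∈ s.G j), s.γ q ^ 2 ∧
    ∏ q ∈ (s.O h).filter (fun q => q ∈ s.G j), s.γ q ^ 2 ≤ 1 :=
  ⟨Finset.prod_nonneg fun q _ => sq_nonneg _,
    Finset.prod_le_one (fun q _ => sq_nonneg _) fun q _ =>
      pow_le_one₀ (s.γ0 q) (s.γ1 q)⟩

theorem wt_nonneg (j : ℕ) (h : β) : 0 ≤ s.wt j h := by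
  classical
  have := (s.wt_prod j h).2
  unfold wt
  linarith

theorem wt_le_one (j : ℕ) (h : β) : s.wt j h ≤ 1 := by
  classical
  have := (s.wt_prod j h).1
  unfold wt
  linarith

theorem cw_sq_add (τ : ℝ) (h : β) (j : ℕ) : s.cw τ h j ^ 2 + s.ww τ h j = 1 := by
  unfold cw ww
  split_ifs with hw
  · unfold wt
    rw [← Finset.prod_pow]
    ring
  · ring

theorem cw_nonneg (τ : ℝ) (h : β) (j : ℕ) : 0 ≤ s.cw τ h j := by
  unfold cw
  split_ifs
  · exact Finset.prod_nonneg fun q _ => s.γ0 q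
  · exact zero_le_one

theorem ww_nonneg (τ : ℝ) (h : β) (j : ℕ) : 0 ≤ s.ww τ h j := by
  unfold ww
  split_ifs
  · exact s.wt_nonneg j h
  · exact le_rfl

theorem ww_le (τ : ℝ) (h : β) (j : ℕ) (hτ : 0 ≤ τ) : s.ww τ h j ≤ τ := by
  unfold ww
  split_ifs with hw
  · exact hw
  · exact hτ

theorem ww_le_wt (τ : ℝ) (h : β) (j : ℕ) : s.ww τ h j ≤ s.wt j h := by
  unfold ww
  split_ifs with hw
  · exact le_rfl
  · exact s.wt_nonneg j h

theorem rot_eq (q : V) : s.rot q = kb (s.th q) (s.pi q) + kb (perp (s.th q)) (perp (s.pi q)) := by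
  ext a b
  simp only [rot, kb, perp, Matrix.of_apply, Matrix.add_apply]

theorem rot_unitary (q : V) : star (s.rot q) * s.rot q = 1 := by
  rw [rot_eq, star_add, kb_star, kb_star, add_mul, mul_add, mul_add, kb_mul, kb_mul, kb_mul,
    kb_mul, unit_inner (s.th_unit q), unit_inner (perp_unit (s.th_unit q)), inner_perp,
    perp_inner, one_smul, one_smul, zero_smul, zero_smul, add_zero, zero_add,
    kb_perp_sum (s.pi_unit q)]

theorem rot_mul_outer (q : V) : s.rot q * outer (s.pi q) = kb (s.th q) (s.pi q) := by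
  rw [rot_eq, outer_eq, add_mul, kb_mul, kb_mul, unit_inner (s.pi_unit q), perp_inner, one_smul,
    zero_smul, add_zero]

theorem outer_rot_outer (q : V) (g : ℝ) (hg : ∑ b, star (s.th q b) * s.pi q b = (g : ℂ)) :
    outer (s.pi q) * s.rot q * outer (s.pi q) = (g : ℂ) • outer (s.pi q) := by
  rw [mul_assoc, rot_mul_outer, outer_eq, kb_mul]
  congr 1
  have h2 : ∑ b, star (s.pi q b) * s.th q b = star (∑ b, star (s.th q b) * s.pi q b) := by
    rw [star_sum]
    refine Finset.sum_congr rfl fun b _ => ?_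
    rw [star_mul', star_star, mul_comm]
  rw [h2, hg]
  simp

theorem outer_th_mul (q : V) (g : ℝ) (hg : ∑ b, star (s.th q b) * s.pi q b = (g : ℂ)) :
    outer (s.th q) * outer (s.pi q) = (g : ℂ) • (s.rot q * outer (s.pi q)) := by
  rw [rot_mul_outer, outer_eq, outer_eq, kb_mul, hg]

theorem G_ne_inp {h : β} {j : ℕ} {q : V} (hq : q ∈ s.G j) : q ≠ s.inp h := by
  rintro rfl
  exact Set.disjoint_left.mp (s.zone_G h j) (s.inp_zone h) hq

theorem P_mem (j : ℕ) (h : β) : s.P j h ∈ locAlg ((s.O h : Set V) ∩ s.G j) := onSet_mem _ _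

theorem P_mem_G (j : ℕ) (h : β) : s.P j h ∈ locAlg (s.G j) :=
  locAlg_mono Set.inter_subset_right (s.P_mem j h)

theorem Ot_mem_G (J : Finset β) (h : β) (j : ℕ) : s.Ot J h j ∈ locAlg (s.G j) :=
  locAlg_mono Set.inter_subset_right (onSet_mem _ _)

theorem Φ_mem (τ : ℝ) (h : β) (j : ℕ) : s.Φ τ h j ∈ locAlg ((s.O h : Set V) ∩ s.G j) := by
  unfold Φ
  split_ifs
  · exact onSet_mem _ _
  · exact one_mem _

theorem Φ_mem_G (τ : ℝ) (h : β) (j : ℕ) : s.Φ τ h j ∈ locAlg (s.G j) :=
  locAlg_mono Set.inter_subset_right (s.Φ_mem τ h j)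

theorem P_proj (j : ℕ) (h : β) : IsStarProjection (s.P j h) :=
  onSet_proj fun q _ => outer_proj (s.pi_unit q)

theorem Ot_proj (J : Finset β) (h : β) (j : ℕ) : IsStarProjection (s.Ot J h j) :=
  onSet_proj fun q _ => outer_proj (s.pi_unit q)

theorem Φ_unitary (τ : ℝ) (h : β) (j : ℕ) : star (s.Φ τ h j) * s.Φ τ h j = 1 := by
  unfold Φ
  split_ifs
  · rw [onSet_star, onSet_mul, ← onSet_one]
    exact onSet_congr fun q _ => s.rot_unitary q
  · simp

theorem PΦP (τ : ℝ) (h : β) (j : ℕ) :
    s.P j h * s.Φ τ h j * s.P j h = (s.cw τ h j : ℂ) • s.P j h := by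
  classical
  unfold Φ cw
  split_ifs with hw
  · unfold P
    rw [onSet_mul, onSet_mul]
    have h1 : onSet ((s.O h : Set V) ∩ s.G j)
        (fun q => outer (s.pi q) * s.rot q * outer (s.pi q)) =
        onSet ((s.O h : Set V) ∩ s.G j) (fun q => (s.γ q : ℂ) • outer (s.pi q)) :=
      onSet_congr fun q hq =>
        s.outer_rot_outer q (s.γ q) (s.hγ h q hq.1 (s.G_ne_inp hq.2))
    rw [h1, onSet_smul]
    congr 1
    push_cast
    refine Finset.prod_congr ?_ fun _ _ => rfl
    ext q
    simp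
  · rw [mul_one, (s.P_proj j h).isIdempotentElem.eq]
    simp

theorem exists_D (τ : ℝ) (J : Finset β) (h : β) (hh : h ∈ J) (j : ℕ) : ∃ D : Op V,
    D ∈ locAlg (s.G j \ {q | ∃ h' ∈ J, q ∈ s.O h'}) ∧ 0 ≤ act D ∧ star (act D) = act D ∧
    ‖act D‖ ≤ 1 ∧ ‖1 - act D‖ ≤ 1 ∧
    ∀ x y : HV V, act (s.P j h) x = x → act (s.Ot J h j) x = x →
      act (s.P j h) y = y → act (s.Ot J h j) y = y →
      ⟪act (s.Φ τ h j) x - (s.cw τ h j : ℂ) • x,
        act (s.Q j) (act (s.Φ τ h j) y - (s.cw τ h j : ℂ) • y)⟫_ℂ =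
        (s.ww τ h j : ℂ) * ⟪x, act D y⟫_ℂ := by
  classical
  set Z : Op V := (s.Φ τ h j - (s.cw τ h j : ℂ) • (1 : Op V)) * s.P j h with hZ
  have hPs : star (s.P j h) = s.P j h := (s.P_proj j h).isSelfAdjoint
  have hPP : s.P j h * s.P j h = s.P j h := (s.P_proj j h).isIdempotentElem
  have hPΦ := s.PΦP τ h j
  have hPΦs : s.P j h * star (s.Φ τ h j) * s.P j h = (s.cw τ h j : ℂ) • s.P j h := by
    have := congrArg star hPΦ
    rw [star_mul, star_mul, hPs, star_smul, hPs] at this
    rw [mul_assoc, this]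
    simp
  have hcw : (s.cw τ h j : ℂ) ^ 2 + (s.ww τ h j : ℂ) = 1 := by
    have := s.cw_sq_add τ h j
    exact_mod_cast this
  have hZZ : star Z * Z = (s.ww τ h j : ℂ) • s.P j h := by
    have hs : star Z = s.P j h * (star (s.Φ τ h j) - (s.cw τ h j : ℂ) • (1 : Op V)) := by
      rw [hZ, star_mul, hPs, star_sub, star_smul, star_one]
      simp
    have hw : (s.ww τ h j : ℂ) = 1 - (s.cw τ h j : ℂ) ^ 2 := by
      rw [← hcw]
      ring
    rw [hs, hZ, hw]
    calc s.P j h * (star (s.Φ τ h j) - (s.cw τ h j : ℂ) • (1 : Op V)) *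
          ((s.Φ τ h j - (s.cw τ h j : ℂ) • (1 : Op V)) * s.P j h)
        = s.P j h * (star (s.Φ τ h j) * s.Φ τ h j) * s.P j h -
          (s.cw τ h j : ℂ) • (s.P j h * star (s.Φ τ h j) * s.P j h) -
          (s.cw τ h j : ℂ) • (s.P j h * s.Φ τ h j * s.P j h) +
          (s.cw τ h j : ℂ) ^ 2 • (s.P j h * s.P j h) := by
          simp only [mul_sub, sub_mul, mul_smul_comm, smul_mul_assoc, mul_one, mul_assoc,
            smul_sub, smul_smul, one_mul]
          rw [pow_two]
          abel
      _ = (1 - (s.cw τ h j : ℂ) ^ 2) • s.P j h := by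
          rw [s.Φ_unitary, mul_one, hPΦ, hPΦs, hPP, smul_smul, sub_smul, one_smul, pow_two]
          abel
  have hZx : ∀ x : HV V, act (s.P j h) x = x →
      act (s.Φ τ h j) x - (s.cw τ h j : ℂ) • x = act Z x := by
    intro x hx
    rw [hZ, map_mul, mul_apply_eq_comp, hx, map_sub, map_smul, map_one]
    rfl
  rcases eq_or_lt_of_le (s.ww_nonneg τ h j) with hw0 | hwpos
  · have hZ0 : act Z = 0 := by
      have : star (act Z) * act Z = 0 := by
        rw [← map_star, ← map_mul, hZZ, ← hw0]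
        simp
      exact CStarRing.star_mul_self_eq_zero_iff _ |>.mp this
    refine ⟨0, zero_mem _, ?_, ?_, ?_, ?_, fun x y hx _ hy _ => ?_⟩
    · rw [map_zero]
    · rw [← map_star, star_zero]
    · rw [map_zero, norm_zero]
      exact zero_le_one
    · rw [map_zero, sub_zero]
      exact (CStarRing.norm_of_mem_unitary (one_mem _)).le.trans le_rfl
    · rw [hZx x hx, hZ0, ← hw0]
      simp
  · set B : Set V := {q | ∃ h' ∈ J, q ∈ s.O h'} ∩ s.G j with hB
    have hsq : (Real.sqrt (s.ww τ h j) : ℂ) ≠ 0 := by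
      have := Real.sqrt_pos.mpr hwpos
      exact_mod_cast this.ne'
    have hsq2 : (Real.sqrt (s.ww τ h j) : ℂ) * (Real.sqrt (s.ww τ h j) : ℂ) =
        (s.ww τ h j : ℂ) := by
      have := Real.mul_self_sqrt hwpos.le
      exact_mod_cast this
    set Z' : Op V := ((Real.sqrt (s.ww τ h j) : ℂ)⁻¹) • Z with hZ'
    have hZ'Z' : star Z' * Z' = s.P j h := by
      rw [hZ', star_smul, smul_mul_smul_comm, hZZ, smul_smul]
      have : star ((Real.sqrt (s.ww τ h j) : ℂ)⁻¹) * (Real.sqrt (s.ww τ h j) : ℂ)⁻¹ *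
          (s.ww τ h j : ℂ) = 1 := by
        rw [← hsq2, star_inv₀]
        simp only [Complex.star_def, Complex.conj_ofReal]
        field_simp
      rw [this, one_smul]
    have hZZ' : Z = (Real.sqrt (s.ww τ h j) : ℂ) • Z' := by
      rw [hZ', smul_smul, mul_inv_cancel₀ hsq, one_smul]
    set M : Op V := star Z' * s.Q j * Z' with hM
    have hZm : Z ∈ locAlg (s.G j) :=
      mul_mem (sub_mem (s.Φ_mem_G τ h j) (Subalgebra.smul_mem _ (one_mem _) _)) (s.P_mem_G j h)
    have hZ'm : Z' ∈ locAlg (s.G j) := Subalgebra.smul_mem _ hZm _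
    have hMm : M ∈ locAlg (s.G j) :=
      mul_mem (mul_mem (star_mem_locAlg hZ'm) (s.Q_mem j)) hZ'm
    have hQa : IsStarProjection (act (s.Q j)) := (s.Q_proj j).map act
    have hPa : IsStarProjection (act (s.P j h)) := (s.P_proj j h).map act
    have hMact : act M = star (act Z') * act (s.Q j) * act Z' := by
      rw [hM, map_mul, map_mul, map_star]
    have h0 : 0 ≤ act M := by
      rw [hMact]
      exact star_left_conjugate_nonneg hQa.nonneg _
    have h1 : act M ≤ 1 := by
      have h2 : act M ≤ act (s.P j h) := by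
        have h3 := star_left_conjugate_nonneg hQa.one_sub_nonneg (act Z')
        rw [mul_sub, sub_mul, mul_one, ← hMact, ← map_star, ← map_mul, hZ'Z'] at h3
        exact sub_nonneg.mp h3
      exact h2.trans hPa.le_one
    obtain ⟨D, hD, hD0, hD1, hDM⟩ := exists_contract B (s.G j) s.pi s.pi_unit M hMm h0 h1
    have hset : s.G j \ B = s.G j \ {q | ∃ h' ∈ J, q ∈ s.O h'} := by
      ext q
      simp only [hB, Set.mem_sdiff, Set.mem_inter_iff, not_and]
      tauto
    rw [hset] at hD
    refine ⟨D, hD, hD0, (IsSelfAdjoint.of_nonneg hD0).star_eq, ?_, ?_, ?_⟩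
    · exact (CStarAlgebra.norm_le_one_iff_of_nonneg _ hD0).mpr hD1
    · refine (CStarAlgebra.norm_le_one_iff_of_nonneg _ (sub_nonneg.mpr hD1)).mpr ?_
      exact sub_le_self _ hD0
    · intro x y hx hOx hy hOy
      have hpi : onSet B (fun q => outer (s.pi q)) = s.P j h * s.Ot J h j := by
        have hBu : B = ((s.O h : Set V) ∩ s.G j) ∪
            ({q | ∃ h' ∈ J, h' ≠ h ∧ q ∈ s.O h'} ∩ s.G j) := by
          ext q
          simp only [hB, Set.mem_inter_iff, Set.mem_ofPred_eq, Set.mem_union, Finset.mem_coe]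
          constructor
          · rintro ⟨⟨h', hh', hq⟩, hG⟩
            by_cases he : h' = h
            · subst he
              exact Or.inl ⟨hq, hG⟩
            · exact Or.inr ⟨⟨h', hh', he, hq⟩, hG⟩
          · rintro (⟨hq, hG⟩ | ⟨⟨h', hh', _, hq⟩, hG⟩)
            · exact ⟨⟨h, hh, hq⟩, hG⟩
            · exact ⟨⟨h', hh', hq⟩, hG⟩
        have hdis : Disjoint ((s.O h : Set V) ∩ s.G j)
            ({q | ∃ h' ∈ J, h' ≠ h ∧ q ∈ s.O h'} ∩ s.G j) := by
          rw [Set.disjoint_left]
          rintro q ⟨hq, _⟩ ⟨⟨h', _, he, hq'⟩, _⟩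
          exact Finset.disjoint_left.mp (s.O_disj h' h he) hq' (Finset.mem_coe.mp hq)
        rw [hBu, onSet_union hdis]
        rfl
      have hpix : ∀ z : HV V, act (s.P j h) z = z → act (s.Ot J h j) z = z →
          act (onSet B (fun q => outer (s.pi q))) z = z := by
        intro z hz hz'
        rw [hpi, map_mul, mul_apply_eq_comp, hz', hz]
      have hpis : IsStarProjection (onSet B (fun q => outer (s.pi q))) :=
        onSet_proj fun q _ => outer_proj (s.pi_unit q)
      have hinner : ∀ (A : Op V) (u v : HV V), ⟪act A u, v⟫_ℂ = ⟪u, act (star A) v⟫_ℂ := by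
        intro A u v
        rw [map_star, ContinuousLinearMap.star_eq_adjoint,
          ContinuousLinearMap.adjoint_inner_right]
      have hsand : ∀ A : Op V, ⟪x, act A y⟫_ℂ =
          ⟪x, act (onSet B (fun q => outer (s.pi q)) * A *
            onSet B (fun q => outer (s.pi q))) y⟫_ℂ := by
        intro A
        rw [map_mul, map_mul, mul_apply_eq_comp, mul_apply_eq_comp,
          hpix y hy hOy]
        conv_rhs => rw [← hpis.isSelfAdjoint.star_eq]
        rw [← hinner, hpix x hx hOx]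
      have hZz : ∀ z : HV V, act Z z = (Real.sqrt (s.ww τ h j) : ℂ) • act Z' z := by
        intro z
        rw [hZZ', map_smul]
        rfl
      rw [hZx x hx, hZx y hy, hZz x, hZz y]
      have e1 : act (s.Q j) ((Real.sqrt (s.ww τ h j) : ℂ) • act Z' y) =
          (Real.sqrt (s.ww τ h j) : ℂ) • act (s.Q j) (act Z' y) := map_smul _ _ _
      rw [e1, inner_smul_left, inner_smul_right, ← mul_assoc, Complex.conj_ofReal, hsq2, hinner,
        hsand D, ← hDM, ← hsand M]
      congr 2
      rw [hM, map_mul, map_mul, mul_apply_eq_comp, mul_apply_eq_comp]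

open Classical in
noncomputable def Dop (τ : ℝ) (J : Finset β) (h : β) (j : ℕ) : Op V :=
  if hh : h ∈ J then (s.exists_D τ J h hh j).choose else 0

theorem Dop_spec (τ : ℝ) (J : Finset β) (h : β) (hh : h ∈ J) (j : ℕ) :
    s.Dop τ J h j ∈ locAlg (s.G j \ {q | ∃ h' ∈ J, q ∈ s.O h'}) ∧ 0 ≤ act (s.Dop τ J h j) ∧
    star (act (s.Dop τ J h j)) = act (s.Dop τ J h j) ∧
    ‖act (s.Dop τ J h j)‖ ≤ 1 ∧ ‖1 - act (s.Dop τ J h j)‖ ≤ 1 ∧
    ∀ x y : HV V, act (s.P j h) x = x → act (s.Ot J h j) x = x →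
      act (s.P j h) y = y → act (s.Ot J h j) y = y →
      ⟪act (s.Φ τ h j) x - (s.cw τ h j : ℂ) • x,
        act (s.Q j) (act (s.Φ τ h j) y - (s.cw τ h j : ℂ) • y)⟫_ℂ =
        (s.ww τ h j : ℂ) * ⟪x, act (s.Dop τ J h j) y⟫_ℂ := by
  unfold Dop
  rw [dif_pos hh]
  exact (s.exists_D τ J h hh j).choose_spec

theorem chain_loc (τ : ℝ) (J : Finset β) (h : β) (hh : h ∈ J) (j : ℕ) :
    ∀ A ∈ ({act (s.Q j), act (s.P j h), act (s.Ot J h j), act (s.Φ τ h j),
      act (s.Dop τ J h j)} : Set (HV V →L[ℂ] HV V)), ∃ M ∈ locAlg (s.G j), A = act M := by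
  intro A hA
  simp only [Set.mem_insert_iff, Set.mem_singleton_iff] at hA
  rcases hA with rfl | rfl | rfl | rfl | rfl
  · exact ⟨_, s.Q_mem j, rfl⟩
  · exact ⟨_, s.P_mem_G j h, rfl⟩
  · exact ⟨_, s.Ot_mem_G J h j, rfl⟩
  · exact ⟨_, s.Φ_mem_G τ h j, rfl⟩
  · exact ⟨_, locAlg_mono Set.sdiff_subset (s.Dop_spec τ J h hh j).1, rfl⟩

/-- the chain of block `h` inside `J` -/
noncomputable def chain (τ W : ℝ) (hτ0 : 0 ≤ τ) (hτ : τ ≤ 1 / 4) (J : Finset β) (h : β)
    (hh : h ∈ J) (hW : ∑ j ∈ Finset.range s.m, s.wt j h ≤ W) : Chain (HV V) where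
  m := s.m
  τ := τ
  W := W
  Q := fun j => act (s.Q j)
  P := fun j => act (s.P j h)
  O := fun j => act (s.Ot J h j)
  Φ := fun j => act (s.Φ τ h j)
  D := fun j => act (s.Dop τ J h j)
  c := s.cw τ h
  w := s.ww τ h
  hτ0 := hτ0
  hτ := hτ
  hc := s.cw_nonneg τ h
  hw := s.ww_nonneg τ h
  hcw := s.cw_sq_add τ h
  hwτ := fun j => s.ww_le τ h j hτ0
  hW := (Finset.sum_le_sum fun j _ => s.ww_le_wt τ h j).trans hW
  hQ := fun j => (s.Q_proj j).map act
  hP := fun j => (s.P_proj j h).map act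
  hO := fun j => (s.Ot_proj J h j).map act
  hΦ := fun j => by
    rw [← map_star, ← map_mul, s.Φ_unitary, map_one]
  hD := fun j => (s.Dop_spec τ J h hh j).2.2.1
  hD1 := fun j => (s.Dop_spec τ J h hh j).2.2.2.1
  hD2 := fun j => (s.Dop_spec τ J h hh j).2.2.2.2.1
  comm := fun i j hij A hA B hB => by
    obtain ⟨M, hM, rfl⟩ := s.chain_loc τ J h hh i A hA
    obtain ⟨N, hN, rfl⟩ := s.chain_loc τ J h hh j B hB
    exact commute_act (s.G_disj i j hij) hM hN
  commPO := fun j => by
    refine commute_act ?_ (s.P_mem j h) (onSet_mem _ _)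
    rw [Set.disjoint_left]
    rintro q ⟨hq, _⟩ ⟨⟨h', _, he, hq'⟩, _⟩
    exact Finset.disjoint_left.mp (s.O_disj h' h he) hq' (Finset.mem_coe.mp hq)
  commPD := fun j => by
    refine commute_act ?_ (s.P_mem j h) (s.Dop_spec τ J h hh j).1
    rw [Set.disjoint_left]
    rintro q ⟨hq, _⟩ ⟨_, hq'⟩
    exact hq' ⟨h, hh, Finset.mem_coe.mp hq⟩
  commOΦ := fun j => by
    refine commute_act ?_ (onSet_mem _ _) (s.Φ_mem τ h j)
    rw [Set.disjoint_left]
    rintro q ⟨⟨h', _, he, hq'⟩, _⟩ ⟨hq, _⟩
    exact Finset.disjoint_left.mp (s.O_disj h' h he) hq' (Finset.mem_coe.mp hq)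
  commOD := fun j => by
    refine commute_act ?_ (onSet_mem _ _) (s.Dop_spec τ J h hh j).1
    rw [Set.disjoint_left]
    rintro q ⟨⟨h', hJ, he, hq'⟩, _⟩ ⟨_, hq⟩
    exact hq ⟨h', hJ, hq'⟩
  commΦD := fun j => by
    refine commute_act ?_ (s.Φ_mem τ h j) (s.Dop_spec τ J h hh j).1
    rw [Set.disjoint_left]
    rintro q ⟨hq, _⟩ ⟨_, hq'⟩
    exact hq' ⟨h, hh, Finset.mem_coe.mp hq⟩
  hPΦ := fun j => by
    rw [← map_mul, ← map_mul, s.PΦP, map_smul]
  key := fun j x y hx hOx hy hOy => (s.Dop_spec τ J h hh j).2.2.2.2.2 x y hx hOx hy hOy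

theorem zone_loc (h : β) :
    ∀ A ∈ ({act (s.X h), act (s.Ul h), act (s.E h), act (s.F h)} :
      Set (HV V →L[ℂ] HV V)), ∃ M ∈ locAlg (s.zone h), A = act M := by
  intro A hA
  simp only [Set.mem_insert_iff, Set.mem_singleton_iff] at hA
  rcases hA with rfl | rfl | rfl | rfl
  · exact ⟨_, s.X_mem_zone h, rfl⟩
  · exact ⟨_, locAlg_mono Set.inter_subset_right (onSet_mem _ _), rfl⟩
  · exact ⟨_, s.E_mem h, rfl⟩
  · exact ⟨_, s.F_mem h, rfl⟩

theorem Uw_step (τ : ℝ) (h : β) (j : ℕ) (y : HV V) (hy : act (s.P j h) y = y) :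
    act (onSet {q | q ∈ s.O h ∧ q ∈ s.G j ∧ s.wt j h ≤ τ} (fun q => outer (s.th q))) y =
      (s.cw τ h j : ℂ) • act (s.Φ τ h j) y := by
  classical
  by_cases hw : s.wt j h ≤ τ
  · have hset : {q | q ∈ s.O h ∧ q ∈ s.G j ∧ s.wt j h ≤ τ} = (s.O h : Set V) ∩ s.G j := by
      ext q
      simp [hw]
    have hmul : onSet ((s.O h : Set V) ∩ s.G j) (fun q => outer (s.th q)) * s.P j h =
        (s.cw τ h j : ℂ) • (s.Φ τ h j * s.P j h) := by
      have hΦ : s.Φ τ h j = onSet ((s.O h : Set V) ∩ s.G j) s.rot := by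
        unfold Φ
        rw [if_pos hw]
      rw [hΦ]
      unfold P cw
      rw [if_pos hw, onSet_mul, onSet_mul]
      have h1 : onSet ((s.O h : Set V) ∩ s.G j)
          (fun q => outer (s.th q) * outer (s.pi q)) =
          onSet ((s.O h : Set V) ∩ s.G j)
            (fun q => (s.γ q : ℂ) • (s.rot q * outer (s.pi q))) :=
        onSet_congr fun q hq =>
          s.outer_th_mul q (s.γ q) (s.hγ h q hq.1 (s.G_ne_inp hq.2))
      rw [h1, onSet_smul]
      congr 1
      push_cast
      refine Finset.prod_congr ?_ fun _ _ => rfl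
      ext q
      simp
    rw [hset]
    conv_lhs => rw [← hy]
    rw [← mul_apply_eq_comp, ← map_mul, hmul, map_smul, map_mul]
    change (s.cw τ h j : ℂ) • (act (s.Φ τ h j) (act (s.P j h) y)) = _
    rw [hy]
  · have hset : {q | q ∈ s.O h ∧ q ∈ s.G j ∧ s.wt j h ≤ τ} = (∅ : Set V) := by
      ext q
      simp [hw]
    have hc : s.cw τ h j = 1 := by
      unfold cw
      rw [if_neg hw]
    have hΦ : s.Φ τ h j = 1 := by
      unfold Φ
      rw [if_neg hw]
    rw [hset, onSet_empty, hc, hΦ]
    simp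

theorem Uw_prefix (τ : ℝ) (h : β) (x : HV V) (hx : ∀ j, act (s.P j h) x = x) (k : ℕ) :
    act (onSet {q | q ∈ s.O h ∧ ∃ j < k, q ∈ s.G j ∧ s.wt j h ≤ τ}
      (fun q => outer (s.th q))) x =
      ((∏ j ∈ Finset.range k, s.cw τ h j : ℝ) : ℂ) • pre (fun j => act (s.Φ τ h j)) k x := by
  induction k with
  | zero =>
    have hset : {q | q ∈ s.O h ∧ ∃ j < 0, q ∈ s.G j ∧ s.wt j h ≤ τ} = (∅ : Set V) := by
      ext q
      simp
    rw [hset, onSet_empty]
    simp [pre]
  | succ k ih =>
    have hset : {q | q ∈ s.O h ∧ ∃ j < k + 1, q ∈ s.G j ∧ s.wt j h ≤ τ} =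
        {q | q ∈ s.O h ∧ q ∈ s.G k ∧ s.wt k h ≤ τ} ∪
        {q | q ∈ s.O h ∧ ∃ j < k, q ∈ s.G j ∧ s.wt j h ≤ τ} := by
      ext q
      simp only [Set.mem_ofPred_eq, Set.mem_union]
      constructor
      · rintro ⟨hq, j, hj, hG, hw⟩
        rcases Nat.lt_succ_iff_lt_or_eq.mp hj with hj' | rfl
        · exact Or.inr ⟨hq, j, hj', hG, hw⟩
        · exact Or.inl ⟨hq, hG, hw⟩
      · rintro (⟨hq, hG, hw⟩ | ⟨hq, j, hj, hG, hw⟩)
        · exact ⟨hq, k, Nat.lt_succ_self k, hG, hw⟩
        · exact ⟨hq, j, Nat.lt_succ_of_lt hj, hG, hw⟩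
    have hdis : Disjoint {q | q ∈ s.O h ∧ q ∈ s.G k ∧ s.wt k h ≤ τ}
        {q | q ∈ s.O h ∧ ∃ j < k, q ∈ s.G j ∧ s.wt j h ≤ τ} := by
      rw [Set.disjoint_left]
      rintro q ⟨_, hG, _⟩ ⟨_, j, hj, hG', _⟩
      exact Set.disjoint_left.mp (s.G_disj k j hj.ne') hG hG'
    have hPk : act (s.P k h) (pre (fun j => act (s.Φ τ h j)) k x) =
        pre (fun j => act (s.Φ τ h j)) k x := by
      have hc : Commute (act (s.P k h)) (pre (fun j => act (s.Φ τ h j)) k) :=
        pre_commute _ _ _ fun i hi =>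
          commute_act (s.G_disj k i hi.ne') (s.P_mem_G k h) (s.Φ_mem_G τ h i)
      have := congrArg (fun A : HV V →L[ℂ] HV V => A x) hc.eq
      simp only [mul_apply_eq_comp] at this
      rw [this, hx k]
    rw [hset, onSet_union hdis, map_mul, mul_apply_eq_comp, ih]
    have e1 : act (onSet {q | q ∈ s.O h ∧ q ∈ s.G k ∧ s.wt k h ≤ τ} (fun q => outer (s.th q)))
        (((∏ j ∈ Finset.range k, s.cw τ h j : ℝ) : ℂ) •
          pre (fun j => act (s.Φ τ h j)) k x) =
        ((∏ j ∈ Finset.range k, s.cw τ h j : ℝ) : ℂ) •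
        act (onSet {q | q ∈ s.O h ∧ q ∈ s.G k ∧ s.wt k h ≤ τ} (fun q => outer (s.th q)))
          (pre (fun j => act (s.Φ τ h j)) k x) := map_smul _ _ _
    rw [e1, s.Uw_step τ h k _ hPk, smul_smul, Finset.prod_range_succ]
    push_cast
    rfl

noncomputable def pblock (τ W : ℝ) (hτ0 : 0 ≤ τ) (hτ : τ ≤ 1 / 4) (J : Finset β) (h : β)
    (hh : h ∈ J) (hW : ∑ j ∈ Finset.range s.m, s.wt j h ≤ W) :
    PBlock (s.chain τ W hτ0 hτ J h hh hW) where
  X := act (s.X h)
  U := act (s.Ul h)
  Uc := act (s.Uw τ h)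
  E := act (s.E h)
  F := act (s.F h)
  lam := s.lam h
  hlam0 := s.lam0 h
  hlam1 := s.lam1 h
  hX := by
    rw [← map_star]
    congr 1
    unfold X site
    rw [prodOp_star]
    congr 1
    funext q
    rcases eq_or_ne q (s.inp h) with rfl | hq
    · rw [Function.update_self, s.x1_star]
    · rw [Function.update_of_ne hq, star_one]
  hXX := by
    rw [← map_mul, ← map_one (act : Op V ≃⋆ₐ[ℂ] (HV V →L[ℂ] HV V))]
    congr 1
    unfold X site
    rw [prodOp_mul, ← prodOp_one]
    congr 1
    funext q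
    rcases eq_or_ne q (s.inp h) with rfl | hq
    · rw [Function.update_self, s.x1_sq]
    · rw [Function.update_of_ne hq, one_mul]
  hU := (onSet_proj fun q _ => outer_proj (s.th_unit q)).map act
  hUc := (onSet_proj fun q _ => outer_proj (s.th_unit q)).map act
  hE := (s.E_proj h).map act
  hF := (s.F_proj h).map act
  loc := fun j A hA B hB => by
    obtain ⟨M, hM, rfl⟩ := s.zone_loc h A hA
    obtain ⟨N, hN, rfl⟩ := s.chain_loc τ J h hh j B hB
    exact commute_act (s.zone_G h j) hM hN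
  commUc := fun A hA => by
    obtain ⟨M, hM, rfl⟩ := s.zone_loc h A hA
    refine commute_act ?_ hM (onSet_mem _ _)
    rw [Set.disjoint_left]
    rintro q hq ⟨_, j, _, hG, _⟩
    exact Set.disjoint_left.mp (s.zone_G h j) hq hG
  hUcΦ := fun α hα => s.Uw_prefix τ h α hα s.m
  hDpos := fun j => (s.Dop_spec τ J h hh j).2.1

end Sys

end P368.D3
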