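import Vale.Agent.P368.PSBase
import Vale.Agent.P368.NormCore
import Vale.Agent.P368.SysA

namespace P368.D3

open Matrix
open scoped BigOperators InnerProductSpace ComplexOrder Matrix.Norms.L2Operator

section LightGm

variable {H : Type} [NormedAddCommGroup H] [InnerProductSpace ℂ H] [CompleteSpace H]
  {β : Type} [DecidableEq β]

/-- signed average for a general family -/
noncomputable def lgm (A : Bool → β → (H →L[ℂ] H))
    (hA : ∀ h h', h ≠ h' → ∀ a b, Commute (A a h) (A b h')) (M : H →L[ℂ] H) (J : Finset β)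
    (b a : H) : ℂ :=
  (1 / 2 ^ J.card : ℂ) * ∑ I ∈ J.powerset, (-1 : ℂ) ^ I.card *
    ⟪mix A hA J I b, M (mix A hA J I a)⟫_ℂ

theorem lgm_congr (A B : Bool → β → (H →L[ℂ] H))
    (hA : ∀ h h', h ≠ h' → ∀ a b, Commute (A a h) (A b h'))
    (hB : ∀ h h', h ≠ h' → ∀ a b, Commute (B a h) (B b h')) (M : H →L[ℂ] H) (J : Finset β)
    (hAB : ∀ h ∈ J, ∀ y, A y h = B y h) (b a : H) : lgm A hA M J b a = lgm B hB M J b a := by
  unfold lgm
  congr 1
  refine Finset.sum_congr rfl fun I _ => ?_
  have : mix A hA J I = mix B hB J I := by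
    unfold mix
    exact Finset.noncommProd_congr rfl (fun x hx => hAB x hx _) _
  rw [this]

theorem lt_mix_insert_apply (A : Bool → β → (H →L[ℂ] H))
    (hA : ∀ h h', h ≠ h' → ∀ a b, Commute (A a h) (A b h')) (s I : Finset β) (h : β)
    (hs : h ∉ s) (v : H) :
    mix A hA (insert h s) I v = mix A hA s I (A (decide (h ∈ I)) h v) := by
  have hc : Commute (A (decide (h ∈ I)) h) (mix A hA s I) := by
    refine mix_commute A hA s I _ fun x hx b => hA _ _ ?_ _ _
    rintro rfl
    exact hs hx
  rw [mix_insert A hA s I h hs, hc.eq]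
  rfl

theorem lgm_insert (A : Bool → β → (H →L[ℂ] H))
    (hA : ∀ h h', h ≠ h' → ∀ a b, Commute (A a h) (A b h')) (M : H →L[ℂ] H) (J : Finset β)
    (h : β) (hh : h ∉ J) (b a : H) :
    lgm A hA M (insert h J) b a = (1 / 2 : ℂ) * (lgm A hA M J (A false h b) (A false h a) -
      lgm A hA M J (A true h b) (A true h a)) := by
  have hnot : ∀ I ∈ J.powerset, h ∉ I := fun I hI hx => hh (Finset.mem_powerset.1 hI hx)
  unfold lgm
  rw [Finset.sum_powerset_insert hh, Finset.card_insert_of_notMem hh]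
  have e1 : ∀ I ∈ J.powerset, (-1 : ℂ) ^ I.card *
      ⟪mix A hA (insert h J) I b, M (mix A hA (insert h J) I a)⟫_ℂ = (-1 : ℂ) ^ I.card *
      ⟪mix A hA J I (A false h b), M (mix A hA J I (A false h a))⟫_ℂ := by
    intro I hI
    rw [lt_mix_insert_apply A hA J I h hh, lt_mix_insert_apply A hA J I h hh,
      decide_eq_false (hnot I hI)]
  have e2 : ∀ I ∈ J.powerset, (-1 : ℂ) ^ (insert h I).card *
      ⟪mix A hA (insert h J) (insert h I) b, M (mix A hA (insert h J) (insert h I) a)⟫_ℂ =
      -((-1 : ℂ) ^ I.card *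
      ⟪mix A hA J I (A true h b), M (mix A hA J I (A true h a))⟫_ℂ) := by
    intro I hI
    have hI2 : ∀ v, mix A hA (insert h J) (insert h I) v = mix A hA J I (A true h v) := by
      intro v
      rw [lt_mix_insert_apply A hA J (insert h I) h hh, decide_eq_true (Finset.mem_insert_self h I),
        mix_congr A hA J (insert h I) I]
      intro x hx
      rw [Finset.mem_insert]
      constructor
      · rintro (rfl | h2)
        · exact absurd hx hh
        · exact h2
      · exact fun h2 => Or.inr h2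
    rw [hI2, hI2, Finset.card_insert_of_notMem (hnot I hI), pow_succ]
    ring
  rw [Finset.sum_congr rfl e1, Finset.sum_congr rfl e2, Finset.sum_neg_distrib, pow_succ]
  have h2 : (2 : ℂ) ^ J.card ≠ 0 := pow_ne_zero _ two_ne_zero
  field_simp
  ring

/-- additivity of the signed average in both vectors -/
theorem lgm_expand (A : Bool → β → (H →L[ℂ] H))
    (hA : ∀ h h', h ≠ h' → ∀ a b, Commute (A a h) (A b h')) (M : H →L[ℂ] H) (J : Finset β)
    (x e x' e' : H) :
    lgm A hA M J (x + e) (x' + e') = lgm A hA M J x x' + lgm A hA M J x e' +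
      lgm A hA M J e x' + lgm A hA M J e e' := by
  unfold lgm
  rw [← mul_add, ← mul_add, ← mul_add, ← Finset.sum_add_distrib, ← Finset.sum_add_distrib,
    ← Finset.sum_add_distrib]
  congr 1
  refine Finset.sum_congr rfl fun I _ => ?_
  rw [map_add, map_add, map_add, inner_add_left, inner_add_right, inner_add_right]
  ring

end LightGm

section LightAbs

variable {H : Type} [NormedAddCommGroup H] [InnerProductSpace ℂ H] [CompleteSpace H]
  {β : Type} [DecidableEq β]

/-- family with the blocks in `S` replaced -/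
noncomputable def lfam (C X : Bool → β → (H →L[ℂ] H)) (S : Finset β) (y : Bool) (h : β) :
    H →L[ℂ] H := if h ∈ S then X y h else C y h

theorem lt_lfam_comm (C X : Bool → β → (H →L[ℂ] H))
    (hC : ∀ h h', h ≠ h' → ∀ a b, Commute (C a h) (C b h'))
    (hX : ∀ h h', h ≠ h' → ∀ a b, Commute (X a h) (X b h'))
    (hCX : ∀ h h', h ≠ h' → ∀ a b, Commute (C a h) (X b h')) (S : Finset β) :
    ∀ h h', h ≠ h' → ∀ a b, Commute (lfam C X S a h) (lfam C X S b h') := by
  intro h h' hne a b
  unfold lfam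
  split_ifs
  · exact hX h h' hne a b
  · exact (hCX h' h hne.symm b a).symm
  · exact hCX h h' hne a b
  · exact hC h h' hne a b

theorem light_abs (C X : Bool → β → (H →L[ℂ] H))
    (hC : ∀ h h', h ≠ h' → ∀ a b, Commute (C a h) (C b h'))
    (hX : ∀ h h', h ≠ h' → ∀ a b, Commute (X a h) (X b h'))
    (hCX : ∀ h h', h ≠ h' → ∀ a b, Commute (C a h) (X b h'))
    (Pf : β → (H →L[ℂ] H)) (hPX : ∀ h h', h ≠ h' → ∀ b, Commute (Pf h) (X b h'))
    (hPC : ∀ h h', h ≠ h' → ∀ b, Commute (Pf h) (C b h'))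
    (d K : ℝ) (hd : 0 ≤ d) (hK : 0 ≤ K)
    (hXn : ∀ h y v, ‖X y h v‖ ≤ ‖v‖)
    (hE : ∀ h y v, Pf h v = v → ‖C y h v - X y h v‖ ≤ d * ‖v‖)
    (M : H →L[ℂ] H) (J0 : Finset β)
    (hbase : ∀ J ⊆ J0, ∀ b a, ‖lgm X hX M J b a‖ ≤ K * (3 / 4) ^ J.card * ‖b‖ * ‖a‖)
    (J2 : Finset β) : ∀ (J1 : Finset β), Disjoint J1 J2 → J1 ∪ J2 ⊆ J0 → ∀ b a,
      (∀ h ∈ J2, Pf h b = b) → (∀ h ∈ J2, Pf h a = a) →
      ‖lgm (lfam C X J1) (lt_lfam_comm C X hC hX hCX J1) M (J1 ∪ J2) b a‖ ≤
        K * (3 / 4) ^ J1.card * (3 / 4 + 2 * d + d ^ 2) ^ J2.card * ‖b‖ * ‖a‖ := by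
  induction J2 using Finset.induction_on with
  | empty =>
    intro J1 _ hJ b a _ _
    rw [Finset.union_empty] at hJ ⊢
    rw [lgm_congr (lfam C X J1) X (lt_lfam_comm C X hC hX hCX J1) hX M J1
      (fun h hh y => if_pos hh) b a, Finset.card_empty, pow_zero, mul_one]
    exact hbase J1 hJ b a
  | insert h J2 hh ih =>
    intro J1 hdis hJ b a hb ha
    have hh1 : h ∉ J1 := fun hx => Finset.disjoint_left.mp hdis hx (Finset.mem_insert_self h J2)
    have hdis' : Disjoint J1 J2 :=
      Finset.disjoint_of_subset_right (Finset.subset_insert h J2) hdis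
    have hhu : h ∉ J1 ∪ J2 := by
      rw [Finset.mem_union]
      rintro (hx | hx)
      · exact hh1 hx
      · exact hh hx
    have hunion : J1 ∪ insert h J2 = insert h (J1 ∪ J2) := Finset.union_insert h J1 J2
    have hunion2 : insert h J1 ∪ J2 = insert h (J1 ∪ J2) := Finset.insert_union h J1 J2
    have hdis2 : Disjoint (insert h J1) J2 := by
      rw [Finset.disjoint_insert_left]
      exact ⟨hh, hdis'⟩
    have hJ' : J1 ∪ J2 ⊆ J0 := by
      rw [hunion] at hJ
      exact (Finset.subset_insert h _).trans hJ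
    have hne : ∀ x ∈ J2, x ≠ h := by
      rintro x hx rfl
      exact hh hx
    -- the vectors
    have dX : ∀ (v : H) (y : Bool), (∀ x ∈ insert h J2, Pf x v = v) →
        ∀ x ∈ J2, Pf x (X y h v) = X y h v := by
      intro v y hv x hx
      have h1 : Pf x (X y h v) = X y h (Pf x v) := by
        have := (hPX x h (hne x hx) y).eq
        exact DFunLike.congr_fun this v
      rw [h1, hv x (Finset.mem_insert_of_mem hx)]
    have dC : ∀ (v : H) (y : Bool), (∀ x ∈ insert h J2, Pf x v = v) →
        ∀ x ∈ J2, Pf x (C y h v) = C y h v := by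
      intro v y hv x hx
      have h1 : Pf x (C y h v) = C y h (Pf x v) := by
        have := (hPC x h (hne x hx) y).eq
        exact DFunLike.congr_fun this v
      rw [h1, hv x (Finset.mem_insert_of_mem hx)]
    have dE : ∀ (v : H) (y : Bool), (∀ x ∈ insert h J2, Pf x v = v) →
        ∀ x ∈ J2, Pf x (C y h v - X y h v) = C y h v - X y h v := by
      intro v y hv x hx
      rw [map_sub, dX v y hv x hx, dC v y hv x hx]
    have hCfam : ∀ y, lfam C X J1 y h = C y h := fun y => if_neg hh1
    have hXfam : ∀ y, lfam C X (insert h J1) y h = X y h :=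
      fun y => if_pos (Finset.mem_insert_self h J1)
    have hcong : ∀ v w, lgm (lfam C X (insert h J1)) (lt_lfam_comm C X hC hX hCX (insert h J1)) M
        (J1 ∪ J2) v w = lgm (lfam C X J1) (lt_lfam_comm C X hC hX hCX J1) M (J1 ∪ J2) v w := by
      intro v w
      refine lgm_congr _ _ _ _ M _ ?_ v w
      intro x hx y
      have hxh : x ≠ h := by
        rintro rfl
        exact hhu hx
      unfold lfam
      by_cases hx1 : x ∈ J1
      · rw [if_pos hx1, if_pos (Finset.mem_insert_of_mem hx1)]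
      · rw [if_neg hx1, if_neg]
        rw [Finset.mem_insert, not_or]
        exact ⟨hxh, hx1⟩
    obtain ⟨L, hL⟩ : ∃ L : H → H → ℂ, L = lgm (lfam C X J1) (lt_lfam_comm C X hC hX hCX J1) M
      (J1 ∪ J2) := ⟨_, rfl⟩
    have hsplit : ∀ y, L (C y h b) (C y h a) = L (X y h b) (X y h a) +
        L (X y h b) (C y h a - X y h a) + L (C y h b - X y h b) (X y h a) +
        L (C y h b - X y h b) (C y h a - X y h a) := by
      intro y
      have := lgm_expand (lfam C X J1) (lt_lfam_comm C X hC hX hCX J1) M (J1 ∪ J2) (X y h b)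
        (C y h b - X y h b) (X y h a) (C y h a - X y h a)
      rw [add_sub_cancel, add_sub_cancel] at this
      rw [hL]
      exact this
    have hmain : lgm (lfam C X J1) (lt_lfam_comm C X hC hX hCX J1) M (J1 ∪ insert h J2) b a =
        lgm (lfam C X (insert h J1)) (lt_lfam_comm C X hC hX hCX (insert h J1)) M
          (insert h J1 ∪ J2) b a +
        (1 / 2 : ℂ) * ((L (X false h b) (C false h a - X false h a) +
          L (C false h b - X false h b) (X false h a) +
          L (C false h b - X false h b) (C false h a - X false h a)) -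
          (L (X true h b) (C true h a - X true h a) +
          L (C true h b - X true h b) (X true h a) +
          L (C true h b - X true h b) (C true h a - X true h a))) := by
      rw [hunion, hunion2, lgm_insert _ _ M (J1 ∪ J2) h hhu, lgm_insert _ _ M (J1 ∪ J2) h hhu,
        hCfam, hCfam, hXfam, hXfam, hcong, hcong, ← hL, hsplit false, hsplit true]
      ring
    obtain ⟨B, hB⟩ : ∃ B : ℝ, B = K * (3 / 4) ^ J1.card * (3 / 4 + 2 * d + d ^ 2) ^ J2.card :=
      ⟨_, rfl⟩
    have hB0 : 0 ≤ B := by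
      rw [hB]
      positivity
    have ih1 : ∀ v w, (∀ x ∈ J2, Pf x v = v) → (∀ x ∈ J2, Pf x w = w) →
        ‖L v w‖ ≤ B * ‖v‖ * ‖w‖ := by
      intro v w hv hw
      rw [hL, hB]
      exact ih J1 hdis' hJ' v w hv hw
    have ih2 := ih (insert h J1) hdis2 (by rw [hunion2, ← hunion]; exact hJ) b a
      (fun x hx => hb x (Finset.mem_insert_of_mem hx))
      (fun x hx => ha x (Finset.mem_insert_of_mem hx))
    rw [Finset.card_insert_of_notMem hh1] at ih2
    have hbh := hb h (Finset.mem_insert_self h J2)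
    have hah := ha h (Finset.mem_insert_self h J2)
    have hterm : ∀ y, ‖L (X y h b) (C y h a - X y h a) + L (C y h b - X y h b) (X y h a) +
        L (C y h b - X y h b) (C y h a - X y h a)‖ ≤ B * (2 * d + d ^ 2) * ‖b‖ * ‖a‖ := by
      intro y
      have t1 : ‖L (X y h b) (C y h a - X y h a)‖ ≤ B * ‖b‖ * (d * ‖a‖) := by
        refine (ih1 _ _ (dX b y hb) (dE a y ha)).trans ?_
        gcongr
        · exact hXn h y b
        · exact hE h y a hah
      have t2 : ‖L (C y h b - X y h b) (X y h a)‖ ≤ B * (d * ‖b‖) * ‖a‖ := by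
        refine (ih1 _ _ (dE b y hb) (dX a y ha)).trans ?_
        gcongr
        · exact hE h y b hbh
        · exact hXn h y a
      have t3 : ‖L (C y h b - X y h b) (C y h a - X y h a)‖ ≤ B * (d * ‖b‖) * (d * ‖a‖) := by
        refine (ih1 _ _ (dE b y hb) (dE a y ha)).trans ?_
        gcongr
        · exact hE h y b hbh
        · exact hE h y a hah
      calc _ ≤ ‖L (X y h b) (C y h a - X y h a)‖ + ‖L (C y h b - X y h b) (X y h a)‖ +
            ‖L (C y h b - X y h b) (C y h a - X y h a)‖ := norm_add₃_le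
        _ ≤ B * ‖b‖ * (d * ‖a‖) + B * (d * ‖b‖) * ‖a‖ + B * (d * ‖b‖) * (d * ‖a‖) := by
            gcongr
        _ = _ := by ring
    rw [hmain, Finset.card_insert_of_notMem hh]
    calc _ ≤ ‖lgm (lfam C X (insert h J1)) (lt_lfam_comm C X hC hX hCX (insert h J1)) M
          (insert h J1 ∪ J2) b a‖ + ‖(1 / 2 : ℂ)‖ * (B * (2 * d + d ^ 2) * ‖b‖ * ‖a‖ +
            B * (2 * d + d ^ 2) * ‖b‖ * ‖a‖) := by
          refine (norm_add_le _ _).trans ?_
          rw [norm_mul]
          gcongr
          refine (norm_sub_le _ _).trans ?_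
          exact add_le_add (hterm false) (hterm true)
      _ ≤ K * (3 / 4) ^ (J1.card + 1) * (3 / 4 + 2 * d + d ^ 2) ^ J2.card * ‖b‖ * ‖a‖ +
          (1 / 2) * (B * (2 * d + d ^ 2) * ‖b‖ * ‖a‖ +
            B * (2 * d + d ^ 2) * ‖b‖ * ‖a‖) := by
          have : ‖(1 / 2 : ℂ)‖ = 1 / 2 := by norm_num
          rw [this]
          gcongr
      _ = _ := by
          rw [hB, pow_succ, pow_succ]
          ring

end LightAbs

section LightBase

variable {H : Type} [NormedAddCommGroup H] [InnerProductSpace ℂ H] [CompleteSpace H]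
  {β : Type} [DecidableEq β]

/-- the family of inputs flips -/
noncomputable def xfam (X : β → (H →L[ℂ] H)) (y : Bool) (h : β) : H →L[ℂ] H :=
  if y then X h else 1

theorem lt_xfam_comm (X : β → (H →L[ℂ] H)) (hXX : ∀ h h', h ≠ h' → Commute (X h) (X h')) :
    ∀ h h', h ≠ h' → ∀ a b, Commute (xfam X a h) (xfam X b h') := by
  intro h h' hne a b
  unfold xfam
  cases a <;> cases b
  · exact Commute.one_right _
  · exact Commute.one_left _
  · exact Commute.one_right _
  · exact hXX h h' hne

theorem lt_prodC_insert' {𝔄 : Type*} [CStarAlgebra 𝔄] (J : Finset β) (X : β → 𝔄)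
    (hX : ∀ h h', h ≠ h' → Commute (X h) (X h'))
    (h : β) (hh : h ∉ J) : prodC (insert h J) X hX = prodC J X hX * X h := by
  rw [prodC_insert J X hX h hh]
  have : Commute (X h) (prodC J X hX) := by
    apply prodC_commute
    intro x hx
    apply hX
    rintro rfl
    exact hh hx
  exact this.eq

theorem lt_prodC_star {𝔄 : Type*} [CStarAlgebra 𝔄] (J : Finset β) (X : β → 𝔄)
    (hX : ∀ h h', h ≠ h' → Commute (X h) (X h')) (hs : ∀ h, star (X h) = X h) :
    star (prodC J X hX) = prodC J X hX := by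
  induction J using Finset.induction_on with
  | empty =>
    have e1 : prodC ∅ X hX = 1 := Finset.noncommProd_empty _ _
    rw [e1, star_one]
  | insert h J hh ih =>
    rw [prodC_insert J X hX h hh, star_mul, ih, hs, ← lt_prodC_insert' J X hX h hh,
      prodC_insert J X hX h hh]

theorem lt_mix_xfam (X : β → (H →L[ℂ] H)) (hXX : ∀ h h', h ≠ h' → Commute (X h) (X h'))
    (J : Finset β) : ∀ I ⊆ J, mix (xfam X) (lt_xfam_comm X hXX) J I = prodC I X hXX := by
  induction J using Finset.induction_on with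
  | empty =>
    intro I hI
    rw [Finset.subset_empty] at hI
    subst hI
    have e1 : prodC ∅ X hXX = 1 := Finset.noncommProd_empty _ _
    rw [e1]
    rfl
  | insert h J hh ih =>
    intro I hI
    by_cases hI' : h ∈ I
    · have h1 : I.erase h ⊆ J := by
        intro x hx
        rw [Finset.mem_erase] at hx
        have := hI hx.2
        rw [Finset.mem_insert] at this
        exact this.resolve_left hx.1
      have h2 : insert h (I.erase h) = I := Finset.insert_erase hI'
      rw [← h2, mix_insert_both (xfam X) (lt_xfam_comm X hXX) J (I.erase h) h hh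
        (Finset.notMem_erase h I), ih _ h1, prodC_insert _ X hXX h (Finset.notMem_erase h I)]
      rfl
    · have h1 : I ⊆ J := by
        intro x hx
        have := hI hx
        rw [Finset.mem_insert] at this
        refine this.resolve_left ?_
        rintro rfl
        exact hI' hx
      rw [mix_insert_left (xfam X) (lt_xfam_comm X hXX) J I h hh hI', ih _ h1]
      have : xfam X false h = 1 := rfl
      rw [this, one_mul]

theorem lgm_xfam (X : β → (H →L[ℂ] H)) (hXX : ∀ h h', h ≠ h' → Commute (X h) (X h'))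
    (hs : ∀ h, star (X h) = X h) (M : H →L[ℂ] H) (J : Finset β) (b a : H) :
    lgm (xfam X) (lt_xfam_comm X hXX) M J b a =
      ⟪b, ((1 / 2 ^ J.card : ℂ) • ∑ I ∈ J.powerset, (-1 : ℂ) ^ I.card •
        (prodC I X hXX * M * prodC I X hXX)) a⟫_ℂ := by
  unfold lgm
  have e : ∀ I ∈ J.powerset, (-1 : ℂ) ^ I.card *
      ⟪mix (xfam X) (lt_xfam_comm X hXX) J I b, M (mix (xfam X) (lt_xfam_comm X hXX) J I a)⟫_ℂ =
      ⟪b, ((-1 : ℂ) ^ I.card • (prodC I X hXX * M * prodC I X hXX)) a⟫_ℂ := by
    intro I hI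
    rw [lt_mix_xfam X hXX J I (Finset.mem_powerset.1 hI)]
    have h1 : ((-1 : ℂ) ^ I.card • (prodC I X hXX * M * prodC I X hXX)) a =
        (-1 : ℂ) ^ I.card • (prodC I X hXX (M (prodC I X hXX a))) := rfl
    rw [h1, inner_smul_right]
    congr 1
    have h2 := ContinuousLinearMap.adjoint_inner_left (prodC I X hXX)
      (M (prodC I X hXX a)) b
    rw [← ContinuousLinearMap.star_eq_adjoint, lt_prodC_star I X hXX hs] at h2
    exact h2
  rw [Finset.sum_congr rfl e, ← inner_sum]
  have h3 : ((1 / 2 ^ J.card : ℂ) • ∑ I ∈ J.powerset, (-1 : ℂ) ^ I.card •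
        (prodC I X hXX * M * prodC I X hXX)) a = (1 / 2 ^ J.card : ℂ) •
        ∑ I ∈ J.powerset, ((-1 : ℂ) ^ I.card • (prodC I X hXX * M * prodC I X hXX)) a := by
    rw [ContinuousLinearMap.smul_apply, ContinuousLinearMap.sum_apply]
  rw [h3, inner_smul_right]

theorem lgm_norm_le (X : β → (H →L[ℂ] H)) (hXX : ∀ h h', h ≠ h' → Commute (X h) (X h'))
    (hs : ∀ h, star (X h) = X h) (M : H →L[ℂ] H) (J : Finset β) (K : ℝ)
    (hK : ‖(1 / 2 ^ J.card : ℂ) • ∑ I ∈ J.powerset, (-1 : ℂ) ^ I.card •
        (prodC I X hXX * M * prodC I X hXX)‖ ≤ K) (b a : H) :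
    ‖lgm (xfam X) (lt_xfam_comm X hXX) M J b a‖ ≤ K * ‖b‖ * ‖a‖ := by
  rw [lgm_xfam X hXX hs]
  refine (norm_inner_le_norm _ _).trans ?_
  have := ContinuousLinearMap.le_opNorm ((1 / 2 ^ J.card : ℂ) • ∑ I ∈ J.powerset,
    (-1 : ℂ) ^ I.card • (prodC I X hXX * M * prodC I X hXX)) a
  calc _ ≤ ‖b‖ * (‖(1 / 2 ^ J.card : ℂ) • ∑ I ∈ J.powerset, (-1 : ℂ) ^ I.card •
        (prodC I X hXX * M * prodC I X hXX)‖ * ‖a‖) := by gcongr
    _ ≤ ‖b‖ * (K * ‖a‖) := by gcongr
    _ = _ := by ring

theorem lgm_add_obs (A : Bool → β → (H →L[ℂ] H))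
    (hA : ∀ h h', h ≠ h' → ∀ a b, Commute (A a h) (A b h')) {n : ℕ} (w : Fin n → ℂ)
    (M : Fin n → (H →L[ℂ] H)) (J : Finset β) (b a : H) :
    lgm A hA (∑ i, w i • M i) J b a = ∑ i, w i * lgm A hA (M i) J b a := by
  unfold lgm
  have e : ∀ I ∈ J.powerset, (-1 : ℂ) ^ I.card *
      ⟪mix A hA J I b, (∑ i, w i • M i) (mix A hA J I a)⟫_ℂ =
      ∑ i, w i * ((-1 : ℂ) ^ I.card * ⟪mix A hA J I b, M i (mix A hA J I a)⟫_ℂ) := by
    intro I _
    rw [ContinuousLinearMap.sum_apply, inner_sum, Finset.mul_sum]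
    refine Finset.sum_congr rfl fun i _ => ?_
    rw [ContinuousLinearMap.smul_apply, inner_smul_right]
    ring
  rw [Finset.sum_congr rfl e, Finset.sum_comm, Finset.mul_sum]
  refine Finset.sum_congr rfl fun i _ => ?_
  rw [← Finset.mul_sum]
  ring

end LightBase

section LightOps

variable {V : Type} [Fintype V] [DecidableEq V]

theorem lt_norm_act (M : Op V) : ‖act M‖ = ‖M‖ := Matrix.l2_opNorm_toEuclideanCLM M

theorem lt_site_mul (v : V) (A B : M2) : site v A * site v B = site v (A * B) := by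
  unfold site
  rw [prodOp_mul]
  congr 1
  funext q
  by_cases hq : q = v
  · subst hq
    simp
  · simp [Function.update_of_ne hq]

theorem lt_site_one (v : V) : site v (1 : M2) = 1 := by
  unfold site
  rw [← prodOp_one]
  congr 1
  funext q
  by_cases hq : q = v
  · subst hq
    simp
  · simp [Function.update_of_ne hq]

theorem lt_site_star (v : V) (A : M2) : star (site v A) = site v (star A) := by
  unfold site
  rw [prodOp_star]
  congr 1
  funext q
  by_cases hq : q = v
  · subst hq
    simp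
  · simp [Function.update_of_ne hq]

theorem lt_site_proj (v : V) {A : M2} (hA : IsStarProjection A) : IsStarProjection (site v A) := by
  unfold site
  refine prodOp_proj _ fun q => ?_
  by_cases hq : q = v
  · subst hq
    simpa using hA
  · rw [Function.update_of_ne hq]
    exact .one _

theorem lt_act_commute {S T : Set V} (h : Disjoint S T) {M N : Op V} (hM : M ∈ locAlg S)
    (hN : N ∈ locAlg T) : Commute (act M) (act N) := commute_act h hM hN

theorem lt_norm_kb_le {u w : Bool → ℂ} (hu : ∑ b, ‖u b‖ ^ 2 = 1) (hw : ∑ b, ‖w b‖ ^ 2 = 1) :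
    ‖kb u w‖ ≤ 1 := by
  have h1 : ‖star (kb u w) * kb u w‖ = ‖kb u w‖ * ‖kb u w‖ := CStarRing.norm_star_mul_self
  rw [kb_star, kb_mul, unit_inner hu, one_smul] at h1
  have h2 : ‖kb w w‖ ≤ 1 := (outer_proj hw).norm_le
  nlinarith [norm_nonneg (kb u w)]

theorem lt_norm_M2_one : ‖(1 : M2)‖ ≤ 1 := (CStarRing.norm_of_mem_unitary (one_mem _)).le

theorem EF.lt_norm_le {A : M2} (h : EF A) : ‖A‖ ≤ 1 := by
  obtain ⟨t, E, F, t0, t1, hE, hF, rfl⟩ := h
  rw [norm_smul]
  have h1 : ‖(t : ℂ)‖ = t := by rw [Complex.norm_real, Real.norm_of_nonneg t0]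
  rw [h1]
  have h2 : ‖E * F‖ ≤ 1 :=
    (norm_mul_le _ _).trans (mul_le_one₀ hE.norm_le (norm_nonneg _) hF.norm_le)
  exact mul_le_one₀ t1 (norm_nonneg _) h2

end LightOps

namespace PS

variable {V β : Type} [Fintype V] [DecidableEq V] [Fintype β] [DecidableEq β] (p : PS V β)

theorem lt_inp_ne (h h' : β) (hne : h ≠ h') : p.inp h ≠ p.inp h' := by
  intro e
  refine Finset.disjoint_left.mp (p.O_disj h h' hne) (p.inp_O h) ?_
  rw [e]
  exact p.inp_O h'

theorem lt_inp_ne_o (h : β) : p.inp h ≠ p.o := by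
  intro e
  apply p.o_notMem h
  rw [← e]
  exact p.inp_O h

theorem lt_actX_comm (h h' : β) (hne : h ≠ h') : Commute (act (p.X h)) (act (p.X h')) :=
  lt_act_commute (by simpa using p.lt_inp_ne h h' hne) (p.X_mem h) (p.X_mem h')

theorem lt_actX_star (h : β) : star (act (p.X h)) = act (p.X h) := by
  rw [← map_star]
  congr 1
  unfold X
  rw [lt_site_star, p.x1_star]

theorem lt_actX_sq (h : β) : act (p.X h) * act (p.X h) = 1 := by
  rw [← map_mul]
  unfold X
  rw [lt_site_mul, p.x1_sq, lt_site_one, map_one]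

theorem lt_norm_Theta (q : V) : ‖p.Θ q‖ ≤ 1 := by
  by_cases hq : q = p.o
  · rw [hq]
    exact p.ho
  · exact (p.hΘ q hq).norm_le

/-- the observable -/
noncomputable def lt_M0 : HV V →L[ℂ] HV V := act (regOp p.c p.Θ Set.univ)

theorem light_base_distinct (J : Finset β)
    (ho : ∀ h ∈ J, rep p.c (p.inp h) ≠ rep p.c p.o)
    (hd : ∀ h ∈ J, ∀ h' ∈ J, h ≠ h' → rep p.c (p.inp h) ≠ rep p.c (p.inp h')) (b a : HV V) :
    ‖lgm (xfam fun h => act (p.X h)) (lt_xfam_comm _ p.lt_actX_comm) p.lt_M0 J b a‖ ≤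
      (3 / 4) ^ J.card * ‖b‖ * ‖a‖ := by
  classical
  refine lgm_norm_le _ p.lt_actX_comm p.lt_actX_star _ J _ ?_ b a
  -- operators of the regions
  obtain ⟨r, hr⟩ : ∃ r : β → V, r = fun h => rep p.c (p.inp h) := ⟨_, rfl⟩
  obtain ⟨E, hE⟩ : ∃ E : β → (HV V →L[ℂ] HV V), E = fun h =>
    if h ∈ J then act (regOp p.c p.Θ {r h}) else 1 := ⟨_, rfl⟩
  have hEJ : ∀ h ∈ J, E h = act (regOp p.c p.Θ {r h}) := by
    intro h hh
    rw [hE]
    exact if_pos hh
  have hEc : ∀ h h', h ≠ h' → Commute (E h) (E h') := by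
    intro h h' hne
    by_cases h1 : h ∈ J
    · by_cases h2 : h' ∈ J
      · rw [hEJ h h1, hEJ h' h2]
        refine lt_act_commute ?_ (p.good.regOp_mem p.Θ {r h}) (p.good.regOp_mem p.Θ {r h'})
        rw [Set.disjoint_left]
        intro q hq hq'
        have e1 : rep p.c q = r h := hq
        have e2 : rep p.c q = r h' := hq'
        rw [hr] at e1 e2
        exact hd h h1 h' h2 hne (e1.symm.trans e2)
      · have : E h' = 1 := by
          rw [hE]
          exact if_neg h2
        rw [this]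
        exact Commute.one_right _
    · have : E h = 1 := by
        rw [hE]
        exact if_neg h1
      rw [this]
      exact Commute.one_left _
  have hYY : ∀ h h', h ≠ h' → Commute (((1 : ℝ) : ℂ) • (E h * 1)) (((1 : ℝ) : ℂ) • (E h' * 1)) := by
    intro h h' hne
    simpa using hEc h h' hne
  have hEp : ∀ h, IsStarProjection (E h) := by
    intro h
    by_cases h1 : h ∈ J
    · rw [hEJ h h1]
      refine (p.good.regOp_proj p.Θ {r h} ?_).map act
      intro q hq
      apply p.hΘ
      rintro rfl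
      have e1 : rep p.c p.o = r h := hq
      rw [hr] at e1
      exact ho h h1 e1.symm
    · have : E h = 1 := by
        rw [hE]
        exact if_neg h1
      rw [this]
      exact .one _
  have hprod : ∀ J' ⊆ J, prodC J' (fun h => (((1 : ℝ) : ℂ) • (E h * 1))) hYY *
      act (regOp p.c p.Θ (r '' (J' : Set β))ᶜ) = p.lt_M0 := by
    intro J'
    induction J' using Finset.induction_on with
    | empty =>
      intro _
      have e1 : prodC ∅ (fun h => (((1 : ℝ) : ℂ) • (E h * 1))) hYY = 1 :=
        Finset.noncommProd_empty _ _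
      rw [e1, one_mul]
      simp [lt_M0]
    | insert h J' hh ih =>
      intro hsub
      have hhJ : h ∈ J := hsub (Finset.mem_insert_self h J')
      have ih' := ih ((Finset.subset_insert h J').trans hsub)
      have hset : ({r h} : Set V) ∪ (r '' ((insert h J' : Finset β) : Set β))ᶜ =
          (r '' (J' : Set β))ᶜ := by
        ext q
        simp only [Finset.coe_insert, Set.image_insert_eq, Set.mem_union, Set.mem_singleton_iff,
          Set.mem_compl_iff, Set.mem_insert_iff, not_or]
        constructor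
        · rintro (rfl | ⟨_, h2⟩)
          · rintro ⟨h', hh', e⟩
            rw [hr] at e
            refine hd h' (hsub (Finset.mem_insert_of_mem hh')) h hhJ ?_ e
            rintro rfl
            exact hh hh'
          · exact h2
        · intro h2
          by_cases hq : q = r h
          · exact Or.inl hq
          · exact Or.inr ⟨hq, h2⟩
      have hdisj : Disjoint ({r h} : Set V) (r '' ((insert h J' : Finset β) : Set β))ᶜ := by
        rw [Set.disjoint_singleton_left, Set.notMem_compl_iff]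
        exact ⟨h, by simp, rfl⟩
      have hop : regOp p.c p.Θ {r h} * regOp p.c p.Θ (r '' ((insert h J' : Finset β) : Set β))ᶜ =
          regOp p.c p.Θ (r '' (J' : Set β))ᶜ := by
        rw [← p.good.regOp_union p.Θ _ _ hdisj, hset]
      have hact : act (regOp p.c p.Θ {r h}) *
          act (regOp p.c p.Θ (r '' ((insert h J' : Finset β) : Set β))ᶜ) =
          act (regOp p.c p.Θ (r '' (J' : Set β))ᶜ) := by
        rw [← hop]
        exact (map_mul act _ _).symm
      have e1 : (((1 : ℝ) : ℂ) • (E h * 1)) = act (regOp p.c p.Θ {r h}) := by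
        rw [hEJ h hhJ, mul_one, Complex.ofReal_one, one_smul]
      calc prodC (insert h J') (fun h => (((1 : ℝ) : ℂ) • (E h * 1))) hYY *
          act (regOp p.c p.Θ (r '' ((insert h J' : Finset β) : Set β))ᶜ)
          = (prodC J' (fun h => (((1 : ℝ) : ℂ) • (E h * 1))) hYY * (((1 : ℝ) : ℂ) • (E h * 1))) *
          act (regOp p.c p.Θ (r '' ((insert h J' : Finset β) : Set β))ᶜ) := by
            rw [lt_prodC_insert' J' (fun h => (((1 : ℝ) : ℂ) • (E h * 1))) hYY h hh]
        _ = prodC J' (fun h => (((1 : ℝ) : ℂ) • (E h * 1))) hYY *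
            (act (regOp p.c p.Θ {r h}) *
          act (regOp p.c p.Θ (r '' ((insert h J' : Finset β) : Set β))ᶜ)) := by
            rw [e1, mul_assoc]
        _ = _ := by rw [hact, ih']
  rw [← hprod J (le_refl J)]
  refine norm_core J (fun h => act (p.X h)) E (fun _ => 1) (fun _ => 1)
    (act (regOp p.c p.Θ (r '' (J : Set β))ᶜ)) p.lt_actX_comm hYY p.lt_actX_star p.lt_actX_sq hEp
    (fun _ => .one _) (fun _ => zero_le_one) (fun _ => le_rfl) ?_ ?_ ?_ ?_
  · intro h hh h' hh' hne
    rw [hEJ h' hh']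
    refine lt_act_commute ?_ (p.X_mem h) (p.good.regOp_mem p.Θ {r h'})
    rw [Set.disjoint_singleton_left]
    intro hq
    have e1 : rep p.c (p.inp h) = r h' := hq
    rw [hr] at e1
    exact hd h hh h' hh' hne e1
  · intro h hh h' hh' hne
    exact Commute.one_right _
  · intro h hh
    refine lt_act_commute ?_ (p.X_mem h) (p.good.regOp_mem p.Θ _)
    rw [Set.disjoint_singleton_left]
    intro hq
    apply hq
    exact ⟨h, hh, by rw [hr]⟩
  · rw [lt_norm_act]
    exact p.good.regOp_norm p.Θ _ fun q _ => p.lt_norm_Theta q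

end PS

namespace PS

variable {V β : Type} [Fintype V] [DecidableEq V] [Fintype β] [DecidableEq β] (p : PS V β)

/-- one term of the expansion -/
theorem light_base_term (J : Finset β) (r : V) (hJ : ∀ h ∈ J, rep p.c (p.inp h) = r)
    (Ψ : V → M2) (hEF : ∀ q, q ≠ p.o → EF (Ψ q)) (ho : ‖Ψ p.o‖ ≤ 1) (b a : HV V) :
    ‖lgm (xfam fun h => act (p.X h)) (lt_xfam_comm _ p.lt_actX_comm)
      (act (prodOp Ψ * regOp p.c p.Θ {r}ᶜ)) J b a‖ ≤ (3 / 4) ^ J.card * ‖b‖ * ‖a‖ := by
  classical
  refine lgm_norm_le _ p.lt_actX_comm p.lt_actX_star _ J _ ?_ b a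
  have hex : ∀ h, ∃ (t : ℝ) (E F : M2), 0 ≤ t ∧ t ≤ 1 ∧ IsStarProjection E ∧
      IsStarProjection F ∧ Ψ (p.inp h) = (t : ℂ) • (E * F) := fun h => hEF _ (p.lt_inp_ne_o h)
  choose t E F t0 t1 hE hF hΨ using hex
  have hsite : ∀ h, (t h : ℂ) • (act (site (p.inp h) (E h)) * act (site (p.inp h) (F h))) =
      act (site (p.inp h) (Ψ (p.inp h))) := by
    intro h
    have h1 : act (site (p.inp h) (E h)) * act (site (p.inp h) (F h)) =
        act (site (p.inp h) (E h * F h)) := by
      rw [← lt_site_mul]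
      exact (map_mul act _ _).symm
    have h2 : site (p.inp h) ((t h : ℂ) • (E h * F h)) =
        (t h : ℂ) • site (p.inp h) (E h * F h) := by
      have := prodOp_smul (Function.update (fun _ => (1 : M2)) (p.inp h) (E h * F h)) (p.inp h)
        (t h : ℂ)
      rw [Function.update_self, Function.update_idem] at this
      exact this
    rw [h1, hΨ h, h2]
    exact (map_smul act _ _).symm
  have hYY : ∀ h h', h ≠ h' →
      Commute ((t h : ℂ) • (act (site (p.inp h) (E h)) * act (site (p.inp h) (F h))))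
        ((t h' : ℂ) • (act (site (p.inp h') (E h')) * act (site (p.inp h') (F h')))) := by
    intro h h' hne
    rw [hsite, hsite]
    exact lt_act_commute (by simpa using p.lt_inp_ne h h' hne) (site_mem _ _) (site_mem _ _)
  obtain ⟨off, hoff⟩ : ∃ off : Finset β → V → M2, off = fun J' q =>
    if ∃ h ∈ J', p.inp h = q then 1 else Ψ q := ⟨_, rfl⟩
  have hoff_mem : ∀ J', prodOp (off J') ∈ locAlg {q | ¬ ∃ h ∈ J', p.inp h = q} := by
    intro J'
    refine prodOp_mem _ fun q hq => ?_
    rw [hoff]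
    have : ∃ h ∈ J', p.inp h = q := by
      by_contra hcon
      exact hq hcon
    exact if_pos this
  have hprod : ∀ J' : Finset β, prodC J' (fun h => ((t h : ℂ) •
      (act (site (p.inp h) (E h)) * act (site (p.inp h) (F h))))) hYY *
      act (prodOp (off J') * regOp p.c p.Θ {r}ᶜ) = act (prodOp Ψ * regOp p.c p.Θ {r}ᶜ) := by
    intro J'
    induction J' using Finset.induction_on with
    | empty =>
      have e1 : prodC ∅ (fun h => ((t h : ℂ) •
          (act (site (p.inp h) (E h)) * act (site (p.inp h) (F h))))) hYY = 1 :=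
        Finset.noncommProd_empty _ _
      rw [e1, one_mul]
      have e2 : off ∅ = Ψ := by
        rw [hoff]
        funext q
        simp
      rw [e2]
    | insert h J' hh ih =>
      have hop : site (p.inp h) (Ψ (p.inp h)) * prodOp (off (insert h J')) =
          prodOp (off J') := by
        unfold site
        rw [prodOp_mul]
        congr 1
        funext q
        by_cases hq : q = p.inp h
        · subst hq
          rw [Function.update_self]
          have e1 : off (insert h J') (p.inp h) = 1 := by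
            rw [hoff]
            exact if_pos ⟨h, Finset.mem_insert_self h J', rfl⟩
          have e2 : off J' (p.inp h) = Ψ (p.inp h) := by
            rw [hoff]
            refine if_neg ?_
            rintro ⟨h', hh', e⟩
            refine p.lt_inp_ne h' h ?_ e
            rintro rfl
            exact hh hh'
          rw [e1, e2, mul_one]
        · rw [Function.update_of_ne hq, one_mul, hoff]
          simp only [Finset.mem_insert]
          by_cases hc : ∃ h' ∈ J', p.inp h' = q
          · obtain ⟨h', hh', e⟩ := hc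
            rw [if_pos ⟨h', Or.inr hh', e⟩, if_pos ⟨h', hh', e⟩]
          · rw [if_neg, if_neg hc]
            rintro ⟨h', hh' | hh', e⟩
            · subst hh'
              exact hq e.symm
            · exact hc ⟨h', hh', e⟩
      have hact : act (site (p.inp h) (Ψ (p.inp h))) *
          act (prodOp (off (insert h J')) * regOp p.c p.Θ {r}ᶜ) =
          act (prodOp (off J') * regOp p.c p.Θ {r}ᶜ) := by
        rw [← hop, mul_assoc]
        exact (map_mul act _ _).symm
      calc prodC (insert h J') (fun h => ((t h : ℂ) •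
          (act (site (p.inp h) (E h)) * act (site (p.inp h) (F h))))) hYY *
          act (prodOp (off (insert h J')) * regOp p.c p.Θ {r}ᶜ)
          = (prodC J' (fun h => ((t h : ℂ) •
          (act (site (p.inp h) (E h)) * act (site (p.inp h) (F h))))) hYY * ((t h : ℂ) •
          (act (site (p.inp h) (E h)) * act (site (p.inp h) (F h))))) *
          act (prodOp (off (insert h J')) * regOp p.c p.Θ {r}ᶜ) := by
            rw [lt_prodC_insert' J' (fun h => ((t h : ℂ) •
              (act (site (p.inp h) (E h)) * act (site (p.inp h) (F h))))) hYY h hh]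
        _ = prodC J' (fun h => ((t h : ℂ) •
          (act (site (p.inp h) (E h)) * act (site (p.inp h) (F h))))) hYY *
            (act (site (p.inp h) (Ψ (p.inp h))) *
          act (prodOp (off (insert h J')) * regOp p.c p.Θ {r}ᶜ)) := by
            rw [hsite, mul_assoc]
        _ = _ := by rw [hact, ih]
  rw [← hprod J]
  refine norm_core J (fun h => act (p.X h)) (fun h => act (site (p.inp h) (E h)))
    (fun h => act (site (p.inp h) (F h))) t
    (act (prodOp (off J) * regOp p.c p.Θ {r}ᶜ)) p.lt_actX_comm hYY p.lt_actX_star p.lt_actX_sq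
    (fun h => (lt_site_proj _ (hE h)).map act) (fun h => (lt_site_proj _ (hF h)).map act)
    t0 t1 ?_ ?_ ?_ ?_
  · intro h hh h' hh' hne
    exact lt_act_commute (by simpa using p.lt_inp_ne h h' hne) (p.X_mem h) (site_mem _ _)
  · intro h hh h' hh' hne
    exact lt_act_commute (by simpa using p.lt_inp_ne h h' hne) (p.X_mem h) (site_mem _ _)
  · intro h hh
    have hc1 : Commute (act (p.X h)) (act (prodOp (off J))) := by
      refine lt_act_commute ?_ (p.X_mem h) (hoff_mem J)
      rw [Set.disjoint_singleton_left]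
      intro hq
      exact hq ⟨h, hh, rfl⟩
    have hc2 : Commute (act (p.X h)) (act (regOp p.c p.Θ {r}ᶜ)) := by
      refine lt_act_commute ?_ (p.X_mem h) (p.good.regOp_mem p.Θ _)
      rw [Set.disjoint_singleton_left]
      intro hq
      exact hq (hJ h hh)
    have h3 : act (prodOp (off J) * regOp p.c p.Θ {r}ᶜ) =
        act (prodOp (off J)) * act (regOp p.c p.Θ {r}ᶜ) := map_mul act _ _
    rw [h3]
    exact hc1.mul_right hc2
  · rw [lt_norm_act]
    refine (norm_mul_le _ _).trans (mul_le_one₀ ?_ (norm_nonneg _) ?_)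
    · refine prodOp_norm_le _ fun q => ?_
      rw [hoff]
      simp only
      split_ifs
      · exact lt_norm_M2_one
      · by_cases hq : q = p.o
        · rw [hq]
          exact ho
        · exact (hEF q hq).lt_norm_le
    · exact p.good.regOp_norm p.Θ _ fun q _ => p.lt_norm_Theta q

theorem light_base_equal (J : Finset β) (r : V) (hJ : ∀ h ∈ J, rep p.c (p.inp h) = r)
    (b a : HV V) :
    ‖lgm (xfam fun h => act (p.X h)) (lt_xfam_comm _ p.lt_actX_comm) p.lt_M0 J b a‖ ≤
      9 * (3 / 4) ^ J.card * ‖b‖ * ‖a‖ := by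
  classical
  obtain ⟨N, w, Ψ, hw, _, hEF, ho, hreg⟩ := p.good.regOp_expand p.Θ p.o p.hΘ p.ho {r}
  rw [Finset.card_singleton, pow_one] at hw
  have hM : p.lt_M0 = ∑ i, w i • act (prodOp (Ψ i) * regOp p.c p.Θ {r}ᶜ) := by
    have h1 : regOp p.c p.Θ Set.univ = ∑ i, w i • (prodOp (Ψ i) * regOp p.c p.Θ {r}ᶜ) := by
      have h2 : (Set.univ : Set V) = ({r} : Set V) ∪ {r}ᶜ := (Set.union_compl_self _).symm
      rw [h2, p.good.regOp_union p.Θ _ _ disjoint_compl_right]
      have h3 : regOp p.c p.Θ ({r} : Set V) = ∑ i, w i • prodOp (Ψ i) := by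
        rw [← hreg, Finset.coe_singleton]
      rw [h3, Finset.sum_mul]
      refine Finset.sum_congr rfl fun i _ => ?_
      rw [smul_mul_assoc]
    unfold lt_M0
    rw [h1, map_sum]
    refine Finset.sum_congr rfl fun i _ => ?_
    exact map_smul act _ _
  rw [hM, lgm_add_obs]
  calc _ ≤ ∑ i, ‖w i‖ * ((3 / 4) ^ J.card * ‖b‖ * ‖a‖) := by
        refine norm_sum_le_of_le _ fun i _ => ?_
        rw [norm_mul]
        gcongr
        exact p.light_base_term J r hJ (Ψ i) (hEF i) (ho i) b a
    _ = (∑ i, ‖w i‖) * ((3 / 4) ^ J.card * ‖b‖ * ‖a‖) := by rw [Finset.sum_mul]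
    _ ≤ 9 * ((3 / 4) ^ J.card * ‖b‖ * ‖a‖) := by gcongr
    _ = _ := by ring

end PS

namespace PS

variable {V β : Type} [Fintype V] [DecidableEq V] [Fintype β] [DecidableEq β] (p : PS V β)

theorem lt_x1_norm (h : β) : ‖p.x1 h‖ ≤ 1 := by
  have hu : p.x1 h ∈ unitary M2 := by
    rw [Unitary.mem_iff, p.x1_star]
    exact ⟨p.x1_sq h, p.x1_sq h⟩
  exact (CStarRing.norm_of_mem_unitary hu).le

theorem lt_ch_nonneg (h : β) : 0 ≤ p.ch h := Finset.prod_nonneg fun q _ => p.γ0 q

theorem lt_gate_norm (h : β) (A : M2) (hA : ‖A‖ ≤ 1) :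
    ‖onSet (p.O h : Set V) (fun q => outer (p.th q)) * site (p.inp h) A * p.Pf h‖ ≤ p.ch h := by
  classical
  obtain ⟨w, hw⟩ : ∃ w : V → ℂ, w = fun q =>
    if q ∈ (p.O h).erase (p.inp h) then (p.γ q : ℂ) else 1 := ⟨_, rfl⟩
  obtain ⟨B, hB⟩ : ∃ B : V → M2, B = fun q =>
    if q ∈ (p.O h).erase (p.inp h) then kb (p.th q) (p.pi q) else
      if q = p.inp h then outer (p.th q) * A * outer (p.pi q) else 1 := ⟨_, rfl⟩
  have hprod : onSet (p.O h : Set V) (fun q => outer (p.th q)) * site (p.inp h) A * p.Pf h =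
      (∏ q, w q) • prodOp B := by
    rw [← prodOp_smul']
    unfold Pf onSet site
    rw [prodOp_mul, prodOp_mul]
    congr 1
    funext q
    rw [hw, hB]
    by_cases hq : q = p.inp h
    · subst hq
      have h1 : p.inp h ∉ (p.O h).erase (p.inp h) := Finset.notMem_erase _ _
      simp [h1, p.inp_O h]
    · by_cases hqO : q ∈ p.O h
      · have h1 : q ∈ (p.O h).erase (p.inp h) := Finset.mem_erase.mpr ⟨hq, hqO⟩
        simp only [h1, if_true, Finset.mem_coe, hqO, Function.update_of_ne hq, mul_one]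
        rw [outer_eq, outer_eq, kb_mul, p.hγ h q hqO hq]
      · have h1 : q ∉ (p.O h).erase (p.inp h) := fun hx => hqO (Finset.mem_erase.mp hx).2
        simp [h1, hqO, hq]
  have hprodw : ∏ q, w q = (p.ch h : ℂ) := by
    rw [hw, Finset.prod_ite_mem, Finset.univ_inter]
    unfold ch
    push_cast
    rfl
  have hBn : ‖prodOp B‖ ≤ 1 := by
    refine prodOp_norm_le _ fun q => ?_
    rw [hB]
    simp only
    split_ifs
    · exact lt_norm_kb_le (p.th_unit q) (p.pi_unit q)
    · refine (norm_mul_le _ _).trans (mul_le_one₀ ?_ (norm_nonneg _)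
        (outer_proj (p.pi_unit q)).norm_le)
      exact (norm_mul_le _ _).trans (mul_le_one₀ (outer_proj (p.th_unit q)).norm_le
        (norm_nonneg _) hA)
    · exact lt_norm_M2_one
  rw [hprod, hprodw, norm_smul, Complex.norm_real, Real.norm_of_nonneg (p.lt_ch_nonneg h)]
  exact mul_le_of_le_one_right (p.lt_ch_nonneg h) hBn

theorem lt_cop_err (h : β) (hh : p.tr h = true ∨ p.ch h ≤ c0) (y : Bool) (v : HV V)
    (hv : act (p.Pf h) v = v) :
    ‖p.Cop y h v - xfam (fun h => act (p.X h)) y h v‖ ≤ 2 * c0 * ‖v‖ := by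
  have hc0 : (0 : ℝ) ≤ c0 := by
    unfold c0
    norm_num
  -- the one qubit operator
  obtain ⟨A, hA, hAX⟩ : ∃ A : M2, ‖A‖ ≤ 1 ∧ xfam (fun h => act (p.X h)) y h =
      act (site (p.inp h) A) ∧ p.Cop y h = act (p.R h * site (p.inp h) A) := by
    cases y
    · refine ⟨1, lt_norm_M2_one, ?_, ?_⟩
      · rw [lt_site_one, map_one]
        rfl
      · rw [lt_site_one, mul_one]
        rfl
    · exact ⟨p.x1 h, p.lt_x1_norm h, rfl, rfl⟩
  by_cases ht : p.tr h = true
  · have hR : p.R h = 1 := by
      unfold R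
      exact if_pos ht
    rw [hAX.1, hAX.2, hR, one_mul, sub_self, norm_zero]
    positivity
  · have hch := hh.resolve_left ht
    have hR : p.R h = 1 - (2 : ℂ) • onSet (p.O h : Set V) (fun q => outer (p.th q)) := by
      unfold R
      exact if_neg ht
    obtain ⟨U, hU⟩ : ∃ U : Op V, U = onSet (p.O h : Set V) (fun q => outer (p.th q)) := ⟨_, rfl⟩
    rw [← hU] at hR
    have e1 : p.Cop y h v - xfam (fun h => act (p.X h)) y h v =
        -((2 : ℂ) • act (U * site (p.inp h) A * p.Pf h) v) := by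
      rw [hAX.1, hAX.2, hR]
      have e2 : (1 - (2 : ℂ) • U) * site (p.inp h) A =
          site (p.inp h) A - (2 : ℂ) • (U * site (p.inp h) A) := by
        rw [sub_mul, one_mul, smul_mul_assoc]
      have e3 : act ((1 - (2 : ℂ) • U) * site (p.inp h) A) =
          act (site (p.inp h) A) - (2 : ℂ) • act (U * site (p.inp h) A) := by
        rw [e2, map_sub]
        congr 1
        exact map_smul act _ _
      have e4 : act (U * site (p.inp h) A * p.Pf h) v = act (U * site (p.inp h) A) v := by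
        have e5 : act (U * site (p.inp h) A * p.Pf h) =
            act (U * site (p.inp h) A) * act (p.Pf h) := map_mul act _ _
        rw [e5]
        change act (U * site (p.inp h) A) (act (p.Pf h) v) = _
        rw [hv]
      rw [e3, e4]
      change act (site (p.inp h) A) v - (2 : ℂ) • act (U * site (p.inp h) A) v -
        act (site (p.inp h) A) v = _
      abel
    rw [e1, norm_neg, norm_smul]
    have h2 : ‖(2 : ℂ)‖ = 2 := by norm_num
    rw [h2]
    have h4 : 2 * c0 * ‖v‖ = 2 * (c0 * ‖v‖) := by ring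
    rw [h4]
    have h3 : ‖act (U * site (p.inp h) A * p.Pf h) v‖ ≤ c0 * ‖v‖ := by
      refine (ContinuousLinearMap.le_opNorm _ v).trans ?_
      refine mul_le_mul_of_nonneg_right ?_ (norm_nonneg v)
      rw [lt_norm_act, hU]
      exact (p.lt_gate_norm h A hA).trans hch
    linarith

theorem lt_xfam_mem (y : Bool) (h : β) : ∃ M ∈ locAlg ({p.inp h} : Set V),
    xfam (fun h => act (p.X h)) y h = act M := by
  cases y
  · refine ⟨1, one_mem _, ?_⟩
    rw [map_one]
    rfl
  · exact ⟨_, p.X_mem h, rfl⟩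

theorem lt_cop_mem (y : Bool) (h : β) : ∃ M ∈ locAlg (p.O h : Set V), p.Cop y h = act M := by
  cases y
  · exact ⟨_, p.R_mem h, rfl⟩
  · exact ⟨_, Subalgebra.mul_mem _ (p.R_mem h) (p.X_mem_O h), rfl⟩

theorem lt_xfam_mem_O (y : Bool) (h : β) : ∃ M ∈ locAlg (p.O h : Set V),
    xfam (fun h => act (p.X h)) y h = act M := by
  obtain ⟨M, hM, e⟩ := p.lt_xfam_mem y h
  exact ⟨M, locAlg_mono (by simpa using p.inp_O h) hM, e⟩

theorem lt_blocks_comm (h h' : β) (hne : h ≠ h') {M N : Op V} (hM : M ∈ locAlg (p.O h : Set V))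
    (hN : N ∈ locAlg (p.O h' : Set V)) : Commute (act M) (act N) :=
  lt_act_commute (by exact_mod_cast p.O_disj h h' hne) hM hN

theorem lt_xfam_norm (h : β) (y : Bool) (v : HV V) :
    ‖xfam (fun h => act (p.X h)) y h v‖ ≤ ‖v‖ := by
  have h1 : ∃ A : M2, ‖A‖ ≤ 1 ∧ xfam (fun h => act (p.X h)) y h = act (site (p.inp h) A) := by
    cases y
    · refine ⟨1, lt_norm_M2_one, ?_⟩
      rw [lt_site_one, map_one]
      rfl
    · exact ⟨p.x1 h, p.lt_x1_norm h, rfl⟩
  obtain ⟨A, hA, e⟩ := h1
  rw [e]
  refine (ContinuousLinearMap.le_opNorm _ v).trans ?_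
  refine mul_le_of_le_one_left (norm_nonneg v) ?_
  rw [lt_norm_act]
  unfold site
  refine prodOp_norm_le _ fun q => ?_
  by_cases hq : q = p.inp h
  · subst hq
    simpa using hA
  · rw [Function.update_of_ne hq]
    exact lt_norm_M2_one

theorem light_main (hp : ∀ h, p.tr h = true ∨ p.ch h ≤ c0) (J : Finset β)
    (hbase : ∀ J' ⊆ J, ∀ b a, ‖lgm (xfam fun h => act (p.X h)) (lt_xfam_comm _ p.lt_actX_comm)
      p.lt_M0 J' b a‖ ≤ 9 * (3 / 4) ^ J'.card * ‖b‖ * ‖a‖) (a b : HV V) (ha : p.Dom J a)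
    (hb : p.Dom J b) :
    ‖p.Gam0 J b a‖ ≤ 9 * (3 / 4 + 2 * (2 * c0) + (2 * c0) ^ 2) ^ J.card * ‖b‖ * ‖a‖ := by
  have hCX : ∀ h h', h ≠ h' → ∀ a b, Commute (p.Cop a h)
      (xfam (fun h => act (p.X h)) b h') := by
    intro h h' hne a b
    obtain ⟨M, hM, e⟩ := p.lt_cop_mem a h
    obtain ⟨N, hN, e'⟩ := p.lt_xfam_mem_O b h'
    rw [e, e']
    exact p.lt_blocks_comm h h' hne hM hN
  have hPX : ∀ h h', h ≠ h' → ∀ b, Commute (act (p.Pf h))
      (xfam (fun h => act (p.X h)) b h') := by
    intro h h' hne b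
    obtain ⟨N, hN, e'⟩ := p.lt_xfam_mem_O b h'
    rw [e']
    exact p.lt_blocks_comm h h' hne (onSet_mem _ _) hN
  have hPC : ∀ h h', h ≠ h' → ∀ b, Commute (act (p.Pf h)) (p.Cop b h') := by
    intro h h' hne b
    obtain ⟨N, hN, e'⟩ := p.lt_cop_mem b h'
    rw [e']
    exact p.lt_blocks_comm h h' hne (onSet_mem _ _) hN
  have hc0 : (0 : ℝ) ≤ 2 * c0 := by
    unfold c0
    norm_num
  have key := light_abs p.Cop (xfam fun h => act (p.X h)) p.Cop_comm (lt_xfam_comm _ p.lt_actX_comm)
    hCX (fun h => act (p.Pf h)) hPX hPC (2 * c0) 9 hc0 (by norm_num)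
    (fun h y v => p.lt_xfam_norm h y v) (fun h y v hv => p.lt_cop_err h (hp h) y v hv) p.lt_M0 J hbase
    J ∅ (Finset.disjoint_empty_left J) (by rw [Finset.empty_union]) b a
    (fun h hh => hb h hh) (fun h hh => ha h hh)
  rw [Finset.empty_union, Finset.card_empty, pow_zero, mul_one] at key
  have e : p.Gam0 J b a = lgm (lfam p.Cop (xfam fun h => act (p.X h)) ∅)
      (lt_lfam_comm p.Cop (xfam fun h => act (p.X h)) p.Cop_comm (lt_xfam_comm _ p.lt_actX_comm) hCX ∅)
      p.lt_M0 J b a := by
    rw [lgm_congr (lfam p.Cop (xfam fun h => act (p.X h)) ∅) p.Cop _ p.Cop_comm p.lt_M0 J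
      (fun h _ y => if_neg (Finset.notMem_empty h)) b a]
    rfl
  rw [e]
  exact key

end PS

theorem light_bound (ε : ℝ) (hε : 0 < ε) : ∃ N : ℕ, ∀ (V β : Type) [Fintype V] [DecidableEq V]
    [Fintype β] [DecidableEq β] (p : PS V β), (∀ h, p.tr h = true ∨ p.ch h ≤ c0) →
    N ≤ Fintype.card β → ∃ J : Finset β, ∀ a b, p.Dom J a → p.Dom J b →
      ‖p.Gam0 J b a‖ ≤ ε * ‖b‖ * ‖a‖ := by
  classical
  have hκ : (3 / 4 + 2 * (2 * c0) + (2 * c0) ^ 2 : ℝ) < 1 := by
    unfold c0
    norm_num
  obtain ⟨k, hk⟩ := exists_pow_lt_of_lt_one (show 0 < ε / 9 by positivity) hκ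
  refine ⟨k * k + 1, ?_⟩
  intro V β _ _ _ _ p hp hN
  obtain ⟨f, hf⟩ : ∃ f : β → V, f = fun h => rep p.c (p.inp h) := ⟨_, rfl⟩
  -- selection of the blocks
  have hsel : ∃ J : Finset β, J.card = k ∧ ∀ J' ⊆ J, ∀ b a,
      ‖lgm (xfam fun h => act (p.X h)) (lt_xfam_comm _ p.lt_actX_comm) p.lt_M0 J' b a‖ ≤
        9 * (3 / 4) ^ J'.card * ‖b‖ * ‖a‖ := by
    by_cases hS : k + 1 ≤ (Finset.univ.image f).card
    · have h1 : k ≤ ((Finset.univ.image f).erase (rep p.c p.o)).card := by
        have := Finset.pred_card_le_card_erase (s := Finset.univ.image f) (a := rep p.c p.o)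
        omega
      obtain ⟨T, hT, hTk⟩ := Finset.exists_subset_card_eq h1
      have hg : ∀ s : V, ∃ h : β, s ∈ T → f h = s := by
        intro s
        by_cases hs : s ∈ T
        · obtain ⟨h, _, e⟩ := Finset.mem_image.mp (Finset.mem_erase.mp (hT hs)).2
          exact ⟨h, fun _ => e⟩
        · have : 0 < Fintype.card β := by omega
          obtain ⟨h⟩ := Fintype.card_pos_iff.mp this
          exact ⟨h, fun hs' => absurd hs' hs⟩
      choose g hg using hg
      refine ⟨T.image g, ?_, ?_⟩
      · rw [Finset.card_image_of_injOn, hTk]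
        intro s hs s' hs' e
        have e1 := hg s hs
        have e2 := hg s' hs'
        rw [← e1, ← e2, e]
      · intro J' hJ' b a
        have hmem : ∀ h ∈ J', ∃ s ∈ T, g s = h := fun h hh => Finset.mem_image.mp (hJ' hh)
        have h1 := p.light_base_distinct J' (by
          intro h hh
          obtain ⟨s, hs, e⟩ := hmem h hh
          have e1 := hg s hs
          have e2 := (Finset.mem_erase.mp (hT hs)).1
          rw [e, hf] at e1
          simp only at e1
          rw [e1]
          exact e2) (by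
          intro h hh h' hh' hne heq
          obtain ⟨s, hs, e⟩ := hmem h hh
          obtain ⟨s', hs', e'⟩ := hmem h' hh'
          have e1 := hg s hs
          have e2 := hg s' hs'
          rw [e, hf] at e1
          rw [e', hf] at e2
          simp only at e1 e2
          apply hne
          rw [← e, ← e', ← e1, ← e2, heq]) b a
        refine h1.trans ?_
        have h2 : 0 ≤ (3 / 4 : ℝ) ^ J'.card * ‖b‖ * ‖a‖ := by positivity
        nlinarith
    · have h1 : (Finset.univ.image f).card * k < (Finset.univ : Finset β).card := by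
        rw [Finset.card_univ]
        have : (Finset.univ.image f).card * k ≤ k * k := Nat.mul_le_mul_right k (by omega)
        omega
      obtain ⟨r, _, hr⟩ := Finset.exists_lt_card_fiber_of_mul_lt_card_of_maps_to
        (fun h _ => Finset.mem_image_of_mem f (Finset.mem_univ h)) h1
      obtain ⟨J, hJ, hJk⟩ := Finset.exists_subset_card_eq hr.le
      refine ⟨J, hJk, ?_⟩
      intro J' hJ' b a
      refine p.light_base_equal J' r ?_ b a
      intro h hh
      have := (Finset.mem_filter.mp (hJ (hJ' hh))).2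
      rw [hf] at this
      exact this
  obtain ⟨J, hJk, hbase⟩ := hsel
  refine ⟨J, ?_⟩
  intro a b ha hb
  refine (p.light_main hp J hbase a b ha hb).trans ?_
  rw [hJk]
  gcongr
  linarith

end P368.D3
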