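import Vale.Agent.P368.Heavy
import Vale.Agent.P368.Light

namespace P368.D3

open Matrix
open scoped BigOperators InnerProductSpace ComplexOrder Matrix.Norms.L2Operator

theorem core_bound (ε : ℝ) (hε : 0 < ε) : ∃ N : ℕ, ∀ (V β : Type) [Fintype V] [DecidableEq V]
    [Fintype β] [DecidableEq β] (p : PS V β), N ≤ Fintype.card β →
    ∃ J : Finset β, ∀ a b, p.Dom J a → p.Dom J b → ‖p.Gam0 J b a‖ ≤ ε * ‖b‖ * ‖a‖ := by
  classical
  obtain ⟨N₁, hN₁⟩ := light_bound ε hε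
  obtain ⟨N₂, hN₂⟩ := heavy_bound ε hε
  refine ⟨N₁ + N₂, ?_⟩
  intro V β _ _ _ _ p hcard
  have hsplit : Fintype.card {h : β // p.tr h = true ∨ p.ch h ≤ c0} +
      Fintype.card {h : β // ¬ (p.tr h = true ∨ p.ch h ≤ c0)} = Fintype.card β := by
    rw [Fintype.card_subtype_compl]
    have := Fintype.card_subtype_le (fun h : β => p.tr h = true ∨ p.ch h ≤ c0)
    omega
  have key : ∀ (P : β → Prop) [DecidablePred P], (∃ J' : Finset {h : β // P h}, ∀ a b,
      (p.map (Function.Embedding.subtype P)).Dom J' a →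
      (p.map (Function.Embedding.subtype P)).Dom J' b →
      ‖(p.map (Function.Embedding.subtype P)).Gam0 J' b a‖ ≤ ε * ‖b‖ * ‖a‖) →
      ∃ J : Finset β, ∀ a b, p.Dom J a → p.Dom J b → ‖p.Gam0 J b a‖ ≤ ε * ‖b‖ * ‖a‖ := by
    rintro P _ ⟨J', hJ'⟩
    refine ⟨J'.map (Function.Embedding.subtype P), fun a b ha hb => ?_⟩
    rw [p.map_Gam0]
    exact hJ' a b ((p.map_Dom _ _ _).1 ha) ((p.map_Dom _ _ _).1 hb)
  by_cases h1 : N₁ ≤ Fintype.card {h : β // p.tr h = true ∨ p.ch h ≤ c0}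
  · exact key _ (hN₁ V _ (p.map (Function.Embedding.subtype _)) (fun h => h.2) h1)
  · have h2 : N₂ ≤ Fintype.card {h : β // ¬ (p.tr h = true ∨ p.ch h ≤ c0)} := by omega
    refine key _ (hN₂ V _ (p.map (Function.Embedding.subtype _)) (fun h => ?_) h2)
    have h3 := h.2
    rw [not_or, not_le] at h3
    have h4 : p.tr h.1 = false := by simpa using h3.1
    exact ⟨h4, h3.2.le⟩

end P368.D3
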