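import Mathlib

namespace P368

abbrev Ket (V : Type) : Type := (V → Bool) → ℂ

noncomputable def nsq {V : Type} [Fintype V] [DecidableEq V] (ψ : Ket V) : ℝ :=
  ∑ z : V → Bool, ‖ψ z‖ ^ 2

noncomputable def oneQubit {V : Type} [Fintype V] [DecidableEq V]
    (W : V → Matrix Bool Bool ℂ) (ψ : Ket V) : Ket V :=
  fun z => ∑ y : V → Bool, (∏ v, W v (z v) (y v)) * ψ y

structure Layer (V : Type) where
  W : V → Matrix Bool Bool ℂ
  ctrl : V → Finset V

structure Layer.Valid {V : Type} [DecidableEq V] (L : Layer V) : Prop where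
  unitary : ∀ v, L.W v ∈ Matrix.unitaryGroup Bool ℂ
  target_notMem : ∀ v, v ∉ L.ctrl v
  disjoint : ∀ v w, v ≠ w → (L.ctrl v).Nonempty → (L.ctrl w).Nonempty →
    Disjoint (insert v (L.ctrl v)) (insert w (L.ctrl w))

def toffoli {V : Type} (c : V → Finset V) (z : V → Bool) : V → Bool :=
  fun v => xor (z v) (decide ((c v).Nonempty ∧ ∀ w ∈ c v, z w = true))

noncomputable def Layer.act {V : Type} [Fintype V] [DecidableEq V]
    (L : Layer V) (ψ : Ket V) : Ket V :=
  fun z => ∑ y : V → Bool, if toffoli L.ctrl y = z then oneQubit L.W ψ y else 0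

noncomputable def run {V : Type} [Fintype V] [DecidableEq V] :
    List (Layer V) → Ket V → Ket V
  | [], ψ => ψ
  | L :: C, ψ => run C (L.act ψ)

def start {n : ℕ} {A : Type} (α : Ket A) (x : Fin n → Bool) : Ket (Fin n ⊕ A) :=
  fun z => if (fun i => z (Sum.inl i)) = x then α (fun a => z (Sum.inr a)) else 0

noncomputable def prob {n : ℕ} {A : Type} [Fintype A] [DecidableEq A]
    (C : List (Layer (Fin n ⊕ A))) (F : Fin n ⊕ A → Matrix Bool Bool ℂ)
    (o : Fin n ⊕ A) (α : Ket A) (x : Fin n → Bool) (r : Bool) : ℝ :=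
  ∑ z : Fin n ⊕ A → Bool, if z o = r then ‖oneQubit F (run C (start α x)) z‖ ^ 2 else 0

def par {n : ℕ} (x : Fin n → Bool) : Bool :=
  decide (Odd (Finset.univ.filter fun i => x i = true).card)

noncomputable def corr {n : ℕ} {A : Type} [Fintype A] [DecidableEq A]
    (C : List (Layer (Fin n ⊕ A))) (F : Fin n ⊕ A → Matrix Bool Bool ℂ)
    (o : Fin n ⊕ A) (α : Ket A) : ℝ :=
  (∑ x : Fin n → Bool, (prob C F o α x (par x) - prob C F o α x (!par x))) / 2 ^ n

def zeros (A : Type) [Fintype A] [DecidableEq A] : Ket A :=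
  fun z => if z = (fun _ => false) then 1 else 0

end P368
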