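import Vale.Agent.P368.Fin0

namespace P368.D3

open Matrix
open scoped BigOperators InnerProductSpace ComplexOrder Matrix.Norms.L2Operator

variable {V : Type} [Fintype V] [DecidableEq V]

/-- squared column norm -/
noncomputable def coln (B : M2) (x : Bool) : ℝ := ∑ b, ‖B b x‖ ^ 2

theorem coln_nonneg (B : M2) (x : Bool) : 0 ≤ coln B x := by
  unfold coln
  positivity

theorem coln_eq (B : M2) (x : Bool) : ((coln B x : ℝ) : ℂ) = (star B * B) x x := by
  unfold coln
  rw [Matrix.mul_apply]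
  push_cast
  apply Finset.sum_congr rfl
  intro b _
  rw [Matrix.star_apply, RCLike.star_def, mul_comm, Complex.mul_conj']

theorem conj_gram (g A W : M2) (hg : IsStarProjection g) (hA : A ∈ unitary M2) :
    star (A * g * star A * W) * (A * g * star A * W) = star (star A * W) * g * (star A * W) := by
  have h1 : star A * A = 1 := Unitary.star_mul_self_of_mem hA
  have h2 : g * g = g := hg.isIdempotentElem
  have h3 : star g = g := hg.isSelfAdjoint
  simp only [star_mul, star_star, h3]
  calc _ = star W * A * g * (star A * A) * g * star A * W := by noncomm_ring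
    _ = star W * A * (g * g) * star A * W := by rw [h1]; noncomm_ring
    _ = _ := by rw [h2]; noncomm_ring

theorem coln_sum (g A W : M2) (hg : IsStarProjection g) (hA : A ∈ unitary M2)
    (hW : W ∈ unitary M2) (ht : g.trace = 1) :
    coln (A * g * star A * W) true + coln (A * g * star A * W) false = 1 := by
  have h1 : ((coln (A * g * star A * W) true + coln (A * g * star A * W) false : ℝ) : ℂ) =
      (star (A * g * star A * W) * (A * g * star A * W)).trace := by
    push_cast
    rw [coln_eq, coln_eq, Matrix.trace, Fintype.sum_bool]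
    rfl
  rw [conj_gram g A W hg hA, Matrix.trace_mul_comm, ← mul_assoc] at h1
  have h2 : star A * W * star (star A * W) = 1 := by
    have h3 : star A * A = 1 := Unitary.star_mul_self_of_mem hA
    have h4 : W * star W = 1 := Unitary.mul_star_self_of_mem hW
    rw [star_mul, star_star]
    calc star A * W * (star W * A) = star A * (W * star W) * A := by noncomm_ring
      _ = 1 := by rw [h4, mul_one, h3]
  rw [h2, one_mul, ht] at h1
  exact_mod_cast h1

theorem coln_one (A W : M2) (hA : A ∈ unitary M2) (hW : W ∈ unitary M2) (x : Bool) :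
    coln (A * 1 * star A * W) x = 1 := by
  have h1 := coln_eq (A * 1 * star A * W) x
  have h3 : A * star A = 1 := Unitary.mul_star_self_of_mem hA
  have h4 : star W * W = 1 := Unitary.star_mul_self_of_mem hW
  rw [mul_one, h3, one_mul] at h1 ⊢
  rw [h4, Matrix.one_apply_eq] at h1
  exact_mod_cast h1

theorem norm_prod_col (B : V → M2) (x : V → Bool) :
    ‖act (prodOp B) (vec (Pi.single x 1))‖ ^ 2 = ∏ q, coln (B q) (x q) := by
  rw [top_act_vec, Matrix.mulVec_single_one]
  unfold vec
  rw [EuclideanSpace.norm_sq_eq]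
  have h : ∀ z : V → Bool, ‖(prodOp B).col x z‖ ^ 2 = ∏ q, ‖B q (z q) (x q)‖ ^ 2 := by
    intro z
    have : (prodOp B).col x z = ∏ q, B q (z q) (x q) := rfl
    rw [this, norm_prod, Finset.prod_pow]
  simp only [h]
  unfold coln
  rw [Finset.prod_univ_sum, Fintype.piFinset_univ]

omit [Fintype V] in
theorem avg_prod [Fintype V] (f : V → Bool → ℝ) (h0 : ∀ q b, 0 ≤ f q b) (h1 : ∀ q b, f q b ≤ 1)
    (T : Finset V) (hT : ∀ q ∈ T, f q true + f q false ≤ 1) (In : Finset V) :
    (1 / 2 ^ In.card : ℝ) * ∑ K ∈ In.powerset, ∏ q, f q (decide (q ∈ K)) ≤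
      (1 / 2) ^ (In.filter (fun q => q ∈ T)).card := by
  set h : V → Bool → ℝ := fun q b => if q ∈ In ∧ q ∈ T then f q b else 1 with hh
  have hle : ∀ K ∈ In.powerset, ∏ q, f q (decide (q ∈ K)) ≤ ∏ q ∈ In, h q (decide (q ∈ K)) := by
    intro K _
    calc ∏ q, f q (decide (q ∈ K)) ≤ ∏ q, h q (decide (q ∈ K)) := by
          apply Finset.prod_le_prod (fun q _ => h0 q _)
          intro q _
          simp only [hh]
          split_ifs
          · exact le_rfl
          · exact h1 _ _
      _ = ∏ q ∈ In, h q (decide (q ∈ K)) := by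
          symm
          apply Finset.prod_subset (Finset.subset_univ _)
          intro q _ hq
          simp [hh, hq]
  have hsum : ∑ K ∈ In.powerset, ∏ q ∈ In, h q (decide (q ∈ K)) =
      ∏ q ∈ In, (h q true + h q false) := by
    rw [Finset.prod_add]
    apply Finset.sum_congr rfl
    intro K hK
    rw [Finset.mem_powerset] at hK
    rw [← Finset.prod_sdiff hK, mul_comm]
    congr 1
    · apply Finset.prod_congr rfl
      intro q hq
      simp [hq]
    · apply Finset.prod_congr rfl
      intro q hq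
      rw [Finset.mem_sdiff] at hq
      simp [hq.2]
  calc (1 / 2 ^ In.card : ℝ) * ∑ K ∈ In.powerset, ∏ q, f q (decide (q ∈ K))
      ≤ (1 / 2 ^ In.card : ℝ) * ∑ K ∈ In.powerset, ∏ q ∈ In, h q (decide (q ∈ K)) :=
        mul_le_mul_of_nonneg_left (Finset.sum_le_sum hle) (by positivity)
    _ = ∏ q ∈ In, (1 / 2 * (h q true + h q false)) := by
        rw [hsum, Finset.prod_mul_distrib, Finset.prod_const, one_div, one_div, inv_pow]
    _ ≤ ∏ q ∈ In, (if q ∈ T then (1 / 2 : ℝ) else 1) := by
        apply Finset.prod_le_prod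
        · intro q _
          simp only [hh]
          split_ifs
          · have := h0 q true
            have := h0 q false
            positivity
          · norm_num
        · intro q hq
          simp only [hh]
          by_cases hqT : q ∈ T
          · rw [if_pos ⟨hq, hqT⟩, if_pos ⟨hq, hqT⟩, if_pos hqT]
            have := hT q hqT
            linarith
          · rw [if_neg (fun h => hqT h.2), if_neg (fun h => hqT h.2), if_neg hqT]
            norm_num
    _ = (1 / 2) ^ (In.filter (fun q => q ∈ T)).card := by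
        rw [Finset.prod_ite, Finset.prod_const, Finset.prod_const_one, mul_one]

theorem em_trace : em.trace = 1 := by
  rw [Matrix.trace, Fintype.sum_bool]
  simp [em, Matrix.diag]
  norm_num

theorem e1_trace : e1.trace = 1 := by
  rw [Matrix.trace, Fintype.sum_bool]
  simp [e1, Matrix.diag]

theorem norm_act (M : Op V) : ‖act M‖ = ‖M‖ := (Matrix.cstar_norm_def M).symm

theorem norm_act_apply_le (M : Op V) (hM : ‖M‖ ≤ 1) (v : HV V) : ‖act M v‖ ≤ ‖v‖ := by
  calc ‖act M v‖ ≤ ‖act M‖ * ‖v‖ := (act M).le_opNorm v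
    _ ≤ 1 * ‖v‖ := by
      apply mul_le_mul_of_nonneg_right _ (norm_nonneg v)
      rw [norm_act]; exact hM
    _ = ‖v‖ := one_mul _

theorem norm_prodOp_unitary (W : V → M2) (hW : ∀ q, W q ∈ unitary M2) : ‖prodOp W‖ ≤ 1 :=
  prodOp_norm_le W fun v => top_norm_unitary_le _ (hW v)

theorem norm_tof (c : V → Finset V) (hc : Good c) : ‖tof c‖ ≤ 1 := by
  have h : tof c ∈ unitary (Op V) := by
    rw [Unitary.mem_iff, hc.star_tof]
    exact ⟨hc.tof_mul_self, hc.tof_mul_self⟩
  exact (CStarRing.norm_of_mem_unitary h).le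

theorem norm_mul_le_one' {P Q : Op V} (hP : ‖P‖ ≤ 1) (hQ : ‖Q‖ ≤ 1) : ‖P * Q‖ ≤ 1 := by
  refine (norm_mul_le P Q).trans ?_
  have := norm_nonneg P
  have := norm_nonneg Q
  nlinarith

theorem norm_lay (W₁ : V → M2) (hW₁ : ∀ q, W₁ q ∈ unitary M2) (c : V → Finset V) (hc : Good c) :
    ‖lay W₁ c‖ ≤ 1 := by
  unfold lay
  refine norm_mul_le_one' (norm_mul_le_one' (norm_prodOp_unitary W₁ hW₁) (norm_tof c hc)) ?_
  rw [norm_star]
  exact norm_prodOp_unitary W₁ hW₁

theorem drop_norm_inpVec (W : V → M2) (hW : ∀ q, W q ∈ unitary M2) (K : Finset V) :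
    ‖inpVec W K‖ ≤ 1 := by
  unfold inpVec
  refine (norm_act_apply_le _ (norm_prodOp_unitary W hW) _).trans ?_
  unfold vec
  have h : ‖(WithLp.toLp 2 (Pi.single (fun q => decide (q ∈ K)) (1 : ℂ)) : HV V)‖ ^ 2 = 1 := by
    rw [EuclideanSpace.norm_sq_eq]
    rw [Finset.sum_eq_single (fun q => decide (q ∈ K))]
    · simp
    · intro b _ hb
      simp [Pi.single_eq_of_ne hb]
    · simp
  nlinarith [norm_nonneg (WithLp.toLp 2 (Pi.single (fun q => decide (q ∈ K)) (1 : ℂ)) : HV V)]

theorem drop_avg_sqrt_le {ι : Type*} (P : Finset ι) (c : ℝ) (hcP : c * P.card = 1)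
    (f : ι → ℝ) (hf : ∀ i, 0 ≤ f i) :
    c * ∑ i ∈ P, Real.sqrt (f i) ≤ Real.sqrt (c * ∑ i ∈ P, f i) := by
  refine Real.le_sqrt_of_sq_le ?_
  have h1 := Finset.sum_mul_sq_le_sq_mul_sq P (fun _ => (1 : ℝ)) (fun i => Real.sqrt (f i))
  have h2 : ∑ i ∈ P, Real.sqrt (f i) ^ 2 = ∑ i ∈ P, f i :=
    Finset.sum_congr rfl fun i _ => Real.sq_sqrt (hf i)
  simp only [one_mul, one_pow, Finset.sum_const, nsmul_eq_mul, mul_one, h2] at h1
  calc (c * ∑ i ∈ P, Real.sqrt (f i)) ^ 2 = c ^ 2 * (∑ i ∈ P, Real.sqrt (f i)) ^ 2 := by ring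
    _ ≤ c ^ 2 * (P.card * ∑ i ∈ P, f i) := by gcongr
    _ = c * (c * P.card) * ∑ i ∈ P, f i := by ring
    _ = c * ∑ i ∈ P, f i := by rw [hcP, mul_one]

/-- averaged norm of the gate projection on the input vectors -/
theorem drop_avg (cg : V → Finset V) (W₁ W : V → M2)
    (hW₁ : ∀ q, W₁ q ∈ unitary M2) (hW : ∀ q, W q ∈ unitary M2) (In : Finset V) (r : V) :
    (1 / 2 ^ In.card : ℝ) * ∑ K ∈ In.powerset,
      ‖act (prodOp W₁ * Ug cg r * star (prodOp W₁)) (inpVec W K)‖ ^ 2 ≤
      (1 / 2) ^ (In.filter (fun q => q ∈ gate cg r)).card := by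
  by_cases hne : (cg r).Nonempty
  · have hU : Ug cg r = prodOp (gfac cg r) := by simp [Ug, hne]
    have hg : gate cg r = insert r (cg r) := by simp [gate, hne]
    have hB : ∀ K : Finset V, ‖act (prodOp W₁ * Ug cg r * star (prodOp W₁)) (inpVec W K)‖ ^ 2 =
        ∏ q, coln (W₁ q * gfac cg r q * star (W₁ q) * W q) (decide (q ∈ K)) := by
      intro K
      unfold inpVec
      rw [← top_act_mul_apply, hU, prodOp_star, prodOp_mul, prodOp_mul, prodOp_mul, norm_prod_col]
    simp only [hB]
    have hsum : ∀ q ∈ gate cg r, coln (W₁ q * gfac cg r q * star (W₁ q) * W q) true +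
        coln (W₁ q * gfac cg r q * star (W₁ q) * W q) false = 1 := by
      intro q hq
      apply coln_sum _ _ _ (top_gfac_proj cg r q) (hW₁ q) (hW q)
      rw [hg, Finset.mem_insert] at hq
      unfold gfac
      by_cases h1 : q ∈ cg r
      · rw [if_pos h1, e1_trace]
      · rw [if_neg h1]
        rcases hq with h | h
        · rw [if_pos h, em_trace]
        · exact absurd h h1
    apply avg_prod (fun q b => coln (W₁ q * gfac cg r q * star (W₁ q) * W q) b)
      (fun q b => coln_nonneg _ _) _ (gate cg r) (fun q hq => (hsum q hq).le)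
    intro q b
    by_cases hq : q ∈ gate cg r
    · have h1 := hsum q hq
      have h2 := coln_nonneg (W₁ q * gfac cg r q * star (W₁ q) * W q) true
      have h3 := coln_nonneg (W₁ q * gfac cg r q * star (W₁ q) * W q) false
      cases b
      · linarith
      · linarith
    · have h1 : gfac cg r q = 1 := by
        rw [hg, Finset.mem_insert, not_or] at hq
        simp [gfac, hq.1, hq.2]
      rw [h1]
      exact (coln_one _ _ (hW₁ q) (hW q) b).le
  · have hU : Ug cg r = 0 := by simp [Ug, hne]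
    rw [hU]
    simp only [mul_zero, zero_mul, map_zero, _root_.zero_apply, norm_zero]
    norm_num

theorem drop_comm (cg : V → Finset V) (hcg : Good cg) (W₁ : V → M2)
    (hW₁ : ∀ q, W₁ q ∈ unitary M2) (r : V) :
    lay W₁ cg = lay W₁ (Function.update cg r ∅) -
      (2 : ℂ) • (lay W₁ (Function.update cg r ∅) * (prodOp W₁ * Ug cg r * star (prodOp W₁))) ∧
      Good (Function.update cg r ∅) := by
  classical
  have e1 : ∀ (inst : DecidablePred (· ∈ (insert r ({r}ᶜ : Set V)))),
      D3.res cg (insert r ({r}ᶜ : Set V)) = cg := by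
    intro inst
    funext v
    have : v ∈ insert r ({r}ᶜ : Set V) := by
      by_cases h : v = r
      · exact Or.inl h
      · exact Or.inr h
    simp only [D3.res, this, if_true]
  have e2 : ∀ (inst : DecidablePred (· ∈ ({r}ᶜ : Set V))),
      D3.res cg ({r}ᶜ : Set V) = Function.update cg r ∅ := by
    intro inst
    funext v
    by_cases h : v = r
    · subst h; simp [D3.res]
    · simp [D3.res, h]
  have h1 := hcg.tof_insert ({r}ᶜ : Set V) r (by simp)
  have hgood := hcg.res ({r}ᶜ : Set V)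
  have hmem := hcg.tof_mem ({r}ᶜ : Set V)
  rw [e2] at h1 hgood hmem
  rw [e1] at h1
  have h1' : tof cg = (1 - (2 : ℂ) • Ug cg r) * tof (Function.update cg r ∅) := h1
  refine ⟨?_, hgood⟩
  have hdis : Disjoint (gate cg r : Set V) {q | ∃ v ∈ ({r}ᶜ : Set V), q ∈ gate cg v} := by
    rw [Set.disjoint_left]
    rintro q hq ⟨v, hv, hqv⟩
    exact hv (hcg.gate_inj hqv hq)
  have hcomm : Commute (Ug cg r) (tof (Function.update cg r ∅)) :=
    locAlg_commute hdis (Ug_mem cg r) hmem
  have hP : star (prodOp W₁) * prodOp W₁ = 1 := by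
    rw [prodOp_star, prodOp_mul, ← prodOp_one]
    congr 1
    funext v
    exact Unitary.star_mul_self_of_mem (hW₁ v)
  unfold lay
  rw [h1']
  set P := prodOp W₁
  set T := tof (Function.update cg r ∅)
  set U := Ug cg r
  have e3 : P * T * star P * (P * U * star P) = P * (T * U) * star P := by
    calc P * T * star P * (P * U * star P) = P * T * (star P * P) * U * star P := by noncomm_ring
      _ = P * (T * U) * star P := by rw [hP]; noncomm_ring
  rw [e3, ← hcomm.eq]
  rw [sub_mul, one_mul, smul_mul_assoc, mul_sub, sub_mul, mul_smul_comm, smul_mul_assoc]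

/-- removing a first layer gate that contains many inputs -/
theorem drop_gate (cg : V → Finset V) (hcg : Good cg) (W₁ W : V → M2)
    (hW₁ : ∀ q, W₁ q ∈ unitary M2) (hW : ∀ q, W q ∈ unitary M2) (Ξ : Op V) (hΞ : ‖Ξ‖ ≤ 1)
    (In : Finset V) (r : V) :
    ‖sig W₁ W cg Ξ In - sig W₁ W (Function.update cg r ∅) Ξ In‖ ≤
      4 * Real.sqrt ((1 / 2) ^ (In.filter (fun q => q ∈ gate cg r)).card) := by
  obtain ⟨hlay, hgood⟩ := drop_comm cg hcg W₁ hW₁ r
  set R := lay W₁ cg with hR
  set R' := lay W₁ (Function.update cg r ∅) with hR'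
  set G := prodOp W₁ * Ug cg r * star (prodOp W₁) with hG
  have hRn : ‖R‖ ≤ 1 := norm_lay W₁ hW₁ cg hcg
  have hRn' : ‖R'‖ ≤ 1 := norm_lay W₁ hW₁ _ hgood
  have hdiff : ∀ v : HV V, ‖act R v - act R' v‖ ≤ 2 * ‖act G v‖ := by
    intro v
    have e1 : act R v - act R' v = -((2 : ℂ) • act R' (act G v)) := by
      rw [hlay, map_sub, map_smul, map_mul]
      simp
    rw [e1, norm_neg, norm_smul]
    have := norm_act_apply_le R' hRn' (act G v)
    norm_num
    exact this
  have hpt : ∀ v : HV V, ‖v‖ ≤ 1 → ‖⟪act R v, act Ξ (act R v)⟫_ℂ - ⟪act R' v, act Ξ (act R' v)⟫_ℂ‖ ≤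
      4 * ‖act G v‖ := by
    intro v hv
    have e1 : ⟪act R v, act Ξ (act R v)⟫_ℂ - ⟪act R' v, act Ξ (act R' v)⟫_ℂ =
        ⟪act R v - act R' v, act Ξ (act R v)⟫_ℂ + ⟪act R' v, act Ξ (act R v - act R' v)⟫_ℂ := by
      rw [inner_sub_left, map_sub, inner_sub_right]
      ring
    rw [e1]
    have h1 : ‖act R v‖ ≤ 1 := (norm_act_apply_le R hRn v).trans hv
    have h2 : ‖act R' v‖ ≤ 1 := (norm_act_apply_le R' hRn' v).trans hv
    have h3 : ‖act Ξ (act R v)‖ ≤ 1 := (norm_act_apply_le Ξ hΞ _).trans h1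
    have h4 : ‖act Ξ (act R v - act R' v)‖ ≤ ‖act R v - act R' v‖ := norm_act_apply_le Ξ hΞ _
    have h5 := hdiff v
    have h6 := norm_nonneg (act R v - act R' v)
    have h7 := norm_nonneg (act R' v)
    calc _ ≤ ‖⟪act R v - act R' v, act Ξ (act R v)⟫_ℂ‖ +
          ‖⟪act R' v, act Ξ (act R v - act R' v)⟫_ℂ‖ := norm_add_le _ _
      _ ≤ ‖act R v - act R' v‖ * ‖act Ξ (act R v)‖ +
          ‖act R' v‖ * ‖act Ξ (act R v - act R' v)‖ :=
          add_le_add (norm_inner_le_norm _ _) (norm_inner_le_norm _ _)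
      _ ≤ ‖act R v - act R' v‖ * 1 + 1 * ‖act R v - act R' v‖ := by
          apply add_le_add
          · exact mul_le_mul_of_nonneg_left h3 h6
          · exact mul_le_mul h2 h4 (norm_nonneg _) zero_le_one
      _ ≤ 4 * ‖act G v‖ := by linarith
  have e2 : sig W₁ W cg Ξ In - sig W₁ W (Function.update cg r ∅) Ξ In =
      (1 / 2 ^ In.card : ℂ) * ∑ K ∈ In.powerset, (-1 : ℂ) ^ K.card *
        (⟪act R (inpVec W K), act Ξ (act R (inpVec W K))⟫_ℂ -
          ⟪act R' (inpVec W K), act Ξ (act R' (inpVec W K))⟫_ℂ) := by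
    unfold sig
    rw [← mul_sub, ← Finset.sum_sub_distrib]
    congr 1
    apply Finset.sum_congr rfl
    intro K _
    rw [mul_sub]
  have e3 : ‖(1 / 2 ^ In.card : ℂ)‖ = (1 / 2 ^ In.card : ℝ) := by
    rw [norm_div, norm_one, norm_pow]
    norm_num
  rw [e2, norm_mul, e3]
  have hcP : (1 / 2 ^ In.card : ℝ) * (In.powerset.card : ℝ) = 1 := by
    rw [Finset.card_powerset]
    push_cast
    field_simp
  calc (1 / 2 ^ In.card : ℝ) * ‖∑ K ∈ In.powerset, (-1 : ℂ) ^ K.card *
        (⟪act R (inpVec W K), act Ξ (act R (inpVec W K))⟫_ℂ -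
          ⟪act R' (inpVec W K), act Ξ (act R' (inpVec W K))⟫_ℂ)‖
      ≤ (1 / 2 ^ In.card : ℝ) * ∑ K ∈ In.powerset, 4 * Real.sqrt (‖act G (inpVec W K)‖ ^ 2) := by
        apply mul_le_mul_of_nonneg_left _ (by positivity)
        refine (norm_sum_le _ _).trans (Finset.sum_le_sum ?_)
        intro K _
        rw [norm_mul, norm_pow, norm_neg, norm_one, one_pow, one_mul,
          Real.sqrt_sq (norm_nonneg _)]
        exact hpt _ (drop_norm_inpVec W hW K)
    _ = 4 * ((1 / 2 ^ In.card : ℝ) * ∑ K ∈ In.powerset,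
          Real.sqrt (‖act G (inpVec W K)‖ ^ 2)) := by
        rw [← Finset.mul_sum]; ring
    _ ≤ 4 * Real.sqrt ((1 / 2 ^ In.card : ℝ) * ∑ K ∈ In.powerset,
          ‖act G (inpVec W K)‖ ^ 2) := by
        apply mul_le_mul_of_nonneg_left _ (by norm_num)
        exact drop_avg_sqrt_le _ _ hcP (fun K => ‖act G (inpVec W K)‖ ^ 2)
          (fun K => by positivity)
    _ ≤ _ := by
        apply mul_le_mul_of_nonneg_left _ (by norm_num)
        exact Real.sqrt_le_sqrt (drop_avg cg W₁ W hW₁ hW In r)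

end P368.D3
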