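import Vale.Agent.P368.Ops

namespace P368.D3

open Matrix
open scoped BigOperators Matrix.Norms.L2Operator

/-- product of two projections up to a factor in `[0,1]` -/
def EF (A : M2) : Prop :=
  ∃ (t : ℝ) (E F : M2), 0 ≤ t ∧ t ≤ 1 ∧ IsStarProjection E ∧ IsStarProjection F ∧
    A = (t : ℂ) • (E * F)

theorem EF.mul_proj {E F : M2} (hE : IsStarProjection E) (hF : IsStarProjection F) :
    EF (E * F) := ⟨1, E, F, zero_le_one, le_rfl, hE, hF, by simp⟩

theorem EF.proj {E : M2} (hE : IsStarProjection E) : EF E :=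
  ⟨1, E, E, zero_le_one, le_rfl, hE, hE, by rw [hE.isIdempotentElem]; simp⟩

theorem EF.one' : EF (1 : M2) := EF.proj (.one _)

theorem ef_norm_proj {E : M2} (hE : IsStarProjection E) : ‖E‖ ≤ 1 := by
  have h1 : ‖E‖ * ‖E‖ = ‖E‖ := by
    rw [← CStarRing.norm_star_mul_self (x := E)]
    have h2 : star E = E := hE.isSelfAdjoint
    have h3 : E * E = E := hE.isIdempotentElem
    rw [h2, h3]
  by_contra h
  push Not at h
  nlinarith

theorem ef_proj_diag {E : M2} (hE : IsStarProjection E) (b : Bool) :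
    ∃ t : ℝ, 0 ≤ t ∧ t ≤ 1 ∧ E b b = (t : ℂ) := by
  have h2 : star E = E := hE.isSelfAdjoint
  have h3 : E * E = E := hE.isIdempotentElem
  have e1 : E b b = ((∑ k, ‖E k b‖ ^ 2 : ℝ) : ℂ) := by
    have h4 : (star E * E) b b = E b b := by rw [h2, h3]
    rw [← h4, Matrix.mul_apply]
    push_cast
    refine Finset.sum_congr rfl fun k _ => ?_
    rw [Matrix.star_apply, ← Complex.conj_mul']
    rfl
  refine ⟨∑ k, ‖E k b‖ ^ 2, Finset.sum_nonneg fun _ _ => sq_nonneg _, ?_, e1⟩
  have h5 : ‖E b b‖ = ∑ k, ‖E k b‖ ^ 2 := by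
    rw [e1, Complex.norm_real, Real.norm_of_nonneg (Finset.sum_nonneg fun _ _ => sq_nonneg _)]
  have h6 : ‖E b b‖ ^ 2 ≤ ∑ k, ‖E k b‖ ^ 2 :=
    Finset.single_le_sum (f := fun k => ‖E k b‖ ^ 2) (fun k _ => sq_nonneg _) (Finset.mem_univ b)
  rw [← h5] at h6 ⊢
  have h7 := norm_nonneg (E b b)
  nlinarith

theorem ef_e1 {E : M2} (hE : IsStarProjection E) : EF (e1 * E * e1) := by
  obtain ⟨t, h0, h1, ht⟩ := ef_proj_diag hE true
  refine ⟨t, e1, e1, h0, h1, e1_proj, e1_proj, ?_⟩
  rw [← ht]
  ext a b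
  simp only [e1, Matrix.mul_apply, Matrix.of_apply, Matrix.smul_apply, Fintype.sum_bool,
    smul_eq_mul]
  cases a <;> cases b <;> simp

theorem ef_em {E : M2} (hE : IsStarProjection E) : EF (em * E * em) := by
  -- `em = u u^*` with `u` a unit vector; rotate to a diagonal entry
  have h2 : star E = E := hE.isSelfAdjoint
  have h3 : E * E = E := hE.isIdempotentElem
  -- coefficient
  set z : ℂ := 1 / 2 * (E true true - E true false - E false true + E false false) with hz
  have e0 : em * E * em = z • em := by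
    ext a b
    simp only [em, Matrix.mul_apply, Matrix.of_apply, Matrix.smul_apply, Fintype.sum_bool,
      smul_eq_mul, hz]
    cases a <;> cases b <;> simp <;> ring
  -- `z` is the sum of squares
  set S : ℝ := ∑ k, ‖E k true - E k false‖ ^ 2 / 2 with hS
  have hzS : z = (S : ℂ) := by
    have h4 : ∀ a b, E a b = ∑ k, star (E k a) * E k b := by
      intro a b
      have h5 : (star E * E) a b = E a b := by rw [h2, h3]
      rw [← h5, Matrix.mul_apply]
      rfl
    rw [hz, h4 true true, h4 true false, h4 false true, h4 false false, hS]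
    push_cast
    have h6 : ∀ k, ((‖E k true - E k false‖ : ℂ)) ^ 2 =
        star (E k true - E k false) * (E k true - E k false) := by
      intro k
      rw [← Complex.conj_mul']
      rfl
    simp only [h6, Fintype.sum_bool, star_sub]
    ring
  have hS0 : 0 ≤ S := Finset.sum_nonneg fun _ _ => by positivity
  have hS1 : S ≤ 1 := by
    have h7 : ‖em * E * em‖ ≤ 1 := by
      refine (norm_mul_le _ _).trans (mul_le_one₀ ?_ (norm_nonneg _) (ef_norm_proj em_proj))
      exact (norm_mul_le _ _).trans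
        (mul_le_one₀ (ef_norm_proj em_proj) (norm_nonneg _) (ef_norm_proj hE))
    have h8 : ‖em‖ = 1 := by
      have h9 : ‖em‖ * ‖em‖ = ‖em‖ := by
        rw [← CStarRing.norm_star_mul_self (x := em)]
        have h10 : star em = em := em_proj.isSelfAdjoint
        have h11 : em * em = em := em_proj.isIdempotentElem
        rw [h10, h11]
      have h12 : ‖em‖ ≠ 0 := by
        rw [norm_ne_zero_iff]
        intro h0
        have := congrFun (congrFun h0 true) true
        simp [em] at this
      exact mul_right_cancel₀ h12 (by rw [h9, one_mul])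
    rw [e0, norm_smul, h8, mul_one, hzS, Complex.norm_real, Real.norm_of_nonneg hS0] at h7
    exact h7
  refine ⟨S, em, em, hS0, hS1, em_proj, em_proj, ?_⟩
  rw [e0, hzS]
  congr 1
  exact em_proj.isIdempotentElem.symm

variable {V : Type} [Fintype V] [DecidableEq V]

theorem gfac_cases (c : V → Finset V) (v q : V) :
    gfac c v q = e1 ∨ gfac c v q = em ∨ gfac c v q = 1 := by
  unfold gfac
  split_ifs
  · exact Or.inl rfl
  · exact Or.inr (Or.inl rfl)
  · exact Or.inr (Or.inr rfl)

theorem ef_gfac_proj (c : V → Finset V) (v q : V) : IsStarProjection (gfac c v q) := by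
  rcases gfac_cases c v q with h | h | h <;> rw [h]
  · exact e1_proj
  · exact em_proj
  · exact .one _

theorem ef_sand (c : V → Finset V) (v q : V) {E : M2} (hE : IsStarProjection E) :
    EF (gfac c v q * E * gfac c v q) := by
  rcases gfac_cases c v q with h | h | h <;> rw [h]
  · exact ef_e1 hE
  · exact ef_em hE
  · rw [one_mul, mul_one]
    exact EF.proj hE

/-- one region -/
theorem Good.regOp_one {c : V → Finset V} (hc : Good c) (Θ : V → M2) (o : V)
    (hΘ : ∀ q, q ≠ o → IsStarProjection (Θ q)) (ho : ‖Θ o‖ ≤ 1) (r : V) :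
    ∃ (w : Fin 4 → ℂ) (Ψ : Fin 4 → V → M2),
      ∑ i, ‖w i‖ ≤ 9 ∧ (∀ i q, rep c q ≠ r → Ψ i q = 1) ∧
      (∀ i q, q ≠ o → EF (Ψ i q)) ∧ (∀ i, ‖Ψ i o‖ ≤ 1) ∧
      regOp c Θ {r} = ∑ i, w i • prodOp (Ψ i) := by
  classical
  set B : V → M2 := fun q => if rep c q = r then Θ q else 1 with hB
  have hn1 : ‖(1 : M2)‖ ≤ 1 := (CStarRing.norm_of_mem_unitary (one_mem _)).le
  have hBp : ∀ q, q ≠ o → IsStarProjection (B q) := by
    intro q hq
    simp only [hB]
    split_ifs
    · exact hΘ q hq
    · exact .one _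
  have hBo : ‖B o‖ ≤ 1 := by
    simp only [hB]
    split_ifs
    · exact ho
    · exact hn1
  have hreg : regOp c Θ {r} = (1 - (2 : ℂ) • Ug c r) * prodOp B * (1 - (2 : ℂ) • Ug c r) := by
    have hBB : (fun q => if rep c q ∈ ({r} : Set V) then Θ q else 1) = B := by
      funext q
      simp only [hB, Set.mem_singleton_iff]
    rw [← tof_singleton hc r, ← hBB]
    exact regOp_eq c Θ {r} _
  by_cases hr : (c r).Nonempty
  · have hU : Ug c r = prodOp (gfac c r) := by
      unfold Ug
      rw [if_pos hr]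
    set g := gfac c r with hg
    have hg1 : ∀ q, rep c q ≠ r → g q = 1 := by
      intro q hq
      have hq' : q ∉ gate c r := fun h => hq (hc.rep_eq h)
      unfold gate at hq'
      rw [if_pos hr, Finset.mem_insert, not_or] at hq'
      simp only [hg, gfac]
      rw [if_neg hq'.2, if_neg hq'.1]
    have hB1 : ∀ q, rep c q ≠ r → B q = 1 := fun q hq => by simp only [hB, if_neg hq]
    have hgp : ∀ q, IsStarProjection (g q) := fun q => ef_gfac_proj c r q
    refine ⟨![1, -2, -2, 4], ![B, fun q => g q * B q, fun q => B q * g q,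
      fun q => g q * B q * g q], ?_, ?_, ?_, ?_, ?_⟩
    · simp [Fin.sum_univ_four]
      norm_num
    · intro i q hq
      fin_cases i
      · exact hB1 q hq
      · show g q * B q = 1
        rw [hg1 q hq, hB1 q hq, one_mul]
      · show B q * g q = 1
        rw [hg1 q hq, hB1 q hq, one_mul]
      · show g q * B q * g q = 1
        rw [hg1 q hq, hB1 q hq, one_mul, one_mul]
    · intro i q hq
      fin_cases i
      · exact EF.proj (hBp q hq)
      · exact EF.mul_proj (hgp q) (hBp q hq)
      · exact EF.mul_proj (hBp q hq) (hgp q)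
      · exact ef_sand c r q (hBp q hq)
    · intro i
      have hgo : ‖g o‖ ≤ 1 := ef_norm_proj (hgp o)
      fin_cases i
      · exact hBo
      · exact (norm_mul_le _ _).trans (mul_le_one₀ hgo (norm_nonneg _) hBo)
      · exact (norm_mul_le _ _).trans (mul_le_one₀ hBo (norm_nonneg _) hgo)
      · exact (norm_mul_le _ _).trans (mul_le_one₀ ((norm_mul_le _ _).trans
          (mul_le_one₀ hgo (norm_nonneg _) hBo)) (norm_nonneg _) hgo)
    · rw [hreg, hU, Fin.sum_univ_four]
      show _ = (1 : ℂ) • prodOp B + (-2 : ℂ) • prodOp (fun q => g q * B q) +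
        (-2 : ℂ) • prodOp (fun q => B q * g q) + (4 : ℂ) • prodOp (fun q => g q * B q * g q)
      rw [← prodOp_mul g B, ← prodOp_mul B g, ← prodOp_mul (fun q => g q * B q) g,
        ← prodOp_mul g B, one_smul]
      simp only [sub_mul, mul_sub, one_mul, mul_one, smul_mul_assoc, mul_smul_comm]
      module
  · have hU : Ug c r = 0 := by
      unfold Ug
      rw [if_neg hr]
    refine ⟨![1, 0, 0, 0], fun _ => B, ?_, ?_, ?_, ?_, ?_⟩
    · simp [Fin.sum_univ_four]
    · intro i q hq
      simp only [hB, if_neg hq]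
    · intro i q hq
      exact EF.proj (hBp q hq)
    · intro i
      exact hBo
    · rw [hreg, hU, Fin.sum_univ_four]
      simp

/-- expanding the regions with representatives in the finite set `R₀` -/
theorem Good.regOp_expand {c : V → Finset V} (hc : Good c) (Θ : V → M2) (o : V)
    (hΘ : ∀ q, q ≠ o → IsStarProjection (Θ q)) (ho : ‖Θ o‖ ≤ 1) (R₀ : Finset V) :
    ∃ (N : ℕ) (w : Fin N → ℂ) (Ψ : Fin N → V → M2),
      ∑ i, ‖w i‖ ≤ 9 ^ R₀.card ∧
      (∀ i q, rep c q ∉ R₀ → Ψ i q = 1) ∧
      (∀ i q, q ≠ o → EF (Ψ i q)) ∧ (∀ i, ‖Ψ i o‖ ≤ 1) ∧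
      regOp c Θ (R₀ : Set V) = ∑ i, w i • prodOp (Ψ i) := by
  have hn1 : ‖(1 : M2)‖ ≤ 1 := (CStarRing.norm_of_mem_unitary (one_mem _)).le
  induction R₀ using Finset.induction_on with
  | empty =>
    refine ⟨1, fun _ => 1, fun _ _ => 1, by simp, fun _ _ _ => rfl, fun _ _ _ => EF.one',
      fun _ => hn1, ?_⟩
    rw [Finset.coe_empty, hc.regOp_empty]
    simp [prodOp_one]
  | insert r R hr ih =>
    obtain ⟨N, w, Ψ, hw, h1, h2, h3, h4⟩ := ih
    obtain ⟨w', Ψ', hw', h1', h2', h3', h4'⟩ := hc.regOp_one Θ o hΘ ho r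
    have hprod : ∀ (i : Fin 4) (j : Fin N), (∀ q, Ψ' i q * Ψ j q = Ψ' i q ∨
        Ψ' i q * Ψ j q = Ψ j q) := by
      intro i j q
      by_cases hq : rep c q = r
      · left
        rw [h1 j q (hq ▸ hr), mul_one]
      · right
        rw [h1' i q hq, one_mul]
    refine ⟨4 * N, fun k => w' (finProdFinEquiv.symm k).1 * w (finProdFinEquiv.symm k).2,
      fun k q => Ψ' (finProdFinEquiv.symm k).1 q * Ψ (finProdFinEquiv.symm k).2 q,
      ?_, ?_, ?_, ?_, ?_⟩
    · have e1 : ∑ k : Fin (4 * N), ‖w' (finProdFinEquiv.symm k).1 *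
          w (finProdFinEquiv.symm k).2‖ = ∑ x : Fin 4 × Fin N, ‖w' x.1 * w x.2‖ :=
        Equiv.sum_comp finProdFinEquiv.symm (fun x : Fin 4 × Fin N => ‖w' x.1 * w x.2‖)
      rw [e1, Fintype.sum_prod_type]
      simp only [norm_mul, ← Finset.mul_sum]
      rw [← Finset.sum_mul, Finset.card_insert_of_notMem hr, pow_succ, mul_comm]
      gcongr
    · intro k q hq
      rw [Finset.mem_insert, not_or] at hq
      simp only
      rw [h1' _ q hq.1, h1 _ q hq.2, one_mul]
    · intro k q hq
      simp only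
      rcases hprod (finProdFinEquiv.symm k).1 (finProdFinEquiv.symm k).2 q with h | h
      · rw [h]
        exact h2' _ q hq
      · rw [h]
        exact h2 _ q hq
    · intro k
      simp only
      rcases hprod (finProdFinEquiv.symm k).1 (finProdFinEquiv.symm k).2 o with h | h
      · rw [h]
        exact h3' _
      · rw [h]
        exact h3 _
    · have e2 : ((insert r R : Finset V) : Set V) = {r} ∪ (R : Set V) := by
        rw [Finset.coe_insert, Set.insert_eq]
      rw [e2, hc.regOp_union Θ {r} R (Set.disjoint_singleton_left.mpr (by simpa using hr)), h4,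
        h4', Finset.sum_mul_sum]
      have e3 : ∑ k : Fin (4 * N), (w' (finProdFinEquiv.symm k).1 *
          w (finProdFinEquiv.symm k).2) • prodOp (fun q =>
            Ψ' (finProdFinEquiv.symm k).1 q * Ψ (finProdFinEquiv.symm k).2 q) =
          ∑ x : Fin 4 × Fin N, (w' x.1 * w x.2) • prodOp (fun q => Ψ' x.1 q * Ψ x.2 q) :=
        Equiv.sum_comp finProdFinEquiv.symm (fun x : Fin 4 × Fin N =>
          (w' x.1 * w x.2) • prodOp (fun q => Ψ' x.1 q * Ψ x.2 q))
      rw [e3, Fintype.sum_prod_type]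
      refine Finset.sum_congr rfl fun i _ => Finset.sum_congr rfl fun j _ => ?_
      rw [smul_mul_smul_comm, prodOp_mul]

end P368.D3
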