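import Vale.Agent.P368.Peel

namespace P368.D3

open Matrix
open scoped BigOperators InnerProductSpace ComplexOrder

theorem avg_sqrt_le {ι : Type*} (P : Finset ι) (c : ℝ) (hc : 0 ≤ c) (hcP : c * P.card = 1)
    (f : ι → ℝ) (hf : ∀ i, 0 ≤ f i) :
    c * ∑ i ∈ P, Real.sqrt (f i) ≤ Real.sqrt (c * ∑ i ∈ P, f i) := by
  refine Real.le_sqrt_of_sq_le ?_
  have h1 := Finset.sum_mul_sq_le_sq_mul_sq P (fun _ => (1 : ℝ)) (fun i => Real.sqrt (f i))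
  have h2 : ∑ i ∈ P, Real.sqrt (f i) ^ 2 = ∑ i ∈ P, f i :=
    Finset.sum_congr rfl fun i _ => Real.sq_sqrt (hf i)
  simp only [one_mul, one_pow, Finset.sum_const, nsmul_eq_mul, mul_one, h2] at h1
  calc (c * ∑ i ∈ P, Real.sqrt (f i)) ^ 2 = c ^ 2 * (∑ i ∈ P, Real.sqrt (f i)) ^ 2 := by ring
    _ ≤ c ^ 2 * (P.card * ∑ i ∈ P, f i) := by gcongr
    _ = c * (c * P.card) * ∑ i ∈ P, f i := by ring
    _ = c * ∑ i ∈ P, f i := by rw [hcP, mul_one]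

theorem avg_const_le {ι : Type*} (P : Finset ι) (c : ℝ) (hc : 0 ≤ c) (hcP : c * P.card = 1)
    (f : ι → ℝ) (M : ℝ) (hf : ∀ i ∈ P, f i ≤ M) : c * ∑ i ∈ P, f i ≤ M := by
  calc c * ∑ i ∈ P, f i ≤ c * ∑ i ∈ P, M := by
        gcongr with i hi
        exact hf i hi
    _ = (c * P.card) * M := by rw [Finset.sum_const, nsmul_eq_mul]; ring
    _ = M := by rw [hcP, one_mul]

namespace Sys

variable {V β : Type} [Fintype V] [DecidableEq V] [DecidableEq β] (s : Sys V β)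

theorem peel_step (τ W ζ g : ℝ) (hτ0 : 0 ≤ τ) (hτ : τ ≤ 1 / 4) (hW0 : 0 ≤ W) (J : Finset β)
    (hJ : J.Nonempty) (hW : ∀ h ∈ J, ∑ j ∈ Finset.range s.m, s.wt j h ≤ W)
    (hζ : ∀ h ∈ J,
      ∑ j ∈ (Finset.range s.m).filter (fun j => τ < s.wt j h), s.wt j h ≤ ζ)
    (hg0 : 0 ≤ g)
    (hg : ∀ h ∈ J, ∀ a b, s.Dom (J.erase h) a → s.Dom (J.erase h) b →
      ‖s.Gam (J.erase h) b a‖ ≤ g * ‖b‖ * ‖a‖)
    (a b : HV V) (ha : s.Dom J a) (hb : s.Dom J b) :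
    ‖s.Gam J b a‖ ≤ ((7 / 8 + 4 * Real.sqrt ζ) * g + 8 * (4 * (1 + W) * Real.exp W) *
      (2 * Real.sqrt (16 / (3 * J.card)) + Real.sqrt τ * (4 * Real.sqrt (W * J.card) + 1))) *
      ‖b‖ * ‖a‖ := by
  have hk : (0 : ℝ) < J.card := by exact_mod_cast hJ.card_pos
  set ch := fun h : {x // x ∈ J} => s.chain τ W hτ0 hτ J h.1 h.2 (hW h.1 h.2) with hch
  set F : HV V → {x // x ∈ J} → ℝ := fun v h => (1 / 2 ^ (J.card - 1) : ℝ) *
    ∑ I ∈ (J.erase h.1).powerset, (ch h).Cr (s.CC (J.erase h.1) I v) with hF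
  have hCr0 : ∀ h v, 0 ≤ (ch h).Cr v := fun h v => Finset.sum_nonneg fun _ _ => sq_nonneg _
  have hF0 : ∀ v h, 0 ≤ F v h := fun v h =>
    mul_nonneg (by positivity) (Finset.sum_nonneg fun I _ => hCr0 h _)
  have hsa : ∑ h ∈ J.attach, F a h ≤ 8 / 3 * ‖a‖ ^ 2 := s.Cr_average τ W hτ0 hτ J hW a ha
  have hsb : ∑ h ∈ J.attach, F b h ≤ 8 / 3 * ‖b‖ ^ 2 := s.Cr_average τ W hτ0 hτ J hW b hb
  -- a good block
  obtain ⟨h, -, hgood⟩ : ∃ h ∈ J.attach, F a h * ‖b‖ ^ 2 + F b h * ‖a‖ ^ 2 ≤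
      16 / (3 * J.card) * (‖b‖ ^ 2 * ‖a‖ ^ 2) := by
    by_contra hcon
    push Not at hcon
    have hne : J.attach.Nonempty := by
      obtain ⟨x, hx⟩ := hJ
      exact ⟨⟨x, hx⟩, Finset.mem_attach _ _⟩
    have h1 := Finset.sum_lt_sum_of_nonempty hne hcon
    rw [Finset.sum_const, Finset.card_attach, nsmul_eq_mul, Finset.sum_add_distrib,
      ← Finset.sum_mul, ← Finset.sum_mul] at h1
    have h2 : (J.card : ℝ) * (16 / (3 * J.card) * (‖b‖ ^ 2 * ‖a‖ ^ 2)) =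
        16 / 3 * (‖b‖ ^ 2 * ‖a‖ ^ 2) := by
      field_simp
    rw [h2] at h1
    have h3 : (∑ h ∈ J.attach, F a h) * ‖b‖ ^ 2 ≤ 8 / 3 * ‖a‖ ^ 2 * ‖b‖ ^ 2 := by gcongr
    have h4 : (∑ h ∈ J.attach, F b h) * ‖a‖ ^ 2 ≤ 8 / 3 * ‖b‖ ^ 2 * ‖a‖ ^ 2 := by gcongr
    linarith
  have hcard : (J.erase h.1).card = J.card - 1 := Finset.card_erase_of_mem h.2
  have hcP : (1 / 2 ^ (J.card - 1) : ℝ) * ((J.erase h.1).powerset.card : ℝ) = 1 := by
    rw [Finset.card_powerset, hcard]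
    push_cast
    field_simp
  have hc0 : (0 : ℝ) ≤ 1 / 2 ^ (J.card - 1) := by positivity
  refine (s.peel_h τ W hτ0 hτ J h.1 h.2 (hW h.1 h.2) ζ g (hζ h.1 h.2) hg0 (hg h.1 h.2) a b ha
    hb).trans ?_
  rw [hcard]
  set K : ℝ := 4 * (1 + W) * Real.exp W with hK
  have hK0 : 0 ≤ K := by positivity
  have hnC : ∀ I v, ‖s.CC (J.erase h.1) I v‖ = ‖v‖ := fun I v => s.norm_CC _ I v
  set E := fun I => (ch h).Err (s.CC (J.erase h.1) I b) (s.CC (J.erase h.1) I a) with hE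
  have hKa : ∀ I v, s.Dom J v → Real.sqrt ((ch h).Ka (s.CC (J.erase h.1) I v)) ≤
      2 * Real.sqrt (W * J.card) * ‖v‖ := by
    intro I v hv
    have h1 := s.Ka_bound τ W hτ0 hτ J hW h.1 h.2 I v hv
    have h2 : 4 * W * J.card * ‖v‖ ^ 2 = (2 * Real.sqrt (W * J.card) * ‖v‖) ^ 2 := by
      rw [mul_pow, mul_pow, Real.sq_sqrt (by positivity)]
      ring
    rw [h2] at h1
    exact Real.sqrt_le_iff.2 ⟨by positivity, h1⟩
  have hEI : ∀ I, E I ≤ K * (Real.sqrt ((ch h).Cr (s.CC (J.erase h.1) I b)) * ‖a‖ +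
      Real.sqrt ((ch h).Cr (s.CC (J.erase h.1) I a)) * ‖b‖ +
      Real.sqrt τ * (4 * Real.sqrt (W * J.card) + 1) * ‖b‖ * ‖a‖) := by
    intro I
    have e1 : E I = K * (Real.sqrt ((ch h).Cr (s.CC (J.erase h.1) I b)) * ‖a‖ +
      Real.sqrt ((ch h).Cr (s.CC (J.erase h.1) I a)) * ‖b‖ +
      Real.sqrt τ * (Real.sqrt ((ch h).Ka (s.CC (J.erase h.1) I a)) * ‖b‖ +
        Real.sqrt ((ch h).Ka (s.CC (J.erase h.1) I b)) * ‖a‖ + ‖a‖ * ‖b‖)) := by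
      simp only [hE, Chain.Err, hnC]
      rfl
    rw [e1]
    have h1 := hKa I a ha
    have h2 := hKa I b hb
    have h3 : Real.sqrt ((ch h).Ka (s.CC (J.erase h.1) I a)) * ‖b‖ +
        Real.sqrt ((ch h).Ka (s.CC (J.erase h.1) I b)) * ‖a‖ + ‖a‖ * ‖b‖ ≤
        (4 * Real.sqrt (W * J.card) + 1) * ‖b‖ * ‖a‖ := by
      have h4 : Real.sqrt ((ch h).Ka (s.CC (J.erase h.1) I a)) * ‖b‖ ≤
          2 * Real.sqrt (W * J.card) * ‖a‖ * ‖b‖ := by gcongr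
      have h5 : Real.sqrt ((ch h).Ka (s.CC (J.erase h.1) I b)) * ‖a‖ ≤
          2 * Real.sqrt (W * J.card) * ‖b‖ * ‖a‖ := by gcongr
      nlinarith
    have h6 : Real.sqrt τ * (Real.sqrt ((ch h).Ka (s.CC (J.erase h.1) I a)) * ‖b‖ +
        Real.sqrt ((ch h).Ka (s.CC (J.erase h.1) I b)) * ‖a‖ + ‖a‖ * ‖b‖) ≤
        Real.sqrt τ * (4 * Real.sqrt (W * J.card) + 1) * ‖b‖ * ‖a‖ := by
      calc _ ≤ Real.sqrt τ * ((4 * Real.sqrt (W * J.card) + 1) * ‖b‖ * ‖a‖) := by gcongr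
        _ = _ := by ring
    gcongr
  have hroot : ∀ x y : ℝ, 0 ≤ x → x * y ^ 2 ≤ 16 / (3 * J.card) * (‖b‖ ^ 2 * ‖a‖ ^ 2) → 0 ≤ y →
      Real.sqrt x * y ≤ Real.sqrt (16 / (3 * J.card)) * (‖b‖ * ‖a‖) := by
    intro x y hx hxy hy
    refine le_of_sq_le_sq ?_ (by positivity)
    rw [mul_pow, mul_pow, Real.sq_sqrt hx, Real.sq_sqrt (by positivity), mul_pow]
    exact hxy
  have hFa := hF0 a h
  have hFb := hF0 b h
  have r1 : Real.sqrt (F a h) * ‖b‖ ≤ Real.sqrt (16 / (3 * J.card)) * (‖b‖ * ‖a‖) :=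
    hroot _ _ hFa (by nlinarith [mul_nonneg hFb (sq_nonneg ‖a‖)]) (norm_nonneg _)
  have r2 : Real.sqrt (F b h) * ‖a‖ ≤ Real.sqrt (16 / (3 * J.card)) * (‖b‖ * ‖a‖) :=
    hroot _ _ hFb (by nlinarith [mul_nonneg hFa (sq_nonneg ‖b‖)]) (norm_nonneg _)
  have j1 := avg_sqrt_le (J.erase h.1).powerset _ hc0 hcP
    (fun I => (ch h).Cr (s.CC (J.erase h.1) I a)) (fun I => hCr0 h _)
  have j2 := avg_sqrt_le (J.erase h.1).powerset _ hc0 hcP
    (fun I => (ch h).Cr (s.CC (J.erase h.1) I b)) (fun I => hCr0 h _)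
  have hsum : (1 / 2 ^ (J.card - 1) : ℝ) * ∑ I ∈ (J.erase h.1).powerset, 8 * E I ≤
      8 * K * (2 * Real.sqrt (16 / (3 * J.card)) +
        Real.sqrt τ * (4 * Real.sqrt (W * J.card) + 1)) * ‖b‖ * ‖a‖ := by
    calc (1 / 2 ^ (J.card - 1) : ℝ) * ∑ I ∈ (J.erase h.1).powerset, 8 * E I
        ≤ (1 / 2 ^ (J.card - 1) : ℝ) * ∑ I ∈ (J.erase h.1).powerset,
          8 * (K * (Real.sqrt ((ch h).Cr (s.CC (J.erase h.1) I b)) * ‖a‖ +
      Real.sqrt ((ch h).Cr (s.CC (J.erase h.1) I a)) * ‖b‖ +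
      Real.sqrt τ * (4 * Real.sqrt (W * J.card) + 1) * ‖b‖ * ‖a‖)) := by
          gcongr with I _
          exact hEI I
      _ = 8 * K * (((1 / 2 ^ (J.card - 1) : ℝ) * ∑ I ∈ (J.erase h.1).powerset,
            Real.sqrt ((ch h).Cr (s.CC (J.erase h.1) I b))) * ‖a‖ +
          ((1 / 2 ^ (J.card - 1) : ℝ) * ∑ I ∈ (J.erase h.1).powerset,
            Real.sqrt ((ch h).Cr (s.CC (J.erase h.1) I a))) * ‖b‖ +
          ((1 / 2 ^ (J.card - 1) : ℝ) * ((J.erase h.1).powerset.card : ℝ)) *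
            (Real.sqrt τ * (4 * Real.sqrt (W * J.card) + 1) * ‖b‖ * ‖a‖)) := by
          rw [← Finset.mul_sum, ← Finset.mul_sum, Finset.sum_add_distrib,
            Finset.sum_add_distrib, ← Finset.sum_mul, ← Finset.sum_mul, Finset.sum_const,
            nsmul_eq_mul]
          ring
      _ ≤ 8 * K * (Real.sqrt (F b h) * ‖a‖ + Real.sqrt (F a h) * ‖b‖ +
          1 * (Real.sqrt τ * (4 * Real.sqrt (W * J.card) + 1) * ‖b‖ * ‖a‖)) := by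
          rw [hcP]
          gcongr
      _ ≤ 8 * K * (Real.sqrt (16 / (3 * J.card)) * (‖b‖ * ‖a‖) +
          Real.sqrt (16 / (3 * J.card)) * (‖b‖ * ‖a‖) +
          1 * (Real.sqrt τ * (4 * Real.sqrt (W * J.card) + 1) * ‖b‖ * ‖a‖)) := by
          gcongr
      _ = _ := by ring
  calc _ ≤ (7 / 8 + 4 * Real.sqrt ζ) * g * ‖b‖ * ‖a‖ + 8 * K *
      (2 * Real.sqrt (16 / (3 * J.card)) +
        Real.sqrt τ * (4 * Real.sqrt (W * J.card) + 1)) * ‖b‖ * ‖a‖ := by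
        gcongr
    _ = _ := by ring

/-- trivial bound -/
theorem Gam_le (hQ : ‖s.Qall‖ ≤ 1) (J : Finset β) (a b : HV V) :
    ‖s.Gam J b a‖ ≤ 1 * ‖b‖ * ‖a‖ := by
  unfold Gam
  have e3 : ‖(1 / 2 ^ J.card : ℂ)‖ = (1 / 2 ^ J.card : ℝ) := by
    rw [norm_div, norm_one, norm_pow]
    norm_num
  rw [norm_mul, e3]
  have h1 : ∀ I ∈ J.powerset, ‖(-1 : ℂ) ^ I.card *
      ⟪s.CC J I b, s.YY J (s.Qall (s.CC J I a))⟫_ℂ‖ ≤ 1 * ‖b‖ * ‖a‖ := by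
    intro I _
    rw [norm_mul, norm_pow, norm_neg, norm_one, one_pow, one_mul]
    calc _ ≤ ‖s.CC J I b‖ * ‖s.YY J (s.Qall (s.CC J I a))‖ := norm_inner_le_norm _ _
      _ ≤ ‖s.CC J I b‖ * ‖s.CC J I a‖ := by
        gcongr
        exact (op_le (s.norm_YY_le J) _).trans (op_le hQ _)
      _ = _ := by rw [s.norm_CC, s.norm_CC, one_mul]
  calc _ ≤ (1 / 2 ^ J.card : ℝ) * ∑ I ∈ J.powerset, ‖(-1 : ℂ) ^ I.card *
      ⟪s.CC J I b, s.YY J (s.Qall (s.CC J I a))⟫_ℂ‖ := by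
        gcongr
        exact norm_sum_le _ _
    _ ≤ _ := by
        refine avg_const_le _ _ (by positivity) ?_ _ _ h1
        rw [Finset.card_powerset]
        push_cast
        field_simp

theorem norm_Qall : ‖s.Qall‖ ≤ 1 := by
  unfold Qall
  refine ContinuousLinearMap.opNorm_le_bound _ zero_le_one fun x => ?_
  rw [one_mul]
  exact pre_contr (fun i y => proj_norm_le ((s.Q_proj i).map act) y) _ _

theorem gam_rec (τ W : ℝ) (hτ0 : 0 ≤ τ) (hτ : τ ≤ 1 / 4) (hW0 : 0 ≤ W) (k₂ n : ℕ) (hk₂ : 0 < k₂)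
    (hW : ∀ h, ∑ j ∈ Finset.range s.m, s.wt j h ≤ W)
    (hζ : ∀ h, ∑ j ∈ (Finset.range s.m).filter (fun j => τ < s.wt j h), s.wt j h ≤ (1 / 64) ^ 2)
    (i : ℕ) : ∀ J : Finset β, k₂ + i ≤ J.card → J.card ≤ n → ∀ a b, s.Dom J a → s.Dom J b →
      ‖s.Gam J b a‖ ≤ ((15 / 16) ^ i + 16 * (8 * (4 * (1 + W) * Real.exp W) *
      (2 * Real.sqrt (16 / (3 * k₂)) + Real.sqrt τ * (4 * Real.sqrt (W * n) + 1)))) *
      ‖b‖ * ‖a‖ := by
  set e₀ : ℝ := 8 * (4 * (1 + W) * Real.exp W) *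
      (2 * Real.sqrt (16 / (3 * k₂)) + Real.sqrt τ * (4 * Real.sqrt (W * n) + 1)) with he₀
  have he : 0 ≤ e₀ := by positivity
  induction i with
  | zero =>
    intro J _ _ a b ha hb
    refine (s.Gam_le s.norm_Qall J a b).trans ?_
    gcongr
    rw [pow_zero]
    linarith
  | succ i ih =>
    intro J hJ hJn a b ha hb
    have hne : J.Nonempty := Finset.card_pos.1 (by omega)
    have h1 := s.peel_step τ W ((1 / 64) ^ 2) ((15 / 16) ^ i + 16 * e₀) hτ0 hτ hW0 J hne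
      (fun h _ => hW h) (fun h _ => hζ h) (by positivity) (fun h hh a b ha hb =>
        ih (J.erase h) (by rw [Finset.card_erase_of_mem hh]; omega)
          ((Finset.card_erase_le).trans hJn) a b ha hb) a b ha hb
    refine h1.trans ?_
    have hk : (0 : ℝ) < k₂ := by exact_mod_cast hk₂
    have hkJ : (k₂ : ℝ) ≤ J.card := by exact_mod_cast (by omega : k₂ ≤ J.card)
    have hJn' : (J.card : ℝ) ≤ n := by exact_mod_cast hJn
    have e1 : 8 * (4 * (1 + W) * Real.exp W) *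
      (2 * Real.sqrt (16 / (3 * J.card)) + Real.sqrt τ * (4 * Real.sqrt (W * J.card) + 1)) ≤
        e₀ := by
      rw [he₀]
      gcongr
    have e2 : Real.sqrt ((1 / 64 : ℝ) ^ 2) = 1 / 64 := Real.sqrt_sq (by norm_num)
    have e3 : (7 / 8 + 4 * Real.sqrt ((1 / 64 : ℝ) ^ 2)) = 15 / 16 := by
      rw [e2]
      norm_num
    rw [e3]
    have e4 : (15 / 16 : ℝ) * ((15 / 16) ^ i + 16 * e₀) + 8 * (4 * (1 + W) * Real.exp W) *
      (2 * Real.sqrt (16 / (3 * J.card)) + Real.sqrt τ * (4 * Real.sqrt (W * J.card) + 1)) ≤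
        (15 / 16) ^ (i + 1) + 16 * e₀ := by
      rw [pow_succ]
      nlinarith
    gcongr

end Sys

theorem gam_small (W δ : ℝ) (hW : 0 ≤ W) (hδ : 0 < δ) : ∃ k : ℕ, ∃ τ₀ : ℝ, 0 < τ₀ ∧
    ∀ τ : ℝ, 0 < τ → τ ≤ τ₀ → ∀ (V β : Type) [Fintype V] [DecidableEq V] [Fintype β]
      [DecidableEq β] (s : Sys V β), Fintype.card β = k →
      (∀ h, ∑ j ∈ Finset.range s.m, s.wt j h ≤ W) →
      (∀ h, ∑ j ∈ (Finset.range s.m).filter (fun j => τ < s.wt j h), s.wt j h ≤ (1 / 64) ^ 2) →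
      ∀ a b, s.Dom Finset.univ a → s.Dom Finset.univ b →
        ‖s.Gam Finset.univ b a‖ ≤ δ * ‖b‖ * ‖a‖ := by
  set K : ℝ := 16 * (8 * (4 * (1 + W) * Real.exp W)) with hK
  have hK0 : 0 < K := by positivity
  -- first power
  obtain ⟨k₁, hk₁⟩ : ∃ k₁ : ℕ, (15 / 16 : ℝ) ^ k₁ < δ / 4 :=
    exists_pow_lt_of_lt_one (by positivity) (by norm_num)
  -- k₂ large
  obtain ⟨k₂, hk₂, hk₂'⟩ : ∃ k₂ : ℕ, 0 < k₂ ∧ K * (2 * Real.sqrt (16 / (3 * k₂))) ≤ δ / 4 := by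
    obtain ⟨N, hN⟩ := exists_nat_gt (16 / (3 * (δ / (8 * K)) ^ 2))
    have hd : 0 < δ / (8 * K) := by positivity
    have hN0 : (0 : ℝ) < N := lt_of_le_of_lt (by positivity) hN
    refine ⟨N, by exact_mod_cast hN0, ?_⟩
    have h1 : 16 / (3 * (N : ℝ)) ≤ (δ / (8 * K)) ^ 2 := by
      rw [div_le_iff₀ (by positivity)]
      rw [div_lt_iff₀ (by positivity)] at hN
      nlinarith
    have h2 : Real.sqrt (16 / (3 * (N : ℝ))) ≤ δ / (8 * K) := by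
      rw [← Real.sqrt_sq hd.le]
      exact Real.sqrt_le_sqrt h1
    calc K * (2 * Real.sqrt (16 / (3 * (N : ℝ)))) ≤ K * (2 * (δ / (8 * K))) := by gcongr
      _ = δ / 4 := by field_simp; ring
  set k := k₁ + k₂ with hkdef
  set L : ℝ := K * (4 * Real.sqrt (W * k) + 1) with hL
  have hL0 : 0 < L := by positivity
  refine ⟨k, min (1 / 4) ((δ / (4 * L)) ^ 2), by positivity, ?_⟩
  intro τ hτ0 hτ V β _ _ _ _ s hcard hWs hζs a b ha hb
  have hτ1 : τ ≤ 1 / 4 := hτ.trans (min_le_left _ _)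
  have hτ2 : Real.sqrt τ ≤ δ / (4 * L) := by
    rw [← Real.sqrt_sq (by positivity : 0 ≤ δ / (4 * L))]
    exact Real.sqrt_le_sqrt (hτ.trans (min_le_right _ _))
  have hcu : (Finset.univ : Finset β).card = k := hcard
  have key := s.gam_rec τ W hτ0.le hτ1 hW k₂ k hk₂ hWs hζs k₁ Finset.univ
    (by rw [hcu]; omega) hcu.le a b ha hb
  refine key.trans ?_
  have hfin : (15 / 16 : ℝ) ^ k₁ + 16 * (8 * (4 * (1 + W) * Real.exp W) *
      (2 * Real.sqrt (16 / (3 * k₂)) + Real.sqrt τ * (4 * Real.sqrt (W * k) + 1))) ≤ δ := by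
    have h1 : 16 * (8 * (4 * (1 + W) * Real.exp W) *
      (2 * Real.sqrt (16 / (3 * k₂)) + Real.sqrt τ * (4 * Real.sqrt (W * k) + 1))) =
        K * (2 * Real.sqrt (16 / (3 * k₂))) + Real.sqrt τ * L := by
      rw [hL, hK]
      ring
    have h2 : Real.sqrt τ * L ≤ δ / 4 := by
      calc Real.sqrt τ * L ≤ δ / (4 * L) * L := by gcongr
        _ = δ / 4 := by field_simp
    rw [h1]
    linarith
  gcongr

end P368.D3
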