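import Mathlib

namespace P368.D3

open scoped BigOperators

/-- Greedy independent set in a digraph of small out-degree. -/
lemma exists_indep {V : Type} [DecidableEq V] (R : V → V → Prop) [DecidableRel R] (d : ℕ) :
    ∀ (k : ℕ) (s : Finset V), (∀ v ∈ s, (s.filter (fun u => R v u)).card ≤ d) →
      (2 * d + 1) * k ≤ s.card →
      ∃ J ⊆ s, J.card = k ∧ ∀ h ∈ J, ∀ h' ∈ J, h ≠ h' → ¬ R h h' := by
  intro k
  induction k with
  | zero =>
    intro s _ _
    exact ⟨∅, Finset.empty_subset _, rfl, by simp⟩
  | succ k ih =>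
    intro s hout hcard
    have hpos : 0 < s.card := by
      have : 1 ≤ (2 * d + 1) * (k + 1) := Nat.one_le_iff_ne_zero.mpr (by positivity)
      omega
    have hne : s.Nonempty := Finset.card_pos.mp hpos
    have hdc : ∑ v ∈ s, (s.filter (fun u => R u v)).card
        = ∑ v ∈ s, (s.filter (fun u => R v u)).card := by
      have h := Finset.sum_card_bipartiteAbove_eq_sum_card_bipartiteBelow (s := s) (t := s)
        (fun u v => R u v)
      simp only [Finset.bipartiteAbove, Finset.bipartiteBelow] at h
      exact h.symm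
    have hle : ∑ v ∈ s, (s.filter (fun u => R u v)).card ≤ ∑ _v ∈ s, d := by
      rw [hdc]
      exact Finset.sum_le_sum hout
    obtain ⟨v, hv, hvd⟩ := Finset.exists_le_of_sum_le hne hle
    set s' := s.filter (fun u => u ≠ v ∧ ¬ R u v ∧ ¬ R v u) with hs'
    have hs's : s' ⊆ s := Finset.filter_subset _ _
    have hcov : s ⊆ s' ∪ ({v} ∪ (s.filter (fun u => R u v) ∪ s.filter (fun u => R v u))) := by
      intro u hu
      simp only [hs', Finset.mem_union, Finset.mem_filter, Finset.mem_singleton]
      by_cases h1 : u = v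
      · right; left; exact h1
      · by_cases h2 : R u v
        · right; right; left; exact ⟨hu, h2⟩
        · by_cases h3 : R v u
          · right; right; right; exact ⟨hu, h3⟩
          · left; exact ⟨hu, h1, h2, h3⟩
    have hc1 := Finset.card_le_card hcov
    have hc2 := Finset.card_union_le s' ({v} ∪ (s.filter (fun u => R u v) ∪
      s.filter (fun u => R v u)))
    have hc3 := Finset.card_union_le ({v} : Finset V) (s.filter (fun u => R u v) ∪
      s.filter (fun u => R v u))
    have hc4 := Finset.card_union_le (s.filter (fun u => R u v)) (s.filter (fun u => R v u))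
    have hc5 := hout v hv
    have hc6 : ({v} : Finset V).card = 1 := Finset.card_singleton v
    have hcard' : (2 * d + 1) * k ≤ s'.card := by
      have : (2 * d + 1) * (k + 1) = (2 * d + 1) * k + (2 * d + 1) := by ring
      omega
    have hout' : ∀ u ∈ s', (s'.filter (fun x => R u x)).card ≤ d := by
      intro u hu
      refine le_trans (Finset.card_le_card ?_) (hout u (hs's hu))
      exact Finset.filter_subset_filter _ hs's
    obtain ⟨J, hJs, hJc, hJ⟩ := ih s' hout' hcard'
    have hvJ : v ∉ J := by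
      intro hvJ
      have := hJs hvJ
      simp [hs'] at this
    refine ⟨insert v J, ?_, ?_, ?_⟩
    · intro x hx
      rcases Finset.mem_insert.mp hx with rfl | hx
      · exact hv
      · exact hs's (hJs hx)
    · rw [Finset.card_insert_of_notMem hvJ, hJc]
    · intro h hh h' hh' hne'
      rcases Finset.mem_insert.mp hh with he | hh2
      · rcases Finset.mem_insert.mp hh' with he' | hh2'
        · exact absurd (he.trans he'.symm) hne'
        · have := hJs hh2'
          simp only [hs', Finset.mem_filter] at this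
          rw [he]
          exact this.2.2.2
      · rcases Finset.mem_insert.mp hh' with he' | hh2'
        · have := hJs hh2
          simp only [hs', Finset.mem_filter] at this
          rw [he']
          exact this.2.2.1
        · exact hJ h hh2 h' hh2' hne'

/-- Sunflower lemma for indexed families of sets of bounded size. -/
lemma sunflower (M : ℕ) : ∀ k : ℕ, ∃ N : ℕ, ∀ (β ι : Type) [DecidableEq β] [DecidableEq ι]
    (s : Finset β) (S : β → Finset ι), (∀ h ∈ s, (S h).card ≤ M) → N ≤ s.card →
    ∃ J ⊆ s, ∃ C : Finset ι, J.card = k ∧ C.card ≤ M ∧ (∀ h ∈ J, C ⊆ S h) ∧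
      ∀ h ∈ J, ∀ h' ∈ J, h ≠ h' → S h ∩ S h' = C := by
  induction M with
  | zero =>
    intro k
    refine ⟨k, ?_⟩
    intro β ι _ _ s S hS hk
    obtain ⟨J, hJs, hJc⟩ := Finset.exists_subset_card_eq hk
    refine ⟨J, hJs, ∅, hJc, by simp, fun h _ => Finset.empty_subset _, ?_⟩
    intro h hh h' _ _
    have : S h = ∅ := Finset.card_eq_zero.mp (Nat.le_zero.mp (hS h (hJs hh)))
    rw [this]; simp
  | succ M ih =>
    intro k
    obtain ⟨N0, hN0⟩ := ih k
    refine ⟨k + k * (M + 1) * N0 + 1, ?_⟩
    intro β ι _ _ s S hS hN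
    classical
    -- maximal pairwise disjoint subfamily
    let P : Finset β → Prop := fun D => ∀ h ∈ D, ∀ h' ∈ D, h ≠ h' → Disjoint (S h) (S h')
    have hne : (s.powerset.filter P).Nonempty := ⟨∅, by simp [P]⟩
    obtain ⟨D, hD, hmax⟩ := Finset.exists_max_image (s.powerset.filter P) Finset.card hne
    simp only [Finset.mem_filter, Finset.mem_powerset] at hD
    obtain ⟨hDs, hDP⟩ := hD
    by_cases hk : k ≤ D.card
    · obtain ⟨J, hJD, hJc⟩ := Finset.exists_subset_card_eq hk
      refine ⟨J, hJD.trans hDs, ∅, hJc, by simp, fun h _ => Finset.empty_subset _, ?_⟩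
      intro h hh h' hh' hne'
      exact Finset.disjoint_iff_inter_eq_empty.mp (hDP h (hJD hh) h' (hJD hh') hne')
    · push Not at hk
      set U := D.biUnion S with hU
      have hUc : U.card ≤ k * (M + 1) := by
        refine le_trans Finset.card_biUnion_le ?_
        refine le_trans (Finset.sum_le_sum (fun h hh => hS h (hDs hh))) ?_
        rw [Finset.sum_const, smul_eq_mul]
        exact Nat.mul_le_mul_right _ hk.le
      have hmeet : ∀ h ∈ s \ D, ∃ r ∈ U, r ∈ S h := by
        intro h hh
        rw [Finset.mem_sdiff] at hh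
        by_contra hcon
        push Not at hcon
        have hdis : ∀ h' ∈ D, Disjoint (S h) (S h') := by
          intro h' hh'
          rw [Finset.disjoint_left]
          intro r hr hr'
          exact hcon r (Finset.mem_biUnion.mpr ⟨h', hh', hr'⟩) hr
        have hins : insert h D ∈ s.powerset.filter P := by
          rw [Finset.mem_filter, Finset.mem_powerset]
          refine ⟨Finset.insert_subset hh.1 hDs, ?_⟩
          intro a ha b hb hab
          rcases Finset.mem_insert.mp ha with ha1 | ha1
          · rcases Finset.mem_insert.mp hb with hb1 | hb1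
            · exact absurd (ha1.trans hb1.symm) hab
            · rw [ha1]; exact hdis b hb1
          · rcases Finset.mem_insert.mp hb with hb1 | hb1
            · rw [hb1]; exact (hdis a ha1).symm
            · exact hDP a ha1 b hb1 hab
        have := hmax _ hins
        rw [Finset.card_insert_of_notMem hh.2] at this
        omega
      have hex : ∃ r ∈ U, N0 ≤ ((s \ D).filter (fun h => r ∈ S h)).card := by
        by_contra hcon
        push Not at hcon
        have hsub : s \ D ⊆ U.biUnion (fun r => (s \ D).filter (fun h => r ∈ S h)) := by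
          intro h hh
          obtain ⟨r, hr, hrS⟩ := hmeet h hh
          exact Finset.mem_biUnion.mpr ⟨r, hr, Finset.mem_filter.mpr ⟨hh, hrS⟩⟩
        have h1 := Finset.card_le_card hsub
        have h2 : (U.biUnion (fun r => (s \ D).filter (fun h => r ∈ S h))).card
            ≤ ∑ r ∈ U, N0 := by
          refine le_trans Finset.card_biUnion_le ?_
          exact Finset.sum_le_sum (fun r hr => (hcon r hr).le)
        rw [Finset.sum_const, smul_eq_mul] at h2
        have h3 : U.card * N0 ≤ k * (M + 1) * N0 := Nat.mul_le_mul_right _ hUc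
        have h4 := Finset.le_card_sdiff D s
        omega
      obtain ⟨r, _, hrc⟩ := hex
      obtain ⟨J, hJs, C, hJc, hCc, hCS, hJ⟩ := hN0 β ι ((s \ D).filter (fun h => r ∈ S h))
        (fun h => (S h).erase r) (by
          intro h hh
          rw [Finset.mem_filter, Finset.mem_sdiff] at hh
          rw [Finset.card_erase_of_mem hh.2]
          have := hS h hh.1.1
          omega) hrc
      have hrJ : ∀ h ∈ J, r ∈ S h := fun h hh => (Finset.mem_filter.mp (hJs hh)).2
      refine ⟨J, ?_, insert r C, hJc, ?_, ?_, ?_⟩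
      · intro h hh
        exact (Finset.mem_sdiff.mp (Finset.mem_filter.mp (hJs hh)).1).1
      · exact le_trans (Finset.card_insert_le _ _) (by omega)
      · intro h hh
        exact Finset.insert_subset (hrJ h hh) ((hCS h hh).trans (Finset.erase_subset _ _))
      · intro h hh h' hh' hne'
        have hC := hJ h hh h' hh' hne'
        ext x
        rw [Finset.mem_inter, Finset.mem_insert, ← hC, Finset.mem_inter, Finset.mem_erase,
          Finset.mem_erase]
        by_cases hx : x = r
        · subst hx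
          simp [hrJ h hh, hrJ h' hh']
        · simp [hx]

/-- thresholds -/
noncomputable def thr (ℓ : ℝ) (need : ℕ → ℕ × ℝ) : ℕ → ℝ
  | 0 => 1
  | i + 1 => min (thr ℓ need i) (need (⌈ℓ / thr ℓ need i⌉₊ + 1)).2

lemma thr_pos (ℓ : ℝ) (need : ℕ → ℕ × ℝ) (hneed : ∀ M, 0 < (need M).2) (i : ℕ) :
    0 < thr ℓ need i := by
  induction i with
  | zero => simp [thr]
  | succ i ih => exact lt_min ih (hneed _)

lemma thr_anti (ℓ : ℝ) (need : ℕ → ℕ × ℝ) : Antitone (thr ℓ need) :=
  antitone_nat_of_succ_le (fun i => min_le_left _ _)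

/-- Selection: levels, sunflower, sparse conflict graph. -/
theorem select3 (ℓ ζ : ℝ) (hℓ : 0 ≤ ℓ) (hζ : 0 < ζ) (need : ℕ → ℕ × ℝ)
    (hneed : ∀ M, 0 < (need M).2) :
    ∃ N : ℕ, ∀ (β ι : Type) [Fintype β] [DecidableEq β] [Fintype ι] [DecidableEq ι]
      (w : β → ι → ℝ) (ρ : β → ι),
      (∀ h r, 0 ≤ w h r) → (∀ h, ∑ r, w h r ≤ ℓ) → N ≤ Fintype.card β →
      ∃ (M : ℕ) (J : Finset β) (C : Finset ι) (S : β → Finset ι),
        J.card = (need M).1 ∧ C.card ≤ M ∧
        (∀ h ∈ J, C ⊆ S h ∧ ρ h ∈ S h) ∧
        (∀ h ∈ J, ∀ h' ∈ J, h ≠ h' → S h ∩ S h' = C) ∧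
        (∀ h ∈ J, ∀ h' ∈ J, h ≠ h' → ∑ r ∈ S h' \ C, w h r ≤ (need M).2) ∧
        (∀ h ∈ J, ∑ r ∈ Finset.univ.filter (fun r => r ∉ S h ∧ (need M).2 < w h r), w h r ≤ ζ) := by
  classical
  set t := thr ℓ need with ht
  have htpos : ∀ i, 0 < t i := thr_pos ℓ need hneed
  have htanti : Antitone t := thr_anti ℓ need
  set L : ℕ := ⌈ℓ / ζ⌉₊ + 1 with hL
  have hLζ : ℓ < L * ζ := by
    have h1 : ℓ / ζ ≤ ⌈ℓ / ζ⌉₊ := Nat.le_ceil _
    have h2 : ℓ ≤ ⌈ℓ / ζ⌉₊ * ζ := by rwa [div_le_iff₀ hζ] at h1
    have h3 : (L : ℝ) = ⌈ℓ / ζ⌉₊ + 1 := by rw [hL]; push_cast; ring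
    rw [h3]
    nlinarith
  let Mi : ℕ → ℕ := fun i => ⌈ℓ / t i⌉₊ + 1
  let di : ℕ → ℕ := fun i => ⌈ℓ / (need (Mi i)).2⌉₊
  choose N1 hN1 using fun i => sunflower (Mi i) ((2 * di i + 1) * (need (Mi i)).1)
  refine ⟨∑ i ∈ Finset.range L, N1 i + 1, ?_⟩
  intro β ι _ _ _ _ w ρ hw hsum hcard
  -- level of each block
  have hlev : ∀ h : β, ∃ i < L,
      ∑ r ∈ Finset.univ.filter (fun r => t (i + 1) < w h r ∧ w h r ≤ t i), w h r ≤ ζ := by
    intro h
    by_contra hcon
    push Not at hcon
    have h1 : (∑ i ∈ Finset.range L,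
        ∑ r ∈ Finset.univ.filter (fun r => t (i + 1) < w h r ∧ w h r ≤ t i), w h r) ≤ ℓ := by
      rw [← Finset.sum_biUnion]
      · exact le_trans (Finset.sum_le_sum_of_subset_of_nonneg (Finset.subset_univ _)
          (fun r _ _ => hw h r)) (hsum h)
      · intro i _ j _ hij
        rw [Function.onFun, Finset.disjoint_left]
        intro r hr hr'
        simp only [Finset.mem_filter, Finset.mem_univ, true_and] at hr hr'
        rcases lt_or_gt_of_ne hij with hlt | hlt
        · have := htanti (Nat.succ_le_of_lt hlt)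
          simp only [Nat.succ_eq_add_one] at this
          linarith [hr.1, hr'.2]
        · have := htanti (Nat.succ_le_of_lt hlt)
          simp only [Nat.succ_eq_add_one] at this
          linarith [hr'.1, hr.2]
    have h2 : (∑ _i ∈ Finset.range L, ζ) ≤ ∑ i ∈ Finset.range L,
        ∑ r ∈ Finset.univ.filter (fun r => t (i + 1) < w h r ∧ w h r ≤ t i), w h r :=
      Finset.sum_le_sum (fun i hi => (hcon i (Finset.mem_range.mp hi)).le)
    rw [Finset.sum_const, Finset.card_range, nsmul_eq_mul] at h2
    linarith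
  choose lev hlevL hlevz using hlev
  have hfib : ∃ i < L, N1 i ≤ (Finset.univ.filter (fun h => lev h = i)).card := by
    by_contra hcon
    push Not at hcon
    have h1 : (Finset.univ : Finset β).card
        = ∑ i ∈ Finset.range L, (Finset.univ.filter (fun h => lev h = i)).card :=
      Finset.card_eq_sum_card_fiberwise (fun h _ => Finset.mem_coe.mpr
        (Finset.mem_range.mpr (hlevL h)))
    have h2 : ∑ i ∈ Finset.range L, (Finset.univ.filter (fun h => lev h = i)).card
        ≤ ∑ i ∈ Finset.range L, N1 i :=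
      Finset.sum_le_sum (fun i hi => (hcon i (Finset.mem_range.mp hi)).le)
    rw [Finset.card_univ] at h1
    omega
  obtain ⟨i, _, hi⟩ := hfib
  let S : β → Finset ι := fun h => insert (ρ h) (Finset.univ.filter (fun r => t i < w h r))
  have hScard : ∀ h, (S h).card ≤ Mi i := by
    intro h
    refine le_trans (Finset.card_insert_le _ _) ?_
    have h1 : ((Finset.univ.filter (fun r => t i < w h r)).card : ℝ) * t i ≤ ℓ := by
      rw [← nsmul_eq_mul, ← Finset.sum_const]
      refine le_trans (Finset.sum_le_sum (fun r hr => ?_)) (le_trans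
        (Finset.sum_le_sum_of_subset_of_nonneg (Finset.subset_univ _)
          (fun r _ _ => hw h r)) (hsum h))
      exact (Finset.mem_filter.mp hr).2.le
    have h2 : ((Finset.univ.filter (fun r => t i < w h r)).card : ℝ) ≤ ℓ / t i := by
      rwa [le_div_iff₀ (htpos i)]
    have h3 := Nat.cast_le.mp (le_trans h2 (Nat.le_ceil (ℓ / t i)))
    simp only [Mi]
    omega
  obtain ⟨J', _, C, hJ'c, hCc, hCS, hJ'⟩ := hN1 i β ι
    (Finset.univ.filter (fun h => lev h = i)) S (fun h _ => hScard h) hi
  rename_i hJ's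
  have hdisj : ∀ h1 ∈ J', ∀ h2 ∈ J', h1 ≠ h2 → Disjoint (S h1 \ C) (S h2 \ C) := by
    intro h1 hh1 h2 hh2 hne
    rw [Finset.disjoint_left]
    intro r hr hr'
    rw [Finset.mem_sdiff] at hr hr'
    have : r ∈ S h1 ∩ S h2 := Finset.mem_inter.mpr ⟨hr.1, hr'.1⟩
    rw [hJ' h1 hh1 h2 hh2 hne] at this
    exact hr.2 this
  have hτ := hneed (Mi i)
  obtain ⟨J, hJJ', hJc, hJR⟩ := exists_indep
    (fun h h' : β => (need (Mi i)).2 < ∑ r ∈ S h' \ C, w h r) (di i) (need (Mi i)).1 J' (by
      intro h hh
      have h1 : (((J'.filter (fun h' => (need (Mi i)).2 < ∑ r ∈ S h' \ C, w h r)).card : ℕ) : ℝ)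
          * (need (Mi i)).2 ≤ ℓ := by
        rw [← nsmul_eq_mul, ← Finset.sum_const]
        refine le_trans (Finset.sum_le_sum (g := fun h' => ∑ r ∈ S h' \ C, w h r)
          (fun h' hh' => (Finset.mem_filter.mp hh').2.le)) ?_
        rw [← Finset.sum_biUnion]
        · exact le_trans (Finset.sum_le_sum_of_subset_of_nonneg (Finset.subset_univ _)
            (fun r _ _ => hw h r)) (hsum h)
        · intro a ha b hb hab
          have ha' := (Finset.mem_filter.mp (Finset.mem_coe.mp ha)).1
          have hb' := (Finset.mem_filter.mp (Finset.mem_coe.mp hb)).1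
          exact hdisj a ha' b hb' hab
      have h2 : (((J'.filter (fun h' => (need (Mi i)).2 < ∑ r ∈ S h' \ C, w h r)).card : ℕ) : ℝ)
          ≤ ℓ / (need (Mi i)).2 := by
        rwa [le_div_iff₀ hτ]
      exact Nat.cast_le.mp (le_trans h2 (Nat.le_ceil _))) (by rw [hJ'c])
  refine ⟨Mi i, J, C, S, hJc, hCc, ?_, ?_, ?_, ?_⟩
  · intro h hh
    exact ⟨hCS h (hJJ' hh), Finset.mem_insert_self _ _⟩
  · intro h hh h' hh' hne
    exact hJ' h (hJJ' hh) h' (hJJ' hh') hne
  · intro h hh h' hh' hne
    exact not_lt.mp (hJR h hh h' hh' hne)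
  · intro h hh
    have hl : lev h = i := (Finset.mem_filter.mp (hJ's (hJJ' hh))).2
    have hz := hlevz h
    rw [hl] at hz
    refine le_trans (Finset.sum_le_sum_of_subset_of_nonneg ?_ (fun r _ _ => hw h r)) hz
    intro r hr
    rw [Finset.mem_filter] at hr ⊢
    obtain ⟨_, hr1, hr2⟩ := hr
    refine ⟨Finset.mem_univ _, ?_, ?_⟩
    · exact lt_of_le_of_lt (min_le_right _ _) hr2
    · by_contra hcon
      push Not at hcon
      exact hr1 (Finset.mem_insert_of_mem (Finset.mem_filter.mpr ⟨Finset.mem_univ _, hcon⟩))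

end P368.D3
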