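import Vale.Agent.P368.HeavySys
import Vale.Agent.P368.GamSmall
import Vale.Agent.P368.Select3

namespace P368.D3

open Matrix
open scoped BigOperators InnerProductSpace ComplexOrder Matrix.Norms.L2Operator

theorem one_sub_prod_le {ι : Type*} (s : Finset ι) (x : ι → ℝ) (h0 : ∀ i, 0 ≤ x i)
    (h1 : ∀ i, x i ≤ 1) : 1 - ∏ i ∈ s, x i ≤ ∑ i ∈ s, (1 - x i) := by
  classical
  induction s using Finset.induction_on with
  | empty => simp
  | insert i s hi ih =>
    rw [Finset.prod_insert hi, Finset.sum_insert hi]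
    have hp0 : 0 ≤ ∏ i ∈ s, x i := Finset.prod_nonneg fun j _ => h0 j
    have hp1 : ∏ i ∈ s, x i ≤ 1 := Finset.prod_le_one (fun j _ => h0 j) fun j _ => h1 j
    nlinarith [h0 i, h1 i, mul_nonneg (sub_nonneg.2 (h1 i)) (sub_nonneg.2 hp1)]

theorem prod_mono_sub {ι : Type*} [DecidableEq ι] {s t : Finset ι} (hst : s ⊆ t) (x : ι → ℝ)
    (h0 : ∀ i, 0 ≤ x i) (h1 : ∀ i, x i ≤ 1) : ∏ i ∈ t, x i ≤ ∏ i ∈ s, x i := by
  rw [← Finset.prod_sdiff hst]
  have hp0 : 0 ≤ ∏ i ∈ s, x i := Finset.prod_nonneg fun j _ => h0 j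
  have hp1 : ∏ i ∈ t \ s, x i ≤ 1 := Finset.prod_le_one (fun j _ => h0 j) fun j _ => h1 j
  nlinarith

namespace PS

variable {V β : Type} [Fintype V] [DecidableEq V] [Fintype β] [DecidableEq β] (p : PS V β)

theorem γsq0 (q : V) : 0 ≤ p.γ q ^ 2 := sq_nonneg _

theorem γsq1 (q : V) : p.γ q ^ 2 ≤ 1 := pow_le_one₀ (p.γ0 q) (p.γ1 q)

/-- the product of the squared overlaps over a region -/
noncomputable def xr (h : β) (r : V) : ℝ :=
  open Classical in
  ∏ q ∈ ((p.O h).erase (p.inp h)).filter (fun q => rep p.c q = r), p.γ q ^ 2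

theorem w_eq (h : β) (r : V) : p.w h r = 1 - p.xr h r := rfl

theorem xr0 (h : β) (r : V) : 0 ≤ p.xr h r := Finset.prod_nonneg fun q _ => p.γsq0 q

theorem xr1 (h : β) (r : V) : p.xr h r ≤ 1 :=
  Finset.prod_le_one (fun q _ => p.γsq0 q) fun q _ => p.γsq1 q

theorem w0 (h : β) (r : V) : 0 ≤ p.w h r := by
  rw [w_eq]
  linarith [p.xr1 h r]

theorem sum_w_le (h : β) (hc : c0 ≤ p.ch h) : ∑ r, p.w h r ≤ 2 * Real.log (1 / c0) := by
  classical
  have hc0 : (0 : ℝ) < c0 := by unfold c0; norm_num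
  have hch : 0 < p.ch h := lt_of_lt_of_le hc0 hc
  have h1 : ∏ r, p.xr h r = p.ch h ^ 2 := by
    unfold ch xr
    rw [← Finset.prod_pow]
    have := Finset.prod_fiberwise ((p.O h).erase (p.inp h)) (rep p.c) (fun q => p.γ q ^ 2)
    rw [← this]
  have h2 : ∏ r, p.xr h r ≤ Real.exp (-∑ r, p.w h r) := by
    rw [← Finset.sum_neg_distrib, Real.exp_sum]
    refine Finset.prod_le_prod (fun r _ => p.xr0 h r) fun r _ => ?_
    have h3 := Real.add_one_le_exp (-(p.w h r))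
    rw [w_eq] at h3 ⊢
    linarith
  rw [h1] at h2
  have h3 : Real.log (p.ch h ^ 2) ≤ -∑ r, p.w h r := by
    have := Real.log_le_log (by positivity) h2
    rwa [Real.log_exp] at this
  rw [Real.log_pow] at h3
  have h4 : Real.log c0 ≤ Real.log (p.ch h) := Real.log_le_log hc0 hc
  have h5 : Real.log (1 / c0) = -Real.log c0 := by rw [one_div, Real.log_inv]
  rw [h5]
  push_cast at h3
  linarith

/-- overlap of the qubits in a set of regions -/
theorem cut_le (h : β) (P : Finset V) (D : Finset V) (hD : D ⊆ (p.O h).erase (p.inp h))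
    (hP : ∀ q ∈ D, rep p.c q ∈ P) : 1 - ∏ q ∈ D, p.γ q ^ 2 ≤ ∑ r ∈ P, p.w h r := by
  classical
  have h1 : ∏ r ∈ P, p.xr h r ≤ ∏ q ∈ D, p.γ q ^ 2 := by
    have h2 := Finset.prod_fiberwise_of_maps_to (s := D) (t := P) (g := rep p.c) hP
      (fun q => p.γ q ^ 2)
    rw [← h2]
    refine Finset.prod_le_prod (fun r _ => p.xr0 h r) fun r _ => ?_
    unfold xr
    have h3 := prod_mono_sub (s := D.filter (fun q => rep p.c q = r))
      (t := ((p.O h).erase (p.inp h)).filter (fun q => rep p.c q = r))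
      (Finset.filter_subset_filter _ hD) (fun q => p.γ q ^ 2) p.γsq0 p.γsq1
    convert h3
  have h4 := one_sub_prod_le P (fun r => p.xr h r) (p.xr0 h) (p.xr1 h)
  have h5 : ∑ r ∈ P, p.w h r = ∑ r ∈ P, (1 - p.xr h r) := rfl
  rw [h5]
  linarith

theorem trunc_w_le (O' : β → Finset V) (h1 : ∀ h, O' h ⊆ p.O h) (h2 : ∀ h, p.inp h ∈ O' h)
    (h : β) (r : V) : (p.trunc O' h1 h2).w h r ≤ p.w h r := by
  classical
  have h3 := prod_mono_sub (s := ((O' h).erase (p.inp h)).filter (fun q => rep p.c q = r))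
      (t := ((p.O h).erase (p.inp h)).filter (fun q => rep p.c q = r))
      (Finset.filter_subset_filter _ (Finset.erase_subset_erase _ (h1 h)))
      (fun q => p.γ q ^ 2) p.γsq0 p.γsq1
  have e1 : (p.trunc O' h1 h2).w h r =
      1 - ∏ q ∈ ((O' h).erase (p.inp h)).filter (fun q => rep p.c q = r), p.γ q ^ 2 := by
    unfold w trunc
    congr!
  have e2 : p.w h r =
      1 - ∏ q ∈ ((p.O h).erase (p.inp h)).filter (fun q => rep p.c q = r), p.γ q ^ 2 := by
    unfold w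
    congr!
  rw [e1, e2]
  linarith

/-- separated truncation -/
theorem sel_bound (M : ℕ) (ℓ ζ τ g : ℝ) (hτ : 0 < τ) (hg : 0 ≤ g) (C : Finset V)
    (S : β → Finset V) (hCM : C.card ≤ M) (htr : ∀ h, p.tr h = false)
    (hC : ∀ h, C ⊆ S h) (hin : ∀ h, rep p.c (p.inp h) ∈ S h)
    (hSS : ∀ h h', h ≠ h' → S h ∩ S h' = C)
    (hcross : ∀ h h', h ≠ h' → ∑ r ∈ S h' \ C, p.w h r ≤ τ)
    (hW : ∀ h, ∑ r, p.w h r ≤ ℓ)
    (hmed : ∀ h, ∑ r ∈ Finset.univ.filter (fun r => r ∉ S h ∧ τ < p.w h r), p.w h r ≤ ζ)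
    (hgam : ∀ s : Sys V β, (∀ h, ∑ j ∈ Finset.range s.m, s.wt j h ≤ ℓ) →
      (∀ h, ∑ j ∈ (Finset.range s.m).filter (fun j => τ < s.wt j h), s.wt j h ≤ ζ) →
      ∀ a b, s.Dom Finset.univ a → s.Dom Finset.univ b →
        ‖s.Gam Finset.univ b a‖ ≤ g * ‖b‖ * ‖a‖)
    (a b : HV V) (ha : p.Dom Finset.univ a) (hb : p.Dom Finset.univ b) :
    ‖p.Gam0 Finset.univ b a‖ ≤ (9 ^ (M + 1) * g +
      4 * Fintype.card β * Real.sqrt (Fintype.card β * τ)) * ‖b‖ * ‖a‖ := by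
  classical
  set O' : β → Finset V := fun h =>
    (p.O h).filter fun q => ∀ h', h' ≠ h → rep p.c q ∉ S h' \ C with hO'
  have h1 : ∀ h, O' h ⊆ p.O h := fun h => Finset.filter_subset _ _
  have hinp : ∀ h h', h' ≠ h → rep p.c (p.inp h) ∉ S h' \ C := by
    intro h h' hne hm
    rw [Finset.mem_sdiff] at hm
    apply hm.2
    rw [← hSS h h' hne.symm]
    exact Finset.mem_inter.2 ⟨hin h, hm.1⟩
  have h2 : ∀ h, p.inp h ∈ O' h := fun h =>
    Finset.mem_filter.2 ⟨p.inp_O h, hinp h⟩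
  set p₂ := p.trunc O' h1 h2 with hp₂
  have hsep : p₂.Sep C S := by
    refine ⟨htr, hC, hin, hSS, ?_⟩
    intro h h' hne q hq
    exact (Finset.mem_filter.1 hq).2 h' hne.symm
  have hwle : ∀ h r, p₂.w h r ≤ p.w h r := fun h r => p.trunc_w_le O' h1 h2 h r
  have hW₂ : ∀ h, ∑ r, p₂.w h r ≤ ℓ := fun h =>
    (Finset.sum_le_sum fun r _ => hwle h r).trans (hW h)
  have hmed₂ : ∀ h, ∑ r ∈ Finset.univ.filter (fun r => r ∉ S h ∧ τ < p₂.w h r), p₂.w h r ≤ ζ := by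
    intro h
    refine le_trans ?_ (hmed h)
    refine le_trans (Finset.sum_le_sum fun r _ => hwle h r) ?_
    refine Finset.sum_le_sum_of_subset_of_nonneg ?_ fun r _ _ => p.w0 h r
    intro r hr
    rw [Finset.mem_filter] at hr ⊢
    exact ⟨hr.1, hr.2.1, lt_of_lt_of_le hr.2.2 (hwle h r)⟩
  have hmain := sep_bound p₂ C S hsep τ ℓ ζ g hτ.le hg hW₂ hmed₂ hgam a b
    (p.trunc_Dom O' h1 h2 _ a ha) (p.trunc_Dom O' h1 h2 _ b hb)
  have hκ : ∀ h, 1 - ∏ q ∈ p.O h \ O' h, p.γ q ^ 2 ≤ Fintype.card β * τ := by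
    intro h
    set P : Finset V := (Finset.univ.erase h).biUnion fun h' => S h' \ C with hP
    have e1 : p.O h \ O' h ⊆ (p.O h).erase (p.inp h) := by
      intro q hq
      rw [Finset.mem_sdiff] at hq
      rw [Finset.mem_erase]
      refine ⟨?_, hq.1⟩
      rintro rfl
      exact hq.2 (h2 h)
    have e2 : ∀ q ∈ p.O h \ O' h, rep p.c q ∈ P := by
      intro q hq
      rw [Finset.mem_sdiff, Finset.mem_filter, not_and] at hq
      have := hq.2 hq.1
      push Not at this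
      obtain ⟨h', hne, hm⟩ := this
      rw [hP, Finset.mem_biUnion]
      exact ⟨h', Finset.mem_erase.2 ⟨hne, Finset.mem_univ _⟩, hm⟩
    refine (p.cut_le h P _ e1 e2).trans ?_
    have e3 : ∑ r ∈ P, p.w h r ≤ ∑ h' ∈ Finset.univ.erase h, ∑ r ∈ S h' \ C, p.w h r := by
      rw [hP, Finset.sum_biUnion]
      intro h₁ _ h₂ _ hne
      rw [Function.onFun, Finset.disjoint_left]
      intro r hr hr'
      rw [Finset.mem_sdiff] at hr hr'
      apply hr.2
      rw [← hSS h₁ h₂ hne]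
      exact Finset.mem_inter.2 ⟨hr.1, hr'.1⟩
    refine e3.trans ?_
    calc ∑ h' ∈ Finset.univ.erase h, ∑ r ∈ S h' \ C, p.w h r
        ≤ ∑ h' ∈ Finset.univ.erase h, τ := Finset.sum_le_sum fun h' hh' =>
          hcross h h' (Finset.ne_of_mem_erase hh').symm
      _ = (Finset.univ.erase h).card * τ := by rw [Finset.sum_const, nsmul_eq_mul]
      _ ≤ Fintype.card β * τ := by
        gcongr
        exact Finset.card_le_univ _
  have herr := p.trunc_err O' h1 h2 _ hκ htr Finset.univ b a hb ha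
  have e9 : (9 : ℝ) ^ (C.card + 1) ≤ 9 ^ (M + 1) :=
    pow_le_pow_right₀ (by norm_num) (by omega)
  calc ‖p.Gam0 Finset.univ b a‖ = ‖(p.Gam0 Finset.univ b a - p₂.Gam0 Finset.univ b a) +
        p₂.Gam0 Finset.univ b a‖ := by rw [sub_add_cancel]
    _ ≤ 4 * Fintype.card β * Real.sqrt (Fintype.card β * τ) * ‖b‖ * ‖a‖ +
        9 ^ (C.card + 1) * g * ‖b‖ * ‖a‖ := (norm_add_le _ _).trans (add_le_add herr hmain)
    _ ≤ 4 * Fintype.card β * Real.sqrt (Fintype.card β * τ) * ‖b‖ * ‖a‖ +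
        9 ^ (M + 1) * g * ‖b‖ * ‖a‖ := by gcongr
    _ = _ := by ring

end PS

theorem heavy_bound (ε : ℝ) (hε : 0 < ε) : ∃ N : ℕ, ∀ (V β : Type) [Fintype V] [DecidableEq V]
    [Fintype β] [DecidableEq β] (p : PS V β), (∀ h, p.tr h = false ∧ c0 ≤ p.ch h) →
    N ≤ Fintype.card β → ∃ J : Finset β, ∀ a b, p.Dom J a → p.Dom J b →
      ‖p.Gam0 J b a‖ ≤ ε * ‖b‖ * ‖a‖ := by
  classical
  set ℓ : ℝ := 2 * Real.log (1 / c0) with hℓ
  have hℓ0 : 0 ≤ ℓ := by
    have : 0 ≤ Real.log (1 / c0) := Real.log_nonneg (by unfold c0; norm_num)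
    positivity
  choose k τ₀ hτ₀ hsmall using fun M : ℕ =>
    gam_small ℓ (ε / (2 * 9 ^ (M + 1))) hℓ0 (by positivity)
  set need : ℕ → ℕ × ℝ := fun M =>
    (k M, min (τ₀ M) ((ε / (8 * (k M + 1))) ^ 2 / (k M + 1))) with hneed
  obtain ⟨N, hN⟩ := select3 ℓ ((1 / 64) ^ 2) hℓ0 (by norm_num) need (fun M => by
    have := hτ₀ M
    have h2 : (0 : ℝ) < k M + 1 := by positivity
    simp only [hneed]
    positivity)
  refine ⟨N, ?_⟩
  intro V β _ _ _ _ p hp hcard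
  obtain ⟨M, J, C, S, hJ, hCM, hCS, hSS, hcross, hmed⟩ := hN β V p.w (fun h => rep p.c (p.inp h))
    p.w0 (fun h => p.sum_w_le h (hp h).2) hcard
  refine ⟨J, fun a b ha hb => ?_⟩
  set f : {x // x ∈ J} ↪ β := Function.Embedding.subtype (· ∈ J) with hf
  have hmapJ : (Finset.univ : Finset {x // x ∈ J}).map f = J := Finset.attach_map_val
  have hDa : (p.map f).Dom Finset.univ a := by
    rw [← p.map_Dom, hmapJ]
    exact ha
  have hDb : (p.map f).Dom Finset.univ b := by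
    rw [← p.map_Dom, hmapJ]
    exact hb
  have hG : p.Gam0 J b a = (p.map f).Gam0 Finset.univ b a := by
    rw [← p.map_Gam0, hmapJ]
  set τ : ℝ := (need M).2 with hτ
  have hτ0 : 0 < τ := by
    have := hτ₀ M
    have h2 : (0 : ℝ) < k M + 1 := by positivity
    simp only [hτ, hneed]
    positivity
  have hcJ : Fintype.card {x // x ∈ J} = k M := by
    rw [Fintype.card_coe]
    exact hJ
  have key := (p.map f).sel_bound M ℓ ((1 / 64) ^ 2) τ (ε / (2 * 9 ^ (M + 1))) hτ0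
    (by positivity) C (fun h => S h.1) hCM (fun h => (hp h.1).1) (fun h => (hCS h.1 h.2).1)
    (fun h => (hCS h.1 h.2).2)
    (fun h h' hne => hSS h.1 h.2 h'.1 h'.2 (fun e => hne (Subtype.ext e)))
    (fun h h' hne => hcross h.1 h.2 h'.1 h'.2 (fun e => hne (Subtype.ext e)))
    (fun h => p.sum_w_le h.1 (hp h.1).2)
    (fun h => hmed h.1 h.2)
    (fun s h1 h2 => hsmall M τ hτ0 (min_le_left _ _) V {x // x ∈ J} s hcJ h1 h2) a b hDa hDb
  rw [hG]
  refine key.trans ?_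
  have e1 : (9 : ℝ) ^ (M + 1) * (ε / (2 * 9 ^ (M + 1))) = ε / 2 := by
    field_simp
  have e2 : 4 * (Fintype.card {x // x ∈ J} : ℝ) *
      Real.sqrt (Fintype.card {x // x ∈ J} * τ) ≤ ε / 2 := by
    rw [hcJ]
    have hk : (0 : ℝ) < k M + 1 := by positivity
    have hτle : τ ≤ (ε / (8 * (k M + 1))) ^ 2 / (k M + 1) := min_le_right _ _
    have h3 : (k M : ℝ) * τ ≤ (ε / (8 * (k M + 1))) ^ 2 := by
      calc (k M : ℝ) * τ ≤ (k M + 1) * ((ε / (8 * (k M + 1))) ^ 2 / (k M + 1)) := by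
            gcongr
            linarith
        _ = _ := by field_simp
    have h4 : Real.sqrt ((k M : ℝ) * τ) ≤ ε / (8 * (k M + 1)) := by
      rw [← Real.sqrt_sq (by positivity : 0 ≤ ε / (8 * ((k M : ℝ) + 1)))]
      exact Real.sqrt_le_sqrt h3
    calc 4 * (k M : ℝ) * Real.sqrt ((k M : ℝ) * τ) ≤ 4 * (k M + 1) * (ε / (8 * (k M + 1))) := by
          gcongr
          linarith
      _ = ε / 2 := by field_simp; ring
  have e3 : (9 : ℝ) ^ (M + 1) * (ε / (2 * 9 ^ (M + 1))) + 4 * (Fintype.card {x // x ∈ J} : ℝ) *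
      Real.sqrt (Fintype.card {x // x ∈ J} * τ) ≤ ε := by
    rw [e1]
    linarith
  gcongr

end P368.D3
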