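import Vale.Agent.P368.PSBase
import Vale.Agent.P368.Peel

namespace P368.D3

open Matrix
open scoped BigOperators InnerProductSpace ComplexOrder Matrix.Norms.L2Operator

variable {V β : Type} [Fintype V] [DecidableEq V] [Fintype β] [DecidableEq β]

namespace HS

theorem proj_mul {A B : Op V} (hA : IsStarProjection A) (hB : IsStarProjection B)
    (h : Commute A B) : IsStarProjection (A * B) := by
  refine ⟨?_, ?_⟩
  · unfold IsIdempotentElem
    calc A * B * (A * B) = A * (B * A) * B := by noncomm_ring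
      _ = A * (A * B) * B := by rw [h.eq]
      _ = (A * A) * (B * B) := by noncomm_ring
      _ = A * B := by rw [hA.isIdempotentElem.eq, hB.isIdempotentElem.eq]
  · unfold IsSelfAdjoint
    rw [star_mul, hA.isSelfAdjoint.star_eq, hB.isSelfAdjoint.star_eq, h.eq]

/-- representatives with number `j` -/
noncomputable def rset (R : Finset V) (j : ℕ) : Set V :=
  {r | ∃ hr : r ∈ R, ((R.equivFin ⟨r, hr⟩ : Fin R.card) : ℕ) = j}

omit [Fintype V] [DecidableEq V] in
theorem mem_rset_fin (R : Finset V) (i : Fin R.card) (r : V) :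
    r ∈ rset R (i : ℕ) ↔ r = (R.equivFin.symm i : V) := by
  constructor
  · rintro ⟨hr, h⟩
    have h1 : R.equivFin ⟨r, hr⟩ = i := Fin.ext h
    rw [← h1, Equiv.symm_apply_apply]
  · rintro rfl
    refine ⟨(R.equivFin.symm i).2, ?_⟩
    have : (⟨(R.equivFin.symm i : V), (R.equivFin.symm i).2⟩ : R) = R.equivFin.symm i := rfl
    rw [this, Equiv.apply_symm_apply]

omit [Fintype V] [DecidableEq V] in
theorem rset_disj (R : Finset V) {i j : ℕ} (h : i ≠ j) : Disjoint (rset R i) (rset R j) := by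
  rw [Set.disjoint_left]
  rintro r ⟨h1, h2⟩ ⟨h3, h4⟩
  exact h (h2.symm.trans h4)

omit [Fintype V] [DecidableEq V] in
theorem rset_sub (R : Finset V) {j : ℕ} {r : V} (h : r ∈ rset R j) : r ∈ R := h.1

omit [Fintype V] [DecidableEq V] in
theorem rset_cover (R : Finset V) {r : V} (h : r ∈ R) : ∃ j < R.card, r ∈ rset R j :=
  ⟨_, (R.equivFin ⟨r, h⟩).2, h, rfl⟩

theorem pre_regOp {c : V → Finset V} (hc : Good c) (Θ : V → M2) (R : Finset V) (k : ℕ) :
    pre (fun j => act (regOp c Θ (rset R j))) k =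
      act (regOp c Θ {r | ∃ j < k, r ∈ rset R j}) := by
  induction k with
  | zero =>
    have : {r : V | ∃ j < 0, r ∈ rset R j} = ∅ := by
      ext r
      simp
    rw [this, hc.regOp_empty, map_one]
    rfl
  | succ k ih =>
    have e : {r : V | ∃ j < k + 1, r ∈ rset R j} = rset R k ∪ {r | ∃ j < k, r ∈ rset R j} := by
      ext r
      simp only [Set.mem_ofPred_eq, Set.mem_union]
      constructor
      · rintro ⟨j, hj, hr⟩
        rcases Nat.lt_succ_iff_lt_or_eq.mp hj with h | rfl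
        · exact Or.inr ⟨j, h, hr⟩
        · exact Or.inl hr
      · rintro (h | ⟨j, hj, hr⟩)
        · exact ⟨k, Nat.lt_succ_self k, h⟩
        · exact ⟨j, hj.trans (Nat.lt_succ_self k), hr⟩
    have hd : Disjoint (rset R k) {r | ∃ j < k, r ∈ rset R j} := by
      rw [Set.disjoint_left]
      rintro r h1 ⟨j, hj, h2⟩
      exact Set.disjoint_left.mp (rset_disj R (ne_of_gt hj)) h1 h2
    change act (regOp c Θ (rset R k)) * pre (fun j => act (regOp c Θ (rset R j))) k = _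
    rw [ih, e, hc.regOp_union Θ _ _ hd, map_mul]

variable (p : PS V β) (C : Finset V) (S : β → Finset V)

/-- the core -/
noncomputable def core : Finset V := insert (rep p.c p.o) C

/-- common representatives -/
noncomputable def cr : Finset V :=
  Finset.univ.filter fun r => r ∉ core p C ∧ ∀ h, r ∉ S h

/-- strong representatives of block `h` -/
def sR (h : β) : Set V := {r | r ∈ S h ∧ r ∉ core p C}

/-- core qubits of block `h` -/
def cO (h : β) : Set V := {q | rep p.c q ∈ core p C ∧ q ∈ p.O h}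

/-- zone of block `h` -/
def zn (h : β) : Set V := {q | rep p.c q ∈ sR p C S h} ∪ cO p C h

theorem mem_cr {r : V} : r ∈ cr p C S ↔ r ∉ core p C ∧ ∀ h, r ∉ S h := by
  simp [cr]

variable {p C S}

theorem ne_o {q : V} {h : β} (hq : q ∈ p.O h) : q ≠ p.o := fun e => p.o_notMem h (e ▸ hq)

theorem rep_o_core : rep p.c p.o ∈ core p C := Finset.mem_insert_self _ _

theorem C_core {r : V} (h : r ∈ C) : r ∈ core p C := Finset.mem_insert_of_mem h

theorem sR_disj (hs : p.Sep C S) {h h' : β} (hne : h ≠ h') : Disjoint (sR p C S h) (sR p C S h') := by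
  rw [Set.disjoint_left]
  rintro r ⟨h1, h2⟩ ⟨h3, _⟩
  have : r ∈ S h ∩ S h' := Finset.mem_inter.mpr ⟨h1, h3⟩
  rw [hs.hSS h h' hne] at this
  exact h2 (C_core this)

theorem cO_disj {h h' : β} (hne : h ≠ h') : Disjoint (cO p C h) (cO p C h') := by
  rw [Set.disjoint_left]
  rintro q ⟨_, h1⟩ ⟨_, h2⟩
  exact Finset.disjoint_left.mp (p.O_disj h h' hne) h1 h2

theorem zn_disj (hs : p.Sep C S) {h h' : β} (hne : h ≠ h') :
    Disjoint (zn p C S h) (zn p C S h') := by
  rw [Set.disjoint_left]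
  rintro q (h1 | h1) (h2 | h2)
  · exact Set.disjoint_left.mp (sR_disj hs hne) h1 h2
  · exact h1.2 h2.1
  · exact h2.2 h1.1
  · exact Set.disjoint_left.mp (cO_disj hne) h1 h2

theorem zn_O (hs : p.Sep C S) {h h' : β} (hne : h ≠ h') :
    Disjoint (zn p C S h) (p.O h' : Set V) := by
  rw [Set.disjoint_left]
  rintro q (h1 | h1) h2
  · refine hs.sep h' h hne.symm q h2 (Finset.mem_sdiff.mpr ⟨h1.1, fun hC => h1.2 (C_core hC)⟩)
  · exact Finset.disjoint_left.mp (p.O_disj h h' hne) h1.2 h2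

theorem zn_rset {h : β} {j : ℕ} : Disjoint (zn p C S h) {q | rep p.c q ∈ rset (cr p C S) j} := by
  rw [Set.disjoint_left]
  rintro q h1 h2
  have h3 := (mem_cr p C S).mp (rset_sub _ h2)
  rcases h1 with h1 | h1
  · exact h3.2 h h1.1
  · exact h3.1 h1.1

theorem cover' (hs : p.Sep C S) {h : β} {q : V} (hq : q ∈ p.O h) (hz : q ∉ zn p C S h) :
    rep p.c q ∈ cr p C S := by
  rw [mem_cr]
  have hc : rep p.c q ∉ core p C := fun hc => hz (Or.inr ⟨hc, hq⟩)
  refine ⟨hc, fun h' => ?_⟩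
  rcases eq_or_ne h' h with rfl | hne
  · exact fun hS => hz (Or.inl ⟨hS, hc⟩)
  · exact fun hS => hs.sep h h' hne.symm q hq
      (Finset.mem_sdiff.mpr ⟨hS, fun hC => hc (C_core hC)⟩)

theorem inp_zn (hs : p.Sep C S) (h : β) : p.inp h ∈ zn p C S h := by
  by_cases hc : rep p.c (p.inp h) ∈ core p C
  · exact Or.inr ⟨hc, p.inp_O h⟩
  · exact Or.inl ⟨hs.hin h, hc⟩

theorem regOp_sR_proj (h : β) : IsStarProjection (regOp p.c p.Θ (sR p C S h)) :=
  p.good.regOp_proj _ _ fun q hq => p.hΘ q fun e => by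
    subst e
    exact hq.2 rep_o_core

open Classical in
/-- the block system -/
noncomputable def mk (hs : p.Sep C S) (t : V → ℝ) (Ef Ff : V → M2)
    (ht0 : ∀ q, 0 ≤ t q) (ht1 : ∀ q, t q ≤ 1) (hE : ∀ q, IsStarProjection (Ef q))
    (hF : ∀ q, IsStarProjection (Ff q)) : Sys V β where
  O := p.O
  inp := p.inp
  zone := zn p C S
  m := (cr p C S).card
  G := fun j => {q | rep p.c q ∈ rset (cr p C S) j}
  pi := p.pi
  th := p.th
  γ := p.γ
  x1 := p.x1
  Q := fun j => regOp p.c p.Θ (rset (cr p C S) j)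
  E := fun h => regOp p.c p.Θ (sR p C S h) * onSet (cO p C h) Ef
  F := fun h => onSet (cO p C h) Ff
  lam := fun h => ∏ q ∈ Finset.univ.filter (fun q => q ∈ cO p C h), t q
  pi_unit := p.pi_unit
  th_unit := p.th_unit
  γ0 := p.γ0
  γ1 := p.γ1
  hγ := p.hγ
  x1_star := p.x1_star
  x1_sq := p.x1_sq
  x1_off := p.x1_off
  Q_proj := fun j => p.good.regOp_proj _ _ fun q hq => p.hΘ q fun e => by
    subst e
    exact ((mem_cr p C S).mp (rset_sub _ hq)).1 rep_o_core
  Q_mem := fun j => p.good.regOp_mem _ _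
  E_proj := fun h => proj_mul (regOp_sR_proj h) (onSet_proj fun q _ => hE q)
    (locAlg_commute (S := {q | rep p.c q ∈ sR p C S h}) (T := cO p C h) (by
      rw [Set.disjoint_left]
      rintro q h1 h2
      exact h1.2 h2.1) (p.good.regOp_mem _ _) (onSet_mem _ _))
  F_proj := fun h => onSet_proj fun q _ => hF q
  E_mem := fun h => mul_mem (locAlg_mono Set.subset_union_left (p.good.regOp_mem _ _))
    (locAlg_mono Set.subset_union_right (onSet_mem _ _))
  F_mem := fun h => locAlg_mono Set.subset_union_right (onSet_mem _ _)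
  lam0 := fun h => Finset.prod_nonneg fun q _ => ht0 q
  lam1 := fun h => Finset.prod_le_one (fun q _ => ht0 q) fun q _ => ht1 q
  O_disj := p.O_disj
  zone_disj := fun h h' hne => zn_disj hs hne
  G_disj := fun i j hij => by
    rw [Set.disjoint_left]
    exact fun q h1 h2 => Set.disjoint_left.mp (rset_disj _ hij) h1 h2
  zone_G := fun h j => zn_rset
  zone_O := fun h h' hne => zn_O hs hne
  cover := fun h q hq => by
    by_cases hz : q ∈ zn p C S h
    · exact Or.inl hz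
    · right
      obtain ⟨j, hj, hr⟩ := rset_cover _ (cover' hs hq hz)
      simp only [Set.mem_iUnion]
      exact ⟨j, hj, hr⟩
  inp_O := p.inp_O
  inp_zone := inp_zn hs

variable {t : V → ℝ} {Ef Ff : V → M2}
    {ht0 : ∀ q, 0 ≤ t q} {ht1 : ∀ q, t q ≤ 1} {hE : ∀ q, IsStarProjection (Ef q)}
    {hF : ∀ q, IsStarProjection (Ff q)}

theorem wt_eq (hs : p.Sep C S) (i : Fin (cr p C S).card) (h : β) :
    (mk hs t Ef Ff ht0 ht1 hE hF).wt i h = p.w h ((cr p C S).equivFin.symm i : V) := by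
  classical
  unfold Sys.wt PS.w
  congr 1
  refine Finset.prod_congr ?_ fun q _ => rfl
  ext q
  simp only [Finset.mem_filter, Finset.mem_erase]
  change (q ∈ p.O h ∧ rep p.c q ∈ rset (cr p C S) i) ↔ _
  rw [mem_rset_fin]
  constructor
  · rintro ⟨h1, h2⟩
    refine ⟨⟨?_, h1⟩, h2⟩
    rintro rfl
    have h3 : rep p.c (p.inp h) ∈ cr p C S := h2 ▸ ((cr p C S).equivFin.symm i).2
    exact ((mem_cr p C S).mp h3).2 h (hs.hin h)
  · rintro ⟨⟨_, h1⟩, h2⟩
    exact ⟨h1, h2⟩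

theorem sum_wt (hs : p.Sep C S) (h : β) (f : ℝ → ℝ) :
    ∑ j ∈ Finset.range (mk hs t Ef Ff ht0 ht1 hE hF).m, f ((mk hs t Ef Ff ht0 ht1 hE hF).wt j h) =
      ∑ r ∈ cr p C S, f (p.w h r) := by
  change ∑ j ∈ Finset.range (cr p C S).card, f ((mk hs t Ef Ff ht0 ht1 hE hF).wt j h) = _
  rw [Finset.sum_range]
  simp only [wt_eq]
  rw [Equiv.sum_comp (cr p C S).equivFin.symm (fun r : (cr p C S) => f (p.w h (r : V))),
    Finset.sum_coe_sort (cr p C S) (fun r => f (p.w h r))]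

theorem w_nonneg (p : PS V β) (h : β) (r : V) : 0 ≤ p.w h r := by
  unfold PS.w
  rw [sub_nonneg]
  exact Finset.prod_le_one (fun q _ => sq_nonneg _) fun q _ => pow_le_one₀ (p.γ0 q) (p.γ1 q)

theorem rearr {M : Type} [Monoid M] (A B D G : M) (h : Commute A (B * D)) :
    A * B * (D * G) = B * D * (A * G) := by
  calc A * B * (D * G) = (A * (B * D)) * G := by simp only [mul_assoc]
    _ = (B * D * A) * G := by rw [h.eq]
    _ = B * D * (A * G) := by simp only [mul_assoc]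

theorem Y_eq (hs : p.Sep C S) (Ψ : V → M2)
    (hΨ : ∀ q, q ≠ p.o → Ψ q = (t q : ℂ) • (Ef q * Ff q)) (h : β) :
    (mk hs t Ef Ff ht0 ht1 hE hF).Y h = regOp p.c p.Θ (sR p C S h) * onSet (cO p C h) Ψ := by
  classical
  change (((∏ q ∈ Finset.univ.filter (fun q => q ∈ cO p C h), t q : ℝ) : ℂ)) •
    (regOp p.c p.Θ (sR p C S h) * onSet (cO p C h) Ef * onSet (cO p C h) Ff) = _
  rw [mul_assoc, onSet_mul, ← mul_smul_comm, Complex.ofReal_prod]
  congr 1
  rw [onSet_congr (f := Ψ) (g := fun q => (t q : ℂ) • (Ef q * Ff q)) fun q hq => hΨ q (ne_o hq.2),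
    onSet_smul]

theorem YY_eq (hs : p.Sep C S) (Ψ : V → M2)
    (hΨ : ∀ q, q ≠ p.o → Ψ q = (t q : ℂ) • (Ef q * Ff q)) (J : Finset β) :
    (mk hs t Ef Ff ht0 ht1 hE hF).YY J = act (onSet {q | ∃ h ∈ J, q ∈ cO p C h} Ψ *
      regOp p.c p.Θ {r | ∃ h ∈ J, r ∈ sR p C S h}) := by
  induction J using Finset.induction_on with
  | empty =>
    have e1 : {q : V | ∃ h ∈ (∅ : Finset β), q ∈ cO p C h} = ∅ := by ext; simp
    have e2 : {q : V | ∃ h ∈ (∅ : Finset β), q ∈ sR p C S h} = ∅ := by ext; simp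
    rw [e1, e2, onSet_empty, p.good.regOp_empty, one_mul, map_one]
    rfl
  | insert h J hh ih =>
    have e1 : {q : V | ∃ k ∈ insert h J, q ∈ cO p C k} =
        cO p C h ∪ {q | ∃ k ∈ J, q ∈ cO p C k} := by
      ext q; simp
    have e2 : {q : V | ∃ k ∈ insert h J, q ∈ sR p C S k} =
        sR p C S h ∪ {q | ∃ k ∈ J, q ∈ sR p C S k} := by
      ext q; simp
    have d1 : Disjoint (cO p C h) {q | ∃ k ∈ J, q ∈ cO p C k} := by
      rw [Set.disjoint_left]
      rintro q h1 ⟨k, hk, h2⟩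
      have hne : h ≠ k := fun e => hh (e ▸ hk)
      exact Set.disjoint_left.mp (cO_disj hne) h1 h2
    have d2 : Disjoint (sR p C S h) {q | ∃ k ∈ J, q ∈ sR p C S k} := by
      rw [Set.disjoint_left]
      rintro q h1 ⟨k, hk, h2⟩
      have hne : h ≠ k := fun e => hh (e ▸ hk)
      exact Set.disjoint_left.mp (sR_disj hs hne) h1 h2
    have hc : Commute (regOp p.c p.Θ (sR p C S h))
        (onSet (cO p C h ∪ {q | ∃ k ∈ J, q ∈ cO p C k}) Ψ) := by
      refine locAlg_commute (S := {q | rep p.c q ∈ sR p C S h})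
        (T := cO p C h ∪ {q | ∃ k ∈ J, q ∈ cO p C k}) ?_ (p.good.regOp_mem _ _) (onSet_mem _ _)
      rw [Set.disjoint_left]
      rintro q h1 (h2 | ⟨k, _, h2⟩)
      · exact h1.2 h2.1
      · exact h1.2 h2.1
    rw [onSet_union d1] at hc
    rw [Sys.YY_insert _ _ _ hh, ih, Y_eq hs Ψ hΨ, ← map_mul, e1, e2,
      p.good.regOp_union _ _ _ d2, onSet_union d1, rearr _ _ _ _ hc]

end HS

/-- the block system of one term of the expansion of the core -/
theorem exists_sys (p : PS V β) (C : Finset V) (S : β → Finset V) (hs : p.Sep C S) (Ψ : V → M2)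
    (hΨ1 : ∀ q, rep p.c q ∉ insert (rep p.c p.o) C → Ψ q = 1)
    (hΨ2 : ∀ q, q ≠ p.o → EF (Ψ q)) (hΨ3 : ‖Ψ p.o‖ ≤ 1) :
    ∃ (s : Sys V β) (Z : Op V) (T : Set V),
      s.O = p.O ∧ s.inp = p.inp ∧ s.pi = p.pi ∧ s.th = p.th ∧ s.x1 = p.x1 ∧
      (∀ h, ∑ j ∈ Finset.range s.m, s.wt j h ≤ ∑ r, p.w h r) ∧
      (∀ τ : ℝ, 0 ≤ τ → ∀ h, ∑ j ∈ (Finset.range s.m).filter (fun j => τ < s.wt j h), s.wt j h ≤
        ∑ r ∈ Finset.univ.filter (fun r => r ∉ S h ∧ τ < p.w h r), p.w h r) ∧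
      ‖Z‖ ≤ 1 ∧ Z ∈ locAlg T ∧ (∀ h, Disjoint T (p.O h : Set V)) ∧
      act (prodOp Ψ * regOp p.c p.Θ ((insert (rep p.c p.o) C : Finset V) : Set V)ᶜ) =
        act Z * s.YY Finset.univ * s.Qall := by
  classical
  have hex : ∀ q, ∃ (t : ℝ) (E F : M2), 0 ≤ t ∧ t ≤ 1 ∧ IsStarProjection E ∧ IsStarProjection F ∧
      (q ≠ p.o → Ψ q = (t : ℂ) • (E * F)) := by
    intro q
    by_cases hq : q = p.o
    · exact ⟨0, 0, 0, le_rfl, zero_le_one, .zero _, .zero _, fun h => absurd hq h⟩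
    · obtain ⟨t, E, F, h0, h1, h2, h3, h4⟩ := hΨ2 q hq
      exact ⟨t, E, F, h0, h1, h2, h3, fun _ => h4⟩
  choose t Ef Ff ht0 ht1 hE hF hΨ using hex
  set T : Set V := {q | rep p.c q ∈ HS.core p C ∧ ∀ h, q ∉ p.O h} with hT
  refine ⟨HS.mk hs t Ef Ff ht0 ht1 hE hF, onSet T Ψ, T, rfl, rfl, rfl, rfl, rfl, ?_, ?_, ?_,
    onSet_mem _ _, ?_, ?_⟩
  · intro h
    rw [HS.sum_wt hs h (fun x => x)]
    exact Finset.sum_le_sum_of_subset_of_nonneg (Finset.subset_univ _)
      fun r _ _ => HS.w_nonneg p h r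
  · intro τ hτ h
    rw [Finset.sum_filter, HS.sum_wt hs h (fun x => if τ < x then x else 0), ← Finset.sum_filter]
    refine Finset.sum_le_sum_of_subset_of_nonneg ?_ fun r _ _ => HS.w_nonneg p h r
    intro r hr
    rw [Finset.mem_filter] at hr
    rw [Finset.mem_filter]
    exact ⟨Finset.mem_univ _, ((HS.mem_cr p C S).mp hr.1).2 h, hr.2⟩
  · refine prodOp_norm_le _ fun q => ?_
    split_ifs with hq
    · by_cases hqo : q = p.o
      · rw [hqo]
        exact hΨ3
      · rw [hΨ q hqo, norm_smul, Complex.norm_real, Real.norm_eq_abs, abs_of_nonneg (ht0 q)]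
        have h1 : ‖Ef q * Ff q‖ ≤ 1 :=
          (norm_mul_le _ _).trans (mul_le_one₀ (IsStarProjection.norm_le _ (hE q)) (norm_nonneg _)
            (IsStarProjection.norm_le _ (hF q)))
        exact mul_le_one₀ (ht1 q) (norm_nonneg _) h1
    · exact (CStarRing.norm_of_mem_unitary (one_mem _)).le
  · intro h
    rw [Set.disjoint_left]
    exact fun q h1 h2 => h1.2 h h2
  · have e1 : {q : V | ∃ h ∈ (Finset.univ : Finset β), q ∈ HS.cO p C h} =
        {q | ∃ h, q ∈ HS.cO p C h} := by ext; simp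
    have e2 : {r : V | ∃ h ∈ (Finset.univ : Finset β), r ∈ HS.sR p C S h} =
        {r | ∃ h, r ∈ HS.sR p C S h} := by ext; simp
    have hQ : (HS.mk hs t Ef Ff ht0 ht1 hE hF).Qall =
        act (regOp p.c p.Θ {r | ∃ j < (HS.cr p C S).card, r ∈ HS.rset (HS.cr p C S) j}) :=
      HS.pre_regOp p.good p.Θ (HS.cr p C S) (HS.cr p C S).card
    rw [HS.YY_eq hs Ψ hΨ, hQ, e1, e2, ← map_mul, ← map_mul]
    congr 1
    have e3 : (((insert (rep p.c p.o) C : Finset V) : Set V)ᶜ) = {r | ∃ h, r ∈ HS.sR p C S h} ∪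
        {r | ∃ j < (HS.cr p C S).card, r ∈ HS.rset (HS.cr p C S) j} := by
      ext r
      simp only [Set.mem_compl_iff, Finset.mem_coe, Set.mem_union, Set.mem_ofPred_eq]
      constructor
      · intro hr
        by_cases hS : ∃ h, r ∈ S h
        · obtain ⟨h, hS⟩ := hS
          exact Or.inl ⟨h, hS, hr⟩
        · push Not at hS
          exact Or.inr (HS.rset_cover _ ((HS.mem_cr p C S).mpr ⟨hr, hS⟩))
      · rintro (⟨h, h1⟩ | ⟨j, _, h1⟩)
        · exact h1.2
        · exact ((HS.mem_cr p C S).mp (HS.rset_sub _ h1)).1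
    have d3 : Disjoint {r | ∃ h, r ∈ HS.sR p C S h}
        {r | ∃ j < (HS.cr p C S).card, r ∈ HS.rset (HS.cr p C S) j} := by
      rw [Set.disjoint_left]
      rintro r ⟨h, h1⟩ ⟨j, _, h2⟩
      exact ((HS.mem_cr p C S).mp (HS.rset_sub _ h2)).2 h h1.1
    have e4 : prodOp Ψ = onSet T Ψ * onSet {q | ∃ h, q ∈ HS.cO p C h} Ψ := by
      unfold onSet
      rw [prodOp_mul]
      congr 1
      funext q
      by_cases hc : rep p.c q ∈ HS.core p C
      · by_cases hO : ∃ h, q ∈ p.O h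
        · obtain ⟨h, hO⟩ := hO
          rw [if_neg (fun hT' : q ∈ T => hT'.2 h hO), if_pos (show q ∈ {q | ∃ h, q ∈ HS.cO p C h}
            from ⟨h, hc, hO⟩), one_mul]
        · push Not at hO
          rw [if_pos (show q ∈ T from ⟨hc, hO⟩),
            if_neg (fun h' : q ∈ {q | ∃ h, q ∈ HS.cO p C h} => hO h'.choose h'.choose_spec.2),
            mul_one]
      · rw [if_neg (fun hT' : q ∈ T => hc hT'.1),
          if_neg (fun h' : q ∈ {q | ∃ h, q ∈ HS.cO p C h} => hc h'.choose_spec.1), mul_one]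
        exact hΨ1 q hc
    rw [e3, p.good.regOp_union _ _ _ d3, e4]
    simp only [mul_assoc]

theorem HS.mix_congr {A B : Bool → β → (HV V →L[ℂ] HV V)} (h : A = B)
    (hA : ∀ h h', h ≠ h' → ∀ a b, Commute (A a h) (A b h'))
    (hB : ∀ h h', h ≠ h' → ∀ a b, Commute (B a h) (B b h')) (J I : Finset β) :
    mix A hA J I = mix B hB J I := by
  subst h
  rfl

theorem sep_bound (p : PS V β) (C : Finset V) (S : β → Finset V) (hs : p.Sep C S)
    (τ W ζ g : ℝ) (hτ : 0 ≤ τ) (hg : 0 ≤ g) (hW : ∀ h, ∑ r, p.w h r ≤ W)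
    (hζ : ∀ h, ∑ r ∈ Finset.univ.filter (fun r => r ∉ S h ∧ τ < p.w h r), p.w h r ≤ ζ)
    (hgam : ∀ s : Sys V β, (∀ h, ∑ j ∈ Finset.range s.m, s.wt j h ≤ W) →
      (∀ h, ∑ j ∈ (Finset.range s.m).filter (fun j => τ < s.wt j h), s.wt j h ≤ ζ) →
      ∀ a b, s.Dom Finset.univ a → s.Dom Finset.univ b →
        ‖s.Gam Finset.univ b a‖ ≤ g * ‖b‖ * ‖a‖)
    (a b : HV V) (ha : p.Dom Finset.univ a) (hb : p.Dom Finset.univ b) :
    ‖p.Gam0 Finset.univ b a‖ ≤ 9 ^ (C.card + 1) * g * ‖b‖ * ‖a‖ := by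
  obtain ⟨N, w, Ψ, hw, h1, h2, h3, h4⟩ :=
    p.good.regOp_expand p.Θ p.o p.hΘ p.ho (insert (rep p.c p.o) C)
  have hsys := fun i => exists_sys p C S hs (Ψ i) (h1 i) (h2 i) (h3 i)
  choose s Z T hO hinp hpi hth hx1 hwt hwt' hZ hZT hTO hact using hsys
  have hCop : ∀ i, (s i).Cop = p.Cop := by
    intro i
    funext b h
    unfold Sys.Cop PS.Cop Sys.R PS.R Sys.X PS.X
    rw [hs.tr h, hO, hinp, hth, hx1]
    simp
  have hCC : ∀ i J I, (s i).CC J I = p.CC J I := fun i J I => HS.mix_congr (hCop i) _ _ _ _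
  have hDom : ∀ i a, p.Dom Finset.univ a → (s i).Dom Finset.univ a := by
    intro i a ha h hh
    unfold Sys.Pf
    rw [hO, hpi]
    exact ha h hh
  have hBC : ∀ i, (s i).BC Finset.univ (star (act (Z i))) := by
    intro i
    refine Sys.BC.star (Sys.BC.of_mem (hZT i) fun h _ => ?_)
    rw [hO]
    exact hTO i h
  have hreg : act (regOp p.c p.Θ Set.univ) =
      ∑ i, w i • (act (Z i) * (s i).YY Finset.univ * (s i).Qall) := by
    have e : (Set.univ : Set V) = ((insert (rep p.c p.o) C : Finset V) : Set V) ∪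
        ((insert (rep p.c p.o) C : Finset V) : Set V)ᶜ := (Set.union_compl_self _).symm
    rw [e, p.good.regOp_union _ _ _ disjoint_compl_right, h4, Finset.sum_mul, map_sum]
    refine Finset.sum_congr rfl fun i _ => ?_
    rw [smul_mul_assoc, map_smul, hact]
  have hterm : ∀ i (I : Finset β), ⟪p.CC Finset.univ I b,
      (act (Z i) * (s i).YY Finset.univ * (s i).Qall) (p.CC Finset.univ I a)⟫_ℂ =
      ⟪(s i).CC Finset.univ I (star (act (Z i)) b),
        (s i).YY Finset.univ ((s i).Qall ((s i).CC Finset.univ I a))⟫_ℂ := by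
    intro i I
    rw [← (hBC i).CC_apply I b, hCC, ContinuousLinearMap.star_eq_adjoint,
      ContinuousLinearMap.adjoint_inner_left]
    rfl
  have hG : p.Gam0 Finset.univ b a =
      ∑ i, w i * (s i).Gam Finset.univ (star (act (Z i)) b) a := by
    unfold PS.Gam0 Sys.Gam
    rw [hreg]
    simp only [_root_.sum_apply, _root_.smul_apply, inner_sum,
      inner_smul_right, hterm]
    rw [Finset.mul_sum]
    simp only [Finset.mul_sum]
    rw [Finset.sum_comm]
    refine Finset.sum_congr rfl fun i _ => Finset.sum_congr rfl fun I _ => ?_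
    ring
  rw [hG]
  have hstar : ∀ i, ‖star (act (Z i)) b‖ ≤ ‖b‖ := by
    intro i
    rw [Sys.star_act]
    refine norm_act_le ?_ b
    rw [norm_star]
    exact hZ i
  have hb1 : ∀ i, ‖w i * (s i).Gam Finset.univ (star (act (Z i)) b) a‖ ≤
      ‖w i‖ * (g * ‖b‖ * ‖a‖) := by
    intro i
    rw [norm_mul]
    refine mul_le_mul_of_nonneg_left ?_ (norm_nonneg _)
    refine (hgam (s i) (fun h => (hwt i h).trans (hW h)) (fun h => (hwt' i τ hτ h).trans (hζ h))
      a _ (hDom i a ha) ((hBC i).dom (hDom i b hb))).trans ?_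
    exact mul_le_mul_of_nonneg_right (mul_le_mul_of_nonneg_left (hstar i) hg) (norm_nonneg _)
  refine (norm_sum_le _ _).trans ((Finset.sum_le_sum fun i _ => hb1 i).trans ?_)
  rw [← Finset.sum_mul]
  have h5 : ∑ i, ‖w i‖ ≤ 9 ^ (C.card + 1) :=
    hw.trans (pow_le_pow_right₀ (by norm_num) (Finset.card_insert_le _ _))
  calc (∑ i, ‖w i‖) * (g * ‖b‖ * ‖a‖) ≤ 9 ^ (C.card + 1) * (g * ‖b‖ * ‖a‖) :=
        mul_le_mul_of_nonneg_right h5 (by positivity)
    _ = _ := by ring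

end P368.D3
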