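import Vale.Agent.P368.Defs

namespace P368.D3

open Matrix
open scoped BigOperators Matrix.Norms.L2Operator

abbrev M2 : Type := Matrix Bool Bool ℂ

abbrev Op (V : Type) : Type := Matrix (V → Bool) (V → Bool) ℂ

section Ops

variable {V : Type} [Fintype V] [DecidableEq V]

noncomputable def prodOp (B : V → M2) : Op V :=
  Matrix.of fun x y => ∏ v, B v (x v) (y v)

theorem prodOp_mul (B C : V → M2) : prodOp B * prodOp C = prodOp (fun v => B v * C v) := by
  ext x z
  simp only [prodOp, Matrix.mul_apply, Matrix.of_apply, ← Finset.prod_mul_distrib]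
  rw [Finset.prod_univ_sum, Fintype.piFinset_univ]

theorem prodOp_one : prodOp (fun _ : V => (1 : M2)) = 1 := by
  ext x y
  simp only [prodOp, Matrix.of_apply, Matrix.one_apply]
  rw [Finset.prod_ite_zero]
  simp [funext_iff]

theorem prodOp_star (B : V → M2) : star (prodOp B) = prodOp (fun v => star (B v)) := by
  ext x y
  simp [prodOp, Matrix.star_apply]

theorem prodOp_smul (B : V → M2) (v : V) (a : ℂ) :
    prodOp (Function.update B v (a • B v)) = a • prodOp B := by
  ext x y
  simp only [prodOp, Matrix.of_apply, Matrix.smul_apply, smul_eq_mul]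
  rw [← Finset.mul_prod_erase Finset.univ _ (Finset.mem_univ v),
    ← Finset.mul_prod_erase Finset.univ (fun w => B w (x w) (y w)) (Finset.mem_univ v)]
  simp only [Function.update_self, Matrix.smul_apply, smul_eq_mul, mul_assoc]
  congr 2
  refine Finset.prod_congr rfl fun w hw => ?_
  rw [Function.update_of_ne (Finset.ne_of_mem_erase hw)]

theorem prodOp_add (B : V → M2) (v : V) (A C : M2) :
    prodOp (Function.update B v (A + C)) =
      prodOp (Function.update B v A) + prodOp (Function.update B v C) := by
  ext x y
  simp only [prodOp, Matrix.of_apply, Matrix.add_apply]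
  rw [← Finset.mul_prod_erase Finset.univ _ (Finset.mem_univ v),
    ← Finset.mul_prod_erase Finset.univ
      (fun w => Function.update B v A w (x w) (y w)) (Finset.mem_univ v),
    ← Finset.mul_prod_erase Finset.univ
      (fun w => Function.update B v C w (x w) (y w)) (Finset.mem_univ v)]
  simp only [Function.update_self, Matrix.add_apply, add_mul]
  congr 1 <;> congr 1 <;> refine Finset.prod_congr rfl fun w hw => ?_ <;>
    rw [Function.update_of_ne (Finset.ne_of_mem_erase hw),
      Function.update_of_ne (Finset.ne_of_mem_erase hw)]

theorem prodOp_one' : prodOp (1 : V → M2) = 1 := prodOp_one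

noncomputable def siteHom (v : V) : M2 →⋆ₙₐ[ℂ] Op V where
  toFun A := prodOp (Function.update 1 v A)
  map_smul' a A := by
    have := prodOp_smul (Function.update (1 : V → M2) v A) v a
    simpa using this
  map_zero' := by
    have := prodOp_smul (Function.update (1 : V → M2) v 0) v 0
    simpa using this
  map_add' A C := prodOp_add 1 v A C
  map_mul' A C := by
    rw [prodOp_mul]
    congr 1
    funext w
    rcases eq_or_ne w v with rfl | hw
    · simp
    · simp [Function.update_of_ne hw]
  map_star' A := by
    rw [prodOp_star]
    congr 1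
    funext w
    rcases eq_or_ne w v with rfl | hw
    · simp
    · simp [Function.update_of_ne hw]

theorem prodOp_norm_le (B : V → M2) (h : ∀ v, ‖B v‖ ≤ 1) : ‖prodOp B‖ ≤ 1 := by
  have key : ∀ s : Finset V, ‖prodOp (fun v => if v ∈ s then B v else 1)‖ ≤ 1 := by
    intro s
    induction s using Finset.induction_on with
    | empty =>
      simp only [Finset.notMem_empty, if_false]
      rw [prodOp_one]
      exact (CStarRing.norm_of_mem_unitary (one_mem _)).le.trans le_rfl
    | insert v s hv ih =>
      have : prodOp (fun w => if w ∈ insert v s then B w else 1) =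
          siteHom v (B v) * prodOp (fun w => if w ∈ s then B w else 1) := by
        change _ = prodOp (Function.update 1 v (B v)) * _
        rw [prodOp_mul]
        congr 1
        funext w
        rcases eq_or_ne w v with rfl | hw
        · simp [hv]
        · simp [Function.update_of_ne hw, hw]
      rw [this]
      refine (norm_mul_le _ _).trans ?_
      have h1 : ‖siteHom v (B v)‖ ≤ 1 :=
        (NonUnitalStarAlgHom.norm_apply_le (siteHom v) (B v)).trans (h v)
      calc ‖siteHom v (B v)‖ * ‖prodOp (fun w => if w ∈ s then B w else 1)‖ ≤ 1 * 1 :=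
            mul_le_mul h1 ih (norm_nonneg _) zero_le_one
        _ = 1 := one_mul 1
  simpa using key Finset.univ

theorem prodOp_proj (B : V → M2) (h : ∀ v, IsStarProjection (B v)) :
    IsStarProjection (prodOp B) := by
  refine ⟨?_, ?_⟩
  · unfold IsIdempotentElem
    rw [prodOp_mul]
    congr 1
    funext v
    exact (h v).isIdempotentElem
  · unfold IsSelfAdjoint
    rw [prodOp_star]
    congr 1
    funext v
    exact (h v).isSelfAdjoint

/-- algebra generated by product operators that are trivial outside `S` -/
noncomputable def locAlg (S : Set V) : Subalgebra ℂ (Op V) :=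
  Algebra.adjoin ℂ {N : Op V | ∃ B : V → M2, (∀ v, v ∉ S → B v = 1) ∧ N = prodOp B}

theorem prodOp_mem {S : Set V} (B : V → M2) (h : ∀ v, v ∉ S → B v = 1) :
    prodOp B ∈ locAlg S :=
  Algebra.subset_adjoin ⟨B, h, rfl⟩

theorem locAlg_mono {S T : Set V} (h : S ⊆ T) : locAlg S ≤ locAlg T := by
  refine Algebra.adjoin_mono ?_
  rintro N ⟨B, hB, rfl⟩
  exact ⟨B, fun v hv => hB v fun hS => hv (h hS), rfl⟩

theorem star_mem_locAlg {S : Set V} {M : Op V} (h : M ∈ locAlg S) : star M ∈ locAlg S := by
  unfold locAlg at h ⊢
  induction h using Algebra.adjoin_induction with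
  | mem x hx =>
    obtain ⟨B, hB, rfl⟩ := hx
    rw [prodOp_star]
    exact Algebra.subset_adjoin ⟨_, fun v hv => by rw [hB v hv, star_one], rfl⟩
  | algebraMap r =>
    rw [← algebraMap_star_comm]
    exact Subalgebra.algebraMap_mem _ _
  | add x y _ _ hx hy =>
    rw [star_add]
    exact add_mem hx hy
  | mul x y _ _ hx hy =>
    rw [star_mul]
    exact mul_mem hy hx

theorem locAlg_commute {S T : Set V} (h : Disjoint S T) {M N : Op V} (hM : M ∈ locAlg S)
    (hN : N ∈ locAlg T) : Commute M N := by
  unfold locAlg at hM hN
  induction hM using Algebra.adjoin_induction with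
  | mem x hx =>
    obtain ⟨B, hB, rfl⟩ := hx
    induction hN using Algebra.adjoin_induction with
    | mem y hy =>
      obtain ⟨C, hC, rfl⟩ := hy
      unfold Commute SemiconjBy
      rw [prodOp_mul, prodOp_mul]
      congr 1
      funext v
      by_cases hv : v ∈ S
      · rw [hC v fun hT => Set.disjoint_left.mp h hv hT, mul_one, one_mul]
      · rw [hB v hv, mul_one, one_mul]
    | algebraMap r => exact Algebra.commute_algebraMap_right r _
    | add x y _ _ hx hy => exact hx.add_right hy
    | mul x y _ _ hx hy => exact hx.mul_right hy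
  | algebraMap r => exact Algebra.commute_algebraMap_left r _
  | add x y _ _ hx hy => exact hx.add_left hy
  | mul x y _ _ hx hy => exact hx.mul_left hy

theorem locAlg_conj {S : Set V} (W : V → M2) (hW : ∀ v, W v ∈ unitary M2) {M : Op V}
    (hM : M ∈ locAlg S) : prodOp W * M * star (prodOp W) ∈ locAlg S := by
  have hu : prodOp W * star (prodOp W) = 1 := by
    rw [prodOp_star, prodOp_mul, ← prodOp_one]
    congr 1
    funext v
    exact Unitary.mul_star_self_of_mem (hW v)
  have hu' : star (prodOp W) * prodOp W = 1 := by
    rw [prodOp_star, prodOp_mul, ← prodOp_one]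
    congr 1
    funext v
    exact Unitary.star_mul_self_of_mem (hW v)
  unfold locAlg at hM ⊢
  induction hM using Algebra.adjoin_induction with
  | mem x hx =>
    obtain ⟨B, hB, rfl⟩ := hx
    rw [prodOp_star, prodOp_mul, prodOp_mul]
    refine Algebra.subset_adjoin ⟨_, fun v hv => ?_, rfl⟩
    rw [hB v hv, mul_one]
    exact Unitary.mul_star_self_of_mem (hW v)
  | algebraMap r =>
    rw [← (Algebra.commute_algebraMap_left r (prodOp W)).eq, mul_assoc, hu, mul_one]
    exact Subalgebra.algebraMap_mem _ _
  | add x y _ _ hx hy =>
    rw [mul_add, add_mul]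
    exact add_mem hx hy
  | mul x y _ _ hx hy =>
    have : prodOp W * (x * y) * star (prodOp W) =
        (prodOp W * x * star (prodOp W)) * (prodOp W * y * star (prodOp W)) := by
      calc prodOp W * (x * y) * star (prodOp W)
          = prodOp W * x * 1 * y * star (prodOp W) := by noncomm_ring
        _ = prodOp W * x * (star (prodOp W) * prodOp W) * y * star (prodOp W) := by rw [hu']
        _ = _ := by noncomm_ring
    rw [this]
    exact mul_mem hx hy

end Ops

section Toffoli

variable {V : Type} [Fintype V] [DecidableEq V]

noncomputable def tof (c : V → Finset V) : Op V :=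
  Matrix.of fun z y => if toffoli c y = z then 1 else 0

structure Good (c : V → Finset V) : Prop where
  target_notMem : ∀ v, v ∉ c v
  disjoint : ∀ v w, v ≠ w → (c v).Nonempty → (c w).Nonempty →
    Disjoint (insert v (c v)) (insert w (c w))

/-- keep only the gates with target in `R` -/
def res (c : V → Finset V) (R : Set V) [DecidablePred (· ∈ R)] : V → Finset V :=
  fun v => if v ∈ R then c v else ∅

/-- qubits of the gate with target `v` -/
def gate (c : V → Finset V) (v : V) : Finset V := if (c v).Nonempty then insert v (c v) else ∅

/-- representative of the region of `q`: target of its gate, or `q` itself -/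
noncomputable def rep (c : V → Finset V) (q : V) : V :=
  open Classical in if h : ∃ v, q ∈ gate c v then h.choose else q

noncomputable def e1 : M2 := Matrix.of fun a b => if a = true ∧ b = true then 1 else 0

noncomputable def em : M2 := Matrix.of fun a b => if a = b then 1 / 2 else -1 / 2

theorem e1_proj : IsStarProjection e1 := by
  refine ⟨?_, ?_⟩
  · unfold IsIdempotentElem
    ext a b
    simp only [Matrix.mul_apply, e1, Matrix.of_apply, Fintype.sum_bool]
    cases a <;> cases b <;> simp
  · unfold IsSelfAdjoint
    ext a b
    simp only [Matrix.star_apply, e1, Matrix.of_apply]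
    cases a <;> cases b <;> simp

theorem em_proj : IsStarProjection em := by
  refine ⟨?_, ?_⟩
  · unfold IsIdempotentElem
    ext a b
    simp only [Matrix.mul_apply, em, Matrix.of_apply, Fintype.sum_bool]
    cases a <;> cases b <;> norm_num
  · unfold IsSelfAdjoint
    ext a b
    simp only [Matrix.star_apply, em, Matrix.of_apply]
    cases a <;> cases b <;> simp

/-- one-qubit factors of the projection of the gate with target `v` -/
noncomputable def gfac (c : V → Finset V) (v : V) : V → M2 :=
  fun q => if q ∈ c v then e1 else if q = v then em else 1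

/-- the projection of the gate with target `v` (zero if there is no gate) -/
noncomputable def Ug (c : V → Finset V) (v : V) : Op V :=
  open Classical in if (c v).Nonempty then prodOp (gfac c v) else 0

theorem Ug_mem (c : V → Finset V) (v : V) : Ug c v ∈ locAlg (gate c v : Set V) := by
  unfold Ug gate
  split_ifs with h
  · refine prodOp_mem _ fun q hq => ?_
    simp only [Finset.coe_insert, Set.mem_insert_iff, Finset.mem_coe, not_or] at hq
    simp [gfac, hq.1, hq.2]
  · exact zero_mem _

theorem Ug_proj (c : V → Finset V) (v : V) : IsStarProjection (Ug c v) := by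
  unfold Ug
  split_ifs with h
  · refine prodOp_proj _ fun q => ?_
    unfold gfac
    split_ifs
    · exact e1_proj
    · exact em_proj
    · exact .one _
  · exact .zero _

theorem tof_empty : tof (fun _ : V => (∅ : Finset V)) = 1 := by
  ext z y
  simp only [tof, Matrix.of_apply, Matrix.one_apply]
  have : toffoli (fun _ : V => (∅ : Finset V)) y = y := by
    funext v
    simp [toffoli]
  rw [this]
  simp only [eq_comm]

theorem Good.res {c : V → Finset V} (hc : Good c) (R : Set V) [DecidablePred (· ∈ R)] :
    Good (res c R) := by
  have hsub : ∀ v, D3.res c R v ⊆ c v := by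
    intro v
    unfold D3.res
    split_ifs
    · exact le_rfl
    · exact Finset.empty_subset _
  refine ⟨fun v hv => hc.target_notMem v (hsub v hv), fun v w hvw hv hw => ?_⟩
  exact (hc.disjoint v w hvw (hv.mono (hsub v)) (hw.mono (hsub w))).mono
    (Finset.insert_subset_insert _ (hsub v)) (Finset.insert_subset_insert _ (hsub w))

theorem toffoli_val (c : V → Finset V) (z : V → Bool) (v : V)
    [inst : Decidable ((c v).Nonempty ∧ ∀ w ∈ c v, z w = true)] :
    toffoli c z v = xor (z v) (decide ((c v).Nonempty ∧ ∀ w ∈ c v, z w = true)) := by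
  unfold toffoli
  congr

theorem Good.ctrl_fix {c : V → Finset V} (hc : Good c) {v w : V} (hw : w ∈ c v) (z : V → Bool) :
    toffoli c z w = z w := by
  have hne : w ≠ v := fun h => hc.target_notMem v (h ▸ hw)
  have : ¬ (c w).Nonempty := by
    intro hcw
    have hd := hc.disjoint v w hne.symm ⟨w, hw⟩ hcw
    exact Finset.disjoint_left.mp hd (Finset.mem_insert_of_mem hw) (Finset.mem_insert_self _ _)
  simp [toffoli, this]

theorem tof_apply (c : V → Finset V) (z y : V → Bool) :
    tof c z y = if toffoli c y = z then 1 else 0 := rfl

theorem mul_tof_apply (M : Op V) (c : V → Finset V) (z y : V → Bool) :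
    (M * tof c) z y = M z (toffoli c y) := by
  rw [Matrix.mul_apply]
  simp [tof_apply]

theorem Good.invol {c : V → Finset V} (hc : Good c) (z : V → Bool) :
    toffoli c (toffoli c z) = z := by
  funext v
  have h1 : (∀ w ∈ c v, toffoli c z w = true) ↔ ∀ w ∈ c v, z w = true := by
    constructor
    · intro h w hw
      rw [← hc.ctrl_fix hw z]
      exact h w hw
    · intro h w hw
      rw [hc.ctrl_fix hw z]
      exact h w hw
  have h2 : toffoli c (toffoli c z) v =
      xor (toffoli c z v) (decide ((c v).Nonempty ∧ ∀ w ∈ c v, toffoli c z w = true)) :=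
    toffoli_val c _ v
  rw [h2]
  have h3 : decide ((c v).Nonempty ∧ ∀ w ∈ c v, toffoli c z w = true) =
      decide ((c v).Nonempty ∧ ∀ w ∈ c v, z w = true) := by
    simp only [h1]
  rw [h3]
  simp [toffoli]

theorem Good.tof_mul_self {c : V → Finset V} (hc : Good c) : tof c * tof c = 1 := by
  ext z y
  rw [mul_tof_apply, tof_apply, hc.invol, Matrix.one_apply]
  simp only [eq_comm]

theorem Good.star_tof {c : V → Finset V} (hc : Good c) : star (tof c) = tof c := by
  ext z y
  rw [Matrix.star_apply, tof_apply, tof_apply]
  have : toffoli c z = y ↔ toffoli c y = z := by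
    constructor
    · intro h
      rw [← h, hc.invol]
    · intro h
      rw [← h, hc.invol]
  simp only [this]
  split_ifs <;> simp

open Classical in
theorem Good.toffoli_union {c : V → Finset V} (hc : Good c) (R R' : Set V) (h : Disjoint R R')
    (y : V → Bool) :
    toffoli (D3.res c (R ∪ R')) y = toffoli (D3.res c R) (toffoli (D3.res c R') y) := by
  funext v
  have h2 : toffoli (D3.res c R) (toffoli (D3.res c R') y) v =
      xor (toffoli (D3.res c R') y v) (decide ((D3.res c R v).Nonempty ∧
        ∀ w ∈ D3.res c R v, toffoli (D3.res c R') y w = true)) :=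
    toffoli_val _ _ v
  have h3 : toffoli (D3.res c (R ∪ R')) y v =
      xor (y v) (decide ((D3.res c (R ∪ R') v).Nonempty ∧
        ∀ w ∈ D3.res c (R ∪ R') v, y w = true)) := toffoli_val _ _ v
  have h4 : toffoli (D3.res c R') y v =
      xor (y v) (decide ((D3.res c R' v).Nonempty ∧
        ∀ w ∈ D3.res c R' v, y w = true)) := toffoli_val _ _ v
  rw [h2, h3, h4]
  by_cases hR : v ∈ R
  · have hR' : v ∉ R' := Set.disjoint_left.mp h hR
    have e1 : D3.res c (R ∪ R') v = c v := by simp [D3.res, hR]
    have e2 : D3.res c R v = c v := by simp [D3.res, hR]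
    have e3 : D3.res c R' v = ∅ := by simp [D3.res, hR']
    rw [e1, e2, e3]
    have h1 : (∀ w ∈ c v, toffoli (D3.res c R') y w = true) ↔ ∀ w ∈ c v, y w = true := by
      have key : ∀ w ∈ c v, toffoli (D3.res c R') y w = y w := by
        intro w hw
        have hne : w ≠ v := fun h => hc.target_notMem v (h ▸ hw)
        have : ¬ (c w).Nonempty := by
          intro hcw
          have hd := hc.disjoint v w hne.symm ⟨w, hw⟩ hcw
          exact Finset.disjoint_left.mp hd (Finset.mem_insert_of_mem hw)
            (Finset.mem_insert_self _ _)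
        have h5 : D3.res c R' w = ∅ := by
          unfold D3.res
          split_ifs
          · exact Finset.not_nonempty_iff_eq_empty.mp this
          · rfl
        have h6 : toffoli (D3.res c R') y w = xor (y w) (decide ((D3.res c R' w).Nonempty ∧
            ∀ u ∈ D3.res c R' w, y u = true)) := toffoli_val _ _ w
        rw [h6, h5]
        simp
      constructor
      · intro hh w hw
        rw [← key w hw]
        exact hh w hw
      · intro hh w hw
        rw [key w hw]
        exact hh w hw
    simp only [h1]
    simp
  · have e2 : D3.res c R v = ∅ := by simp [D3.res, hR]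
    have e1 : D3.res c (R ∪ R') v = D3.res c R' v := by simp [D3.res, hR]
    rw [e1, e2]
    simp

open Classical in
theorem tof_singleton {c : V → Finset V} (hc : Good c) (v : V) :
    tof (D3.res c {v}) = 1 - (2 : ℂ) • Ug c v := by
  ext z y
  rw [tof_apply, Matrix.sub_apply, Matrix.smul_apply, Matrix.one_apply, smul_eq_mul]
  have hother : ∀ w, w ≠ v → toffoli (D3.res c {v}) y w = y w := by
    intro w hw
    simp [toffoli, D3.res, hw]
  by_cases hne : (c v).Nonempty
  · have hU : Ug c v z y = ∏ q, gfac c v q (z q) (y q) := by
      simp [Ug, hne, prodOp]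
    rw [hU]
    have hself : toffoli (D3.res c {v}) y v =
        xor (y v) (decide (∀ w ∈ c v, y w = true)) := by
      simp [toffoli, D3.res, hne]
    by_cases hctrl : ∀ w ∈ c v, y w = true
    · have hself' : toffoli (D3.res c {v}) y v = !(y v) := by
        rw [hself, decide_eq_true hctrl]
        simp
      by_cases hag : ∀ w, w ≠ v → z w = y w
      · have hprod : (∏ q, gfac c v q (z q) (y q)) = em (z v) (y v) := by
          rw [← Finset.mul_prod_erase Finset.univ _ (Finset.mem_univ v)]
          have h1 : gfac c v v = em := by
            simp [gfac, hc.target_notMem v]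
          rw [h1]
          have h2 : ∏ q ∈ Finset.univ.erase v, gfac c v q (z q) (y q) = 1 := by
            refine Finset.prod_eq_one fun q hq => ?_
            have hqv := Finset.ne_of_mem_erase hq
            rw [hag q hqv]
            by_cases hqc : q ∈ c v
            · simp [gfac, hqc, e1, hctrl q hqc]
            · simp [gfac, hqc, hqv]
          rw [h2, mul_one]
        rw [hprod]
        by_cases hzv : z v = y v
        · have hzy : z = y := by
            funext w
            rcases eq_or_ne w v with rfl | hw
            · exact hzv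
            · exact hag w hw
          have hn : ¬ toffoli (D3.res c {v}) y = z := by
            intro h
            have := congrFun h v
            rw [hself', hzv] at this
            simp at this
          rw [if_neg hn, if_pos hzy, hzv]
          simp [em]
        · have hzv' : z v = !(y v) := by
            revert hzv
            cases z v <;> cases y v <;> simp
          have hp : toffoli (D3.res c {v}) y = z := by
            funext w
            rcases eq_or_ne w v with rfl | hw
            · rw [hself', hzv']
            · rw [hother w hw, hag w hw]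
          have hzy : ¬ z = y := fun h => hzv (congrFun h v)
          rw [if_pos hp, if_neg hzy]
          simp [em, hzv]
          norm_num
      · have hprod : (∏ q, gfac c v q (z q) (y q)) = 0 := by
          push Not at hag
          obtain ⟨w, hw, hzw⟩ := hag
          refine Finset.prod_eq_zero (Finset.mem_univ w) ?_
          by_cases hwc : w ∈ c v
          · have hyw := hctrl w hwc
            have hzw' : z w = false := by
              rw [hyw] at hzw
              simpa using hzw
            simp [gfac, hwc, e1, hzw']
          · simp [gfac, hwc, hw, Matrix.one_apply, hzw]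
        have hp : ¬ toffoli (D3.res c {v}) y = z := by
          intro h
          apply hag
          intro w hw
          rw [← h, hother w hw]
        have hzy : ¬ z = y := by
          intro h
          apply hag
          intro w _
          rw [h]
        rw [hprod, if_neg hp, if_neg hzy]
        simp
    · have hself' : toffoli (D3.res c {v}) y v = y v := by
        rw [hself]
        simp [hctrl]
      have hy : toffoli (D3.res c {v}) y = y := by
        funext w
        rcases eq_or_ne w v with rfl | hw
        · exact hself'
        · exact hother w hw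
      have hprod : (∏ q, gfac c v q (z q) (y q)) = 0 := by
        push Not at hctrl
        obtain ⟨w, hw, hyw⟩ := hctrl
        refine Finset.prod_eq_zero (Finset.mem_univ w) ?_
        simp [gfac, hw, e1, hyw]
      rw [hprod, hy]
      simp only [eq_comm, mul_zero, sub_zero]
  · have hU : Ug c v = 0 := by simp [Ug, hne]
    have hemp : c v = ∅ := Finset.not_nonempty_iff_eq_empty.mp hne
    have hy : toffoli (D3.res c {v}) y = y := by
      funext w
      rcases eq_or_ne w v with rfl | hw
      · simp [toffoli, D3.res, hemp]
      · exact hother w hw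
    rw [hU, hy]
    simp only [eq_comm, Matrix.zero_apply, mul_zero, sub_zero]

open Classical in
/-- splitting off the gate with target `v` -/
theorem Good.tof_insert {c : V → Finset V} (hc : Good c) (R : Set V) (v : V) (hv : v ∉ R) :
    tof (D3.res c (insert v R)) = (1 - (2 : ℂ) • Ug c v) * tof (D3.res c R) := by
  rw [← tof_singleton hc v]
  ext z y
  rw [mul_tof_apply, tof_apply, tof_apply]
  have h1 := hc.toffoli_union {v} R (Set.disjoint_singleton_left.mpr hv) y
  have h2 : toffoli (D3.res c (insert v R)) y = toffoli (D3.res c {v}) (toffoli (D3.res c R) y) := by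
    convert h1 using 2
    · funext w
      simp [D3.res]
    · congr
  rw [h2]

open Classical in
theorem Good.tof_union {c : V → Finset V} (hc : Good c) (R R' : Set V) (h : Disjoint R R') :
    tof (D3.res c (R ∪ R')) = tof (D3.res c R) * tof (D3.res c R') := by
  ext z y
  rw [mul_tof_apply, tof_apply, tof_apply, hc.toffoli_union R R' h y]

theorem res_inst (c : V → Finset V) (R : Set V) (i j : DecidablePred (· ∈ R)) :
    @D3.res V c R i = @D3.res V c R j := by
  have h : i = j := Subsingleton.elim i j
  rw [h]

open Classical in
theorem Good.tof_mem {c : V → Finset V} (hc : Good c) (R : Set V) :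
    tof (D3.res c R) ∈ locAlg {q | ∃ v ∈ R, q ∈ gate c v} := by
  induction R, (Set.toFinite R) using Set.Finite.induction_on with
  | empty =>
    have h1 : ∀ i : DecidablePred (· ∈ (∅ : Set V)), tof (@D3.res V c ∅ i) = 1 := by
      intro i
      have h2 : @D3.res V c ∅ i = fun _ => ∅ := by
        funext v
        simp [D3.res]
      rw [h2, tof_empty]
    rw [h1]
    exact one_mem _
  | @insert v R hv _ ih =>
    have h2 := hc.tof_insert R v hv
    have h3 : ∀ i : DecidablePred (· ∈ insert v R), tof (@D3.res V c (insert v R) i) =
        (1 - (2 : ℂ) • Ug c v) * tof (D3.res c R) := fun i =>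
      (congrArg tof (res_inst c (insert v R) i _)).trans h2
    rw [h3]
    refine mul_mem (sub_mem (one_mem _) (Subalgebra.smul_mem _ ?_ _)) ?_
    · refine locAlg_mono ?_ (Ug_mem c v)
      intro q hq
      exact ⟨v, Set.mem_insert _ _, hq⟩
    · refine locAlg_mono ?_ ih
      rintro q ⟨w, hw, hq⟩
      exact ⟨w, Set.mem_insert_of_mem _ hw, hq⟩

theorem Good.gate_inj {c : V → Finset V} (hc : Good c) {q v w : V} (h : q ∈ gate c v)
    (h' : q ∈ gate c w) : v = w := by
  by_contra hvw
  unfold gate at h h'
  split_ifs at h with h1
  · split_ifs at h' with h2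
    · exact Finset.disjoint_left.mp (hc.disjoint v w hvw h1 h2) h h'
    · simp at h'
  · simp at h

theorem Good.rep_eq {c : V → Finset V} (hc : Good c) {q v : V} (h : q ∈ gate c v) :
    rep c q = v := by
  unfold rep
  have hex : ∃ v, q ∈ gate c v := ⟨v, h⟩
  rw [dif_pos hex]
  exact hc.gate_inj hex.choose_spec h

theorem rep_eq_self {c : V → Finset V} {q : V} (h : ∀ v, q ∉ gate c v) : rep c q = q := by
  unfold rep
  rw [dif_neg]
  rintro ⟨v, hv⟩
  exact h v hv

/-- region operator: `T_S (Θ restricted to regions in S) T_S` for a set `S` of representatives -/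
noncomputable def regOp (c : V → Finset V) (Θ : V → M2) (S : Set V) : Op V :=
  open Classical in
  tof (D3.res c S) * prodOp (fun q => if rep c q ∈ S then Θ q else 1) * tof (D3.res c S)

theorem regOp_eq (c : V → Finset V) (Θ : V → M2) (S : Set V) (i : DecidablePred (· ∈ S)) :
    regOp c Θ S = tof (@D3.res V c S i) *
      prodOp (fun q => @ite _ (rep c q ∈ S) (i (rep c q)) (Θ q) 1) * tof (@D3.res V c S i) := by
  have h : i = fun x => Classical.propDecidable (x ∈ S) := Subsingleton.elim _ _
  rw [h]
  rfl

theorem Good.regOp_univ {c : V → Finset V} (hc : Good c) (Θ : V → M2) :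
    regOp c Θ Set.univ = tof c * prodOp Θ * tof c := by
  have h1 : @D3.res V c Set.univ (fun _ => isTrue trivial) = c := by
    funext v
    simp [D3.res]
  rw [regOp_eq c Θ Set.univ (fun _ => isTrue trivial), h1]
  rfl

open Classical in
theorem Good.tof_res_mem {c : V → Finset V} (hc : Good c) (S : Set V) :
    tof (D3.res c S) ∈ locAlg {q | rep c q ∈ S} := by
  refine locAlg_mono ?_ (hc.tof_mem S)
  rintro q ⟨v, hv, hq⟩
  change rep c q ∈ S
  rw [hc.rep_eq hq]
  exact hv

open Classical in
theorem prodOp_rep_mem (c : V → Finset V) (Θ : V → M2) (S : Set V) :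
    prodOp (fun q => if rep c q ∈ S then Θ q else 1) ∈ locAlg {q | rep c q ∈ S} :=
  prodOp_mem _ fun q hq => if_neg hq

theorem Good.regOp_mem {c : V → Finset V} (hc : Good c) (Θ : V → M2) (S : Set V) :
    regOp c Θ S ∈ locAlg {q | rep c q ∈ S} :=
  mul_mem (mul_mem (hc.tof_res_mem S) (prodOp_rep_mem c Θ S)) (hc.tof_res_mem S)

theorem Good.regOp_union {c : V → Finset V} (hc : Good c) (Θ : V → M2) (S S' : Set V)
    (h : Disjoint S S') : regOp c Θ (S ∪ S') = regOp c Θ S * regOp c Θ S' := by
  classical
  have hd : Disjoint {q | rep c q ∈ S} {q | rep c q ∈ S'} :=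
    Set.disjoint_left.mpr fun q hq hq' => Set.disjoint_left.mp h hq hq'
  have h1 : prodOp (fun q => if rep c q ∈ S ∪ S' then Θ q else 1) =
      prodOp (fun q => if rep c q ∈ S then Θ q else 1) *
        prodOp (fun q => if rep c q ∈ S' then Θ q else 1) := by
    rw [prodOp_mul]
    congr 1
    funext q
    by_cases hq : rep c q ∈ S
    · have hq' : rep c q ∉ S' := Set.disjoint_left.mp h hq
      simp [hq, hq']
    · simp [hq]
  have c1 : Commute (tof (D3.res c S')) (prodOp (fun q => if rep c q ∈ S then Θ q else 1)) :=
    (locAlg_commute hd (prodOp_rep_mem c Θ S) (hc.tof_res_mem S')).symm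
  have c2 : Commute (tof (D3.res c S')) (tof (D3.res c S)) :=
    (locAlg_commute hd (hc.tof_res_mem S) (hc.tof_res_mem S')).symm
  have c3 : Commute (tof (D3.res c S)) (prodOp (fun q => if rep c q ∈ S' then Θ q else 1)) :=
    locAlg_commute hd (hc.tof_res_mem S) (prodOp_rep_mem c Θ S')
  have h5 : regOp c Θ (S ∪ S') = tof (D3.res c (S ∪ S')) *
      prodOp (fun q => if rep c q ∈ S ∪ S' then Θ q else 1) * tof (D3.res c (S ∪ S')) :=
    regOp_eq c Θ (S ∪ S') _
  rw [h5, h1, hc.tof_union S S' h]
  unfold regOp
  calc tof (D3.res c S) * tof (D3.res c S') *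
        (prodOp (fun q => if rep c q ∈ S then Θ q else 1) *
          prodOp (fun q => if rep c q ∈ S' then Θ q else 1)) *
        (tof (D3.res c S) * tof (D3.res c S'))
      = tof (D3.res c S) * (tof (D3.res c S') *
        prodOp (fun q => if rep c q ∈ S then Θ q else 1)) *
          (prodOp (fun q => if rep c q ∈ S' then Θ q else 1) *
        tof (D3.res c S)) * tof (D3.res c S') := by noncomm_ring
    _ = tof (D3.res c S) * (prodOp (fun q => if rep c q ∈ S then Θ q else 1) *
        tof (D3.res c S')) *
          (tof (D3.res c S) * prodOp (fun q => if rep c q ∈ S' then Θ q else 1)) *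
          tof (D3.res c S') := by rw [c1.eq, c3.eq]
    _ = tof (D3.res c S) * prodOp (fun q => if rep c q ∈ S then Θ q else 1) *
        (tof (D3.res c S') * tof (D3.res c S)) *
          prodOp (fun q => if rep c q ∈ S' then Θ q else 1) *
          tof (D3.res c S') := by noncomm_ring
    _ = tof (D3.res c S) * prodOp (fun q => if rep c q ∈ S then Θ q else 1) *
        (tof (D3.res c S) * tof (D3.res c S')) *
          prodOp (fun q => if rep c q ∈ S' then Θ q else 1) *
          tof (D3.res c S') := by rw [c2.eq]
    _ = _ := by noncomm_ring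

theorem Good.regOp_empty {c : V → Finset V} (hc : Good c) (Θ : V → M2) :
    regOp c Θ ∅ = 1 := by
  have h1 : @D3.res V c ∅ (fun _ => isFalse id) = fun _ => ∅ := by
    funext v
    simp [D3.res]
  have h2 : (fun q => @ite M2 (rep c q ∈ (∅ : Set V)) (isFalse id) (Θ q) 1) = fun _ => 1 := rfl
  rw [regOp_eq c Θ ∅ (fun _ => isFalse id), h1, tof_empty, one_mul, mul_one]
  exact (congrArg prodOp h2).trans prodOp_one

theorem Good.regOp_proj {c : V → Finset V} (hc : Good c) (Θ : V → M2) (S : Set V)
    (h : ∀ q, rep c q ∈ S → IsStarProjection (Θ q)) : IsStarProjection (regOp c Θ S) := by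
  classical
  have hP : IsStarProjection (prodOp (fun q => if rep c q ∈ S then Θ q else 1)) := by
    refine prodOp_proj _ fun q => ?_
    split_ifs with hq
    · exact h q hq
    · exact .one _
  have hT := (hc.res S).tof_mul_self
  have hTs := (hc.res S).star_tof
  unfold regOp
  refine ⟨?_, ?_⟩
  · unfold IsIdempotentElem
    calc tof (D3.res c S) * prodOp (fun q => if rep c q ∈ S then Θ q else 1) *
          tof (D3.res c S) *
          (tof (D3.res c S) * prodOp (fun q => if rep c q ∈ S then Θ q else 1) *
            tof (D3.res c S))
        = tof (D3.res c S) * prodOp (fun q => if rep c q ∈ S then Θ q else 1) *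
          (tof (D3.res c S) * tof (D3.res c S)) *
            prodOp (fun q => if rep c q ∈ S then Θ q else 1) * tof (D3.res c S) := by
          noncomm_ring
      _ = tof (D3.res c S) * (prodOp (fun q => if rep c q ∈ S then Θ q else 1) *
            prodOp (fun q => if rep c q ∈ S then Θ q else 1)) * tof (D3.res c S) := by
          rw [hT, mul_one]
          noncomm_ring
      _ = _ := by rw [hP.isIdempotentElem.eq]
  · unfold IsSelfAdjoint
    rw [star_mul, star_mul, hTs, hP.isSelfAdjoint.star_eq, mul_assoc]

theorem Good.regOp_norm {c : V → Finset V} (hc : Good c) (Θ : V → M2) (S : Set V)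
    (h : ∀ q, rep c q ∈ S → ‖Θ q‖ ≤ 1) : ‖regOp c Θ S‖ ≤ 1 := by
  classical
  have hone : ‖(1 : M2)‖ ≤ 1 := (CStarRing.norm_of_mem_unitary (one_mem _)).le
  have hP : ‖prodOp (fun q => if rep c q ∈ S then Θ q else 1)‖ ≤ 1 := by
    refine prodOp_norm_le _ fun q => ?_
    split_ifs with hq
    · exact h q hq
    · exact hone
  have hT : tof (D3.res c S) ∈ unitary (Op V) := by
    rw [Unitary.mem_iff, (hc.res S).star_tof]
    exact ⟨(hc.res S).tof_mul_self, (hc.res S).tof_mul_self⟩
  have hTn : ‖tof (D3.res c S)‖ ≤ 1 := (CStarRing.norm_of_mem_unitary hT).le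
  unfold regOp
  refine (norm_mul_le _ _).trans ?_
  refine mul_le_one₀ ((norm_mul_le _ _).trans (mul_le_one₀ hTn (norm_nonneg _) hP))
    (norm_nonneg _) hTn

end Toffoli

end P368.D3
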