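import Vale.Agent.P368.Supp
import Vale.Agent.P368.Expand

namespace P368.D3

open Matrix
open scoped BigOperators InnerProductSpace ComplexOrder Matrix.Norms.L2Operator

/-- blocks before selection: second layer `c`, observable `Θ`, first layer gates `O h` (no gate if
`tr h`), one free input `inp h` per block -/
structure PS (V β : Type) [Fintype V] [DecidableEq V] [Fintype β] [DecidableEq β] where
  c : V → Finset V
  good : Good c
  Θ : V → M2
  o : V
  hΘ : ∀ q, q ≠ o → IsStarProjection (Θ q)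
  ho : ‖Θ o‖ ≤ 1
  O : β → Finset V
  inp : β → V
  tr : β → Bool
  pi : V → Bool → ℂ
  th : V → Bool → ℂ
  γ : V → ℝ
  x1 : β → M2
  pi_unit : ∀ q, ∑ b, ‖pi q b‖ ^ 2 = 1
  th_unit : ∀ q, ∑ b, ‖th q b‖ ^ 2 = 1
  γ0 : ∀ q, 0 ≤ γ q
  γ1 : ∀ q, γ q ≤ 1
  hγ : ∀ h, ∀ q ∈ O h, q ≠ inp h → ∑ b, star (th q b) * pi q b = (γ q : ℂ)
  x1_star : ∀ h, star (x1 h) = x1 h
  x1_sq : ∀ h, x1 h * x1 h = 1
  x1_off : ∀ h, ∑ b, star (pi (inp h) b) * (x1 h *ᵥ pi (inp h)) b = 0
  O_disj : ∀ h h', h ≠ h' → Disjoint (O h) (O h')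
  inp_O : ∀ h, inp h ∈ O h
  o_notMem : ∀ h, o ∉ O h

namespace PS

variable {V β : Type} [Fintype V] [DecidableEq V] [Fintype β] [DecidableEq β] (p : PS V β)

noncomputable def R (h : β) : Op V :=
  if p.tr h then 1 else 1 - (2 : ℂ) • onSet (p.O h : Set V) (fun q => outer (p.th q))
noncomputable def X (h : β) : Op V := site (p.inp h) (p.x1 h)
noncomputable def Pf (h : β) : Op V := onSet (p.O h : Set V) (fun q => outer (p.pi q))

def Dom (J : Finset β) (a : HV V) : Prop := ∀ h ∈ J, act (p.Pf h) a = a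

noncomputable def Cop (b : Bool) (h : β) : HV V →L[ℂ] HV V :=
  if b then act (p.R h * p.X h) else act (p.R h)

theorem R_mem (h : β) : p.R h ∈ locAlg (p.O h : Set V) := by
  unfold R
  split_ifs
  · exact Subalgebra.one_mem _
  · exact Subalgebra.sub_mem _ (Subalgebra.one_mem _) (Subalgebra.smul_mem _ (onSet_mem _ _) _)

theorem X_mem (h : β) : p.X h ∈ locAlg ({p.inp h} : Set V) := site_mem _ _

theorem X_mem_O (h : β) : p.X h ∈ locAlg (p.O h : Set V) :=
  locAlg_mono (by simpa using p.inp_O h) (p.X_mem h)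

theorem Cop_comm (h h' : β) (hne : h ≠ h') (a b : Bool) : Commute (p.Cop a h) (p.Cop b h') := by
  have hd : Disjoint (p.O h : Set V) (p.O h' : Set V) := by exact_mod_cast p.O_disj h h' hne
  have h1 : ∀ (k : β) (b : Bool), ∃ M : Op V, M ∈ locAlg (p.O k : Set V) ∧ p.Cop b k = act M := by
    intro k b
    cases b
    · exact ⟨_, p.R_mem k, rfl⟩
    · exact ⟨_, Subalgebra.mul_mem _ (p.R_mem k) (p.X_mem_O k), rfl⟩
  obtain ⟨M, hM, e⟩ := h1 h a
  obtain ⟨N, hN, e'⟩ := h1 h' b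
  rw [e, e']
  exact commute_act hd hM hN

noncomputable def CC (J I : Finset β) : HV V →L[ℂ] HV V := mix p.Cop p.Cop_comm J I

/-- signed average over the inputs of the blocks in `J` of the observable -/
noncomputable def Gam0 (J : Finset β) (b a : HV V) : ℂ :=
  (1 / 2 ^ J.card : ℂ) * ∑ I ∈ J.powerset, (-1 : ℂ) ^ I.card *
    ⟪p.CC J I b, act (regOp p.c p.Θ Set.univ) (p.CC J I a)⟫_ℂ

/-- overlap of the ancilla part of block `h` with its gate vector -/
noncomputable def ch (h : β) : ℝ := ∏ q ∈ (p.O h).erase (p.inp h), p.γ q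

/-- weight of block `h` at region `r` of the second layer -/
noncomputable def w (h : β) (r : V) : ℝ :=
  open Classical in
  1 - ∏ q ∈ ((p.O h).erase (p.inp h)).filter (fun q => rep p.c q = r), p.γ q ^ 2

/-- blocks re-indexed along an injection -/
def map {β' : Type} [Fintype β'] [DecidableEq β'] (f : β' ↪ β) : PS V β' where
  c := p.c
  good := p.good
  Θ := p.Θ
  o := p.o
  hΘ := p.hΘ
  ho := p.ho
  O := fun h => p.O (f h)
  inp := fun h => p.inp (f h)
  tr := fun h => p.tr (f h)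
  pi := p.pi
  th := p.th
  γ := p.γ
  x1 := fun h => p.x1 (f h)
  pi_unit := p.pi_unit
  th_unit := p.th_unit
  γ0 := p.γ0
  γ1 := p.γ1
  hγ := fun h => p.hγ (f h)
  x1_star := fun h => p.x1_star (f h)
  x1_sq := fun h => p.x1_sq (f h)
  x1_off := fun h => p.x1_off (f h)
  O_disj := fun h h' hne => p.O_disj (f h) (f h') (fun e => hne (f.injective e))
  inp_O := fun h => p.inp_O (f h)
  o_notMem := fun h => p.o_notMem (f h)

/-- blocks with smaller first layer gates -/
def trunc (O' : β → Finset V) (h1 : ∀ h, O' h ⊆ p.O h) (h2 : ∀ h, p.inp h ∈ O' h) : PS V β where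
  c := p.c
  good := p.good
  Θ := p.Θ
  o := p.o
  hΘ := p.hΘ
  ho := p.ho
  O := O'
  inp := p.inp
  tr := p.tr
  pi := p.pi
  th := p.th
  γ := p.γ
  x1 := p.x1
  pi_unit := p.pi_unit
  th_unit := p.th_unit
  γ0 := p.γ0
  γ1 := p.γ1
  hγ := fun h q hq => p.hγ h q (h1 h hq)
  x1_star := p.x1_star
  x1_sq := p.x1_sq
  x1_off := p.x1_off
  O_disj := fun h h' hne => (p.O_disj h h' hne).mono (h1 h) (h1 h')
  inp_O := h2
  o_notMem := fun h ho => p.o_notMem h (h1 h ho)

/-- separated blocks: core `C`, strong regions `S h` -/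
structure Sep (C : Finset V) (S : β → Finset V) : Prop where
  tr : ∀ h, p.tr h = false
  hC : ∀ h, C ⊆ S h
  hin : ∀ h, rep p.c (p.inp h) ∈ S h
  hSS : ∀ h h', h ≠ h' → S h ∩ S h' = C
  sep : ∀ h h', h ≠ h' → ∀ q ∈ p.O h, rep p.c q ∉ S h' \ C

end PS

/-- threshold for the overlap -/
noncomputable def c0 : ℝ := 1 / 64

end P368.D3
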