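import Vale.Agent.P368.PS
import Vale.Agent.P368.SysA

namespace P368.D3

open Matrix
open scoped BigOperators InnerProductSpace ComplexOrder Matrix.Norms.L2Operator

section ActNorm

variable {V : Type} [Fintype V] [DecidableEq V]

theorem act_inner_left (A : Op V) (u v : HV V) : ⟪act A u, v⟫_ℂ = ⟪u, act (star A) v⟫_ℂ := by
  rw [map_star, ContinuousLinearMap.star_eq_adjoint, ContinuousLinearMap.adjoint_inner_right]

theorem norm_act_iso (M : Op V) (h : star M * M = 1) (a : HV V) : ‖act M a‖ = ‖a‖ := by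
  have h1 : ‖act M a‖ ^ 2 = ‖a‖ ^ 2 := by
    rw [← re_inner_self, act_inner_left, ← mul_apply_eq_comp, ← map_mul, h, map_one,
      ← re_inner_self]
    rfl
  exact (pow_left_inj₀ (norm_nonneg _) (norm_nonneg _) two_ne_zero).mp h1

theorem norm_act (M : Op V) : ‖act M‖ = ‖M‖ := rfl

theorem norm_act_le {M : Op V} (h : ‖M‖ ≤ 1) (a : HV V) : ‖act M a‖ ≤ ‖a‖ := by
  refine ((act M).le_opNorm a).trans ?_
  rw [norm_act]
  exact mul_le_of_le_one_left (norm_nonneg _) h

theorem refl_unitary {E : Op V} (hE : IsStarProjection E) :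
    star (1 - (2 : ℂ) • E) * (1 - (2 : ℂ) • E) = 1 := by
  have h1 : star E = E := hE.isSelfAdjoint
  have h2 : E * E = E := hE.isIdempotentElem
  have h3 : star (1 - (2 : ℂ) • E) = 1 - (2 : ℂ) • E := by
    rw [star_sub, star_one, star_smul, h1]
    simp
  rw [h3]
  calc (1 - (2 : ℂ) • E) * (1 - (2 : ℂ) • E)
      = 1 - (2 : ℂ) • E - (2 : ℂ) • E + (4 : ℂ) • (E * E) := by
        simp only [mul_sub, sub_mul, mul_smul_comm, smul_mul_assoc, mul_one, one_mul, smul_smul,
          smul_sub]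
        norm_num
        abel
    _ = 1 := by
        rw [h2]
        have : (4 : ℂ) • E = (2 : ℂ) • E + (2 : ℂ) • E := by
          rw [← add_smul]
          norm_num
        rw [this]
        abel

theorem site_unitary (v : V) {A : M2} (h1 : star A = A) (h2 : A * A = 1) :
    star (site v A) * site v A = 1 := by
  rw [site_star, site_mul_site, h1, h2, site_one]

theorem iso_mul {M N : Op V} (hM : star M * M = 1) (hN : star N * N = 1) :
    star (M * N) * (M * N) = 1 := by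
  rw [star_mul]
  calc star N * star M * (M * N) = star N * (star M * M) * N := by noncomm_ring
    _ = 1 := by rw [hM, mul_one, hN]

end ActNorm

namespace PS

variable {V β β' : Type} [Fintype V] [DecidableEq V] [Fintype β] [DecidableEq β]
  [Fintype β'] [DecidableEq β'] (p : PS V β)

theorem R_iso (h : β) : star (p.R h) * p.R h = 1 := by
  unfold R
  split_ifs
  · simp
  · exact refl_unitary (onSet_proj fun q _ => outer_proj (p.th_unit q))

theorem X_iso (h : β) : star (p.X h) * p.X h = 1 :=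
  site_unitary _ (p.x1_star h) (p.x1_sq h)

theorem norm_Cop (b : Bool) (h : β) (a : HV V) : ‖p.Cop b h a‖ = ‖a‖ := by
  unfold Cop
  split_ifs
  · exact norm_act_iso _ (iso_mul (p.R_iso h) (p.X_iso h)) a
  · exact norm_act_iso _ (p.R_iso h) a

theorem norm_CC (J I : Finset β) (a : HV V) : ‖p.CC J I a‖ = ‖a‖ := by
  induction J using Finset.induction_on with
  | empty => rfl
  | insert h J hh ih =>
    unfold CC at ih ⊢
    rw [mix_insert _ _ _ _ _ hh, mul_apply_eq_comp, norm_Cop, ih]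

theorem map_Dom (f : β' ↪ β) (J : Finset β') (a : HV V) :
    p.Dom (J.map f) a ↔ (p.map f).Dom J a := by
  unfold Dom
  constructor
  · intro h k hk
    exact h (f k) (Finset.mem_map_of_mem f hk)
  · intro h k hk
    obtain ⟨k', hk', rfl⟩ := Finset.mem_map.mp hk
    exact h k' hk'

theorem map_CC (f : β' ↪ β) (J I : Finset β') :
    p.CC (J.map f) (I.map f) = (p.map f).CC J I := by
  induction J using Finset.induction_on with
  | empty => rfl
  | insert h J hh ih =>
    unfold CC at ih ⊢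
    rw [Finset.map_insert, mix_insert _ _ _ _ _ hh, mix_insert _ _ _ _ _ (by simpa using hh), ih]
    congr 1
    have : decide (f h ∈ I.map f) = decide (h ∈ I) := by
      rw [decide_eq_decide]
      exact Finset.mem_map' f
    rw [this]
    rfl

theorem map_Gam0 (f : β' ↪ β) (J : Finset β') (b a : HV V) :
    p.Gam0 (J.map f) b a = (p.map f).Gam0 J b a := by
  unfold Gam0
  rw [Finset.card_map]
  congr 1
  symm
  refine Finset.sum_bij (fun I _ => I.map f) ?_ ?_ ?_ ?_
  · intro I hI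
    rw [Finset.mem_powerset] at hI ⊢
    exact Finset.map_subset_map.mpr hI
  · intro I _ I' _ h
    exact Finset.map_injective f h
  · intro K hK
    rw [Finset.mem_powerset] at hK
    obtain ⟨u, hu, rfl⟩ := Finset.subset_map_iff.mp hK
    exact ⟨u, Finset.mem_powerset.mpr hu, rfl⟩
  · intro I _
    rw [Finset.card_map, p.map_CC]
    rfl

variable (O' : β → Finset V) (h1 : ∀ h, O' h ⊆ p.O h) (h2 : ∀ h, p.inp h ∈ O' h)

theorem split_O {A B : Finset V} (hAB : A ⊆ B) (f : V → M2) : onSet (B : Set V) f =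
    onSet (A : Set V) f * onSet ((B \ A : Finset V) : Set V) f := by
  rw [← onSet_union (Finset.disjoint_coe.mpr Finset.disjoint_sdiff), ← Finset.coe_union,
    Finset.union_sdiff_of_subset hAB]

theorem onSet_outer_idem {p : V → Bool → ℂ} (hp : ∀ q, ∑ b, ‖p q b‖ ^ 2 = 1) (S : Set V) :
    onSet S (fun q => outer (p q)) * onSet S (fun q => outer (p q)) =
      onSet S (fun q => outer (p q)) :=
  (onSet_proj fun q _ => outer_proj (hp q)).isIdempotentElem

theorem fix_sub {p : V → Bool → ℂ} (hp : ∀ q, ∑ b, ‖p q b‖ ^ 2 = 1) {A B : Finset V}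
    (hAB : A ⊆ B) (a : HV V) (ha : act (onSet (B : Set V) (fun q => outer (p q))) a = a) :
    act (onSet (A : Set V) (fun q => outer (p q))) a = a := by
  have h1 : onSet (A : Set V) (fun q => outer (p q)) * onSet (B : Set V) (fun q => outer (p q)) =
      onSet (B : Set V) (fun q => outer (p q)) := by
    rw [split_O hAB, ← mul_assoc, onSet_outer_idem hp]
  conv_lhs => rw [← ha]
  rw [← mul_apply_eq_comp, ← map_mul, h1, ha]

theorem trunc_Dom (J : Finset β) (a : HV V) (ha : p.Dom J a) : (p.trunc O' h1 h2).Dom J a :=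
  fun h hh => fix_sub p.pi_unit (h1 h) a (ha h hh)

include h2 in
theorem cut_norm (κ : ℝ) (h : β) (hκ : 1 - ∏ q ∈ p.O h \ O' h, p.γ q ^ 2 ≤ κ)
    (a : HV V) (ha : act (p.Pf h) a = a) :
    ‖act (1 - onSet ((p.O h \ O' h : Finset V) : Set V) (fun q => outer (p.th q))) a‖ ≤
      Real.sqrt κ * ‖a‖ := by
  classical
  set S : Finset V := p.O h \ O' h with hS
  set U : Op V := onSet (S : Set V) (fun q => outer (p.th q)) with hU
  set Pi : Op V := onSet (S : Set V) (fun q => outer (p.pi q)) with hPi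
  have hUp : IsStarProjection U := onSet_proj fun q _ => outer_proj (p.th_unit q)
  have hPp : IsStarProjection Pi := onSet_proj fun q _ => outer_proj (p.pi_unit q)
  have hPa : act Pi a = a := fix_sub p.pi_unit (Finset.sdiff_subset) a ha
  have hsand : Pi * U * Pi = ((∏ q ∈ S, p.γ q ^ 2 : ℝ) : ℂ) • Pi := by
    rw [hPi, hU, onSet_mul, onSet_mul]
    have e1 : onSet (S : Set V) (fun q => outer (p.pi q) * outer (p.th q) * outer (p.pi q)) =
        onSet (S : Set V) (fun q => ((p.γ q ^ 2 : ℝ) : ℂ) • outer (p.pi q)) := by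
      refine onSet_congr fun q hq => ?_
      have hqO : q ∈ p.O h \ O' h := Finset.mem_coe.mp hq
      have hq1 := (Finset.mem_sdiff.mp hqO).1
      have hq2 := (Finset.mem_sdiff.mp hqO).2
      have hne : q ≠ p.inp h := fun e => hq2 (e ▸ h2 h)
      have hg := p.hγ h q hq1 hne
      have hg' : ∑ b, star (p.pi q b) * p.th q b = (p.γ q : ℂ) := by
        have h3 : ∑ b, star (p.pi q b) * p.th q b = star (∑ b, star (p.th q b) * p.pi q b) := by
          rw [star_sum]
          refine Finset.sum_congr rfl fun b _ => ?_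
          rw [star_mul', star_star, mul_comm]
        rw [h3, hg]
        simp
      rw [outer_eq, outer_eq, kb_mul, smul_mul_assoc, kb_mul, smul_smul, hg, hg']
      congr 1
      push_cast
      ring
    rw [e1, onSet_smul]
    congr 1
    push_cast
    refine Finset.prod_congr ?_ fun _ _ => rfl
    ext q
    simp
  have hU2 : star (1 - U) * (1 - U) = 1 - U := by
    have h3 := hUp.one_sub
    rw [h3.isSelfAdjoint.star_eq, h3.isIdempotentElem.eq]
  have hkey : ‖act (1 - U) a‖ ^ 2 = (1 - ∏ q ∈ S, p.γ q ^ 2) * ‖a‖ ^ 2 := by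
    rw [← re_inner_self, act_inner_left, ← mul_apply_eq_comp, ← map_mul, hU2, map_sub, map_one]
    have e1 : (1 - act U : HV V →L[ℂ] HV V) a = a - act U a := rfl
    rw [e1, inner_sub_right, map_sub, re_inner_self]
    have e2 : ⟪a, act U a⟫_ℂ = ((∏ q ∈ S, p.γ q ^ 2 : ℝ) : ℂ) * ⟪a, a⟫_ℂ := by
      conv_lhs => rw [← hPa]
      rw [act_inner_left, hPp.isSelfAdjoint.star_eq, ← mul_apply_eq_comp, ← mul_apply_eq_comp,
        ← map_mul, ← map_mul, hsand, map_smul]
      have e3 : ((((∏ q ∈ S, p.γ q ^ 2 : ℝ) : ℂ) • act Pi : HV V →L[ℂ] HV V)) a =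
          ((∏ q ∈ S, p.γ q ^ 2 : ℝ) : ℂ) • act Pi a := rfl
      rw [e3, hPa, inner_smul_right]
    rw [e2]
    have e4 : RCLike.re ((((∏ q ∈ S, p.γ q ^ 2 : ℝ) : ℂ)) * ⟪a, a⟫_ℂ) =
        (∏ q ∈ S, p.γ q ^ 2) * ‖a‖ ^ 2 := by
      rw [← re_inner_self]
      exact RCLike.re_ofReal_mul _ _
    rw [e4]
    ring
  have hκ0 : 0 ≤ 1 - ∏ q ∈ S, p.γ q ^ 2 := by
    have : ∏ q ∈ S, p.γ q ^ 2 ≤ 1 :=
      Finset.prod_le_one (fun q _ => sq_nonneg _) fun q _ => pow_le_one₀ (p.γ0 q) (p.γ1 q)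
    linarith
  have hκ1 : 0 ≤ κ := hκ0.trans hκ
  refine (pow_le_pow_iff_left₀ (norm_nonneg _) (by positivity) two_ne_zero).mp ?_
  rw [hkey, mul_pow, Real.sq_sqrt hκ1]
  exact mul_le_mul_of_nonneg_right hκ (sq_nonneg _)

theorem Cop_loc (h : β) (b : Bool) : ∃ M ∈ locAlg (p.O h : Set V), p.Cop b h = act M := by
  cases b
  · exact ⟨_, p.R_mem h, rfl⟩
  · exact ⟨_, Subalgebra.mul_mem _ (p.R_mem h) (p.X_mem_O h), rfl⟩

theorem Cop_diff (κ : ℝ) (h : β) (hκ : 1 - ∏ q ∈ p.O h \ O' h, p.γ q ^ 2 ≤ κ)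
    (htr : p.tr h = false) (x : Bool) (a : HV V) (ha : act (p.Pf h) a = a) :
    ‖p.Cop x h a - (p.trunc O' h1 h2).Cop x h a‖ ≤ 2 * Real.sqrt κ * ‖a‖ := by
  set U : Op V := onSet ((p.O h \ O' h : Finset V) : Set V) (fun q => outer (p.th q)) with hU
  set U' : Op V := onSet (O' h : Set V) (fun q => outer (p.th q)) with hU'
  have hU'p : IsStarProjection U' := onSet_proj fun q _ => outer_proj (p.th_unit q)
  have hR : p.R h - (p.trunc O' h1 h2).R h = (2 : ℂ) • (U' * (1 - U)) := by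
    have e1 : p.R h = 1 - (2 : ℂ) • (U' * U) := by
      unfold R
      rw [htr, split_O (h1 h)]
      rfl
    have e2 : (p.trunc O' h1 h2).R h = 1 - (2 : ℂ) • U' := by
      unfold R
      have : (p.trunc O' h1 h2).tr h = false := htr
      rw [this]
      rfl
    rw [e1, e2, mul_sub, mul_one, smul_sub]
    abel
  have hcut := p.cut_norm O' h2 κ h hκ a ha
  have hb0 : ∀ y : HV V, ‖act ((2 : ℂ) • U') y‖ ≤ 2 * ‖y‖ := by
    intro y
    rw [map_smul]
    have : ((2 : ℂ) • act U') y = (2 : ℂ) • act U' y := rfl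
    rw [this, norm_smul]
    have h3 : ‖act U' y‖ ≤ ‖y‖ := norm_act_le (IsStarProjection.norm_le _ hU'p) y
    have h4 : ‖(2 : ℂ)‖ = 2 := by simp
    rw [h4]
    linarith
  cases x
  · have e : p.Cop false h a - (p.trunc O' h1 h2).Cop false h a =
        act ((2 : ℂ) • U') (act (1 - U) a) := by
      change act (p.R h) a - act ((p.trunc O' h1 h2).R h) a = _
      rw [← _root_.sub_apply, ← map_sub, hR, ← mul_apply_eq_comp, ← map_mul,
        smul_mul_assoc]
    rw [e]
    refine (hb0 _).trans ?_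
    calc 2 * ‖act (1 - U) a‖ ≤ 2 * (Real.sqrt κ * ‖a‖) := by linarith
      _ = _ := by ring
  · have hc : Commute (1 - U) (p.X h) := by
      refine Commute.sub_left (Commute.one_left _) ?_
      refine locAlg_commute ?_ (onSet_mem _ _) (p.X_mem h)
      rw [Set.disjoint_singleton_right]
      intro hq
      exact (Finset.mem_sdiff.mp (Finset.mem_coe.mp hq)).2 (h2 h)
    have e : p.Cop true h a - (p.trunc O' h1 h2).Cop true h a =
        act ((2 : ℂ) • U') (act (p.X h) (act (1 - U) a)) := by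
      change act (p.R h * p.X h) a - act ((p.trunc O' h1 h2).R h * p.X h) a = _
      rw [← _root_.sub_apply, ← map_sub, ← sub_mul, hR, ← mul_apply_eq_comp,
        ← mul_apply_eq_comp, ← map_mul, ← map_mul, smul_mul_assoc, smul_mul_assoc, mul_assoc,
        hc.eq, smul_mul_assoc, mul_assoc]
    rw [e]
    refine (hb0 _).trans ?_
    rw [norm_act_iso _ (p.X_iso h)]
    calc 2 * ‖act (1 - U) a‖ ≤ 2 * (Real.sqrt κ * ‖a‖) := by linarith
      _ = _ := by ring

theorem Cop_trunc_comm (h k : β) (hne : h ≠ k) (x y : Bool) :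
    Commute ((p.trunc O' h1 h2).Cop x h) (p.Cop y k) := by
  obtain ⟨M, hM, e⟩ := (p.trunc O' h1 h2).Cop_loc h x
  obtain ⟨N, hN, e'⟩ := p.Cop_loc k y
  rw [e, e']
  refine commute_act ?_ hM hN
  exact Finset.disjoint_coe.mpr ((p.O_disj h k hne).mono_left (h1 h))

theorem CC_diff (κ : ℝ) (hκ : ∀ h, 1 - ∏ q ∈ p.O h \ O' h, p.γ q ^ 2 ≤ κ)
    (htr : ∀ h, p.tr h = false) (J I : Finset β) (a : HV V) (ha : p.Dom J a) :
    ‖p.CC J I a - (p.trunc O' h1 h2).CC J I a‖ ≤ 2 * J.card * Real.sqrt κ * ‖a‖ := by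
  induction J using Finset.induction_on with
  | empty =>
    have : p.CC ∅ I a - (p.trunc O' h1 h2).CC ∅ I a = 0 := sub_self a
    rw [this, norm_zero]
    simp
  | insert h J hh ih =>
    have ih' := ih fun k hk => ha k (Finset.mem_insert_of_mem hk)
    set p' := p.trunc O' h1 h2 with hp'
    have e1 : p.CC (insert h J) I a = p.Cop (decide (h ∈ I)) h (p.CC J I a) := by
      unfold CC
      rw [mix_insert _ _ _ _ _ hh, mul_apply_eq_comp]
    have e2 : p'.CC (insert h J) I a = p'.Cop (decide (h ∈ I)) h (p'.CC J I a) := by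
      unfold CC
      rw [mix_insert _ _ _ _ _ hh, mul_apply_eq_comp]
    have hc : Commute (p.Cop (decide (h ∈ I)) h - p'.Cop (decide (h ∈ I)) h) (p.CC J I) := by
      refine mix_commute _ _ _ _ _ fun k hk y => ?_
      have hne : h ≠ k := fun e => hh (e ▸ hk)
      exact (p.Cop_comm h k hne _ _).sub_left (p.Cop_trunc_comm O' h1 h2 h k hne _ _)
    have e3 : p.Cop (decide (h ∈ I)) h (p.CC J I a) - p'.Cop (decide (h ∈ I)) h (p.CC J I a) =
        p.CC J I (p.Cop (decide (h ∈ I)) h a - p'.Cop (decide (h ∈ I)) h a) := by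
      have := congrArg (fun A : HV V →L[ℂ] HV V => A a) hc.eq
      exact this
    have e4 : p.Cop (decide (h ∈ I)) h (p.CC J I a) -
        p'.Cop (decide (h ∈ I)) h (p'.CC J I a) =
        p.CC J I (p.Cop (decide (h ∈ I)) h a - p'.Cop (decide (h ∈ I)) h a) +
        p'.Cop (decide (h ∈ I)) h (p.CC J I a - p'.CC J I a) := by
      rw [← e3, map_sub]
      abel
    rw [e1, e2, e4]
    refine (norm_add_le _ _).trans ?_
    rw [norm_CC, norm_Cop, Finset.card_insert_of_notMem hh]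
    have h5 := p.Cop_diff O' h1 h2 κ h (hκ h) (htr h) (decide (h ∈ I)) a
      (ha h (Finset.mem_insert_self h J))
    push_cast
    have h6 : ‖p.Cop (decide (h ∈ I)) h a - p'.Cop (decide (h ∈ I)) h a‖ ≤
        2 * Real.sqrt κ * ‖a‖ := h5
    calc _ ≤ 2 * Real.sqrt κ * ‖a‖ + 2 * J.card * Real.sqrt κ * ‖a‖ := add_le_add h6 ih'
      _ = _ := by ring

theorem norm_reg (a : HV V) : ‖act (regOp p.c p.Θ Set.univ) a‖ ≤ ‖a‖ := by
  refine norm_act_le (p.good.regOp_norm p.Θ Set.univ fun q _ => ?_) a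
  by_cases hq : q = p.o
  · rw [hq]
    exact p.ho
  · exact IsStarProjection.norm_le _ (p.hΘ q hq)

theorem trunc_err (κ : ℝ) (hκ : ∀ h, 1 - ∏ q ∈ p.O h \ O' h, p.γ q ^ 2 ≤ κ)
    (htr : ∀ h, p.tr h = false) (J : Finset β) (b a : HV V) (hb : p.Dom J b) (ha : p.Dom J a) :
    ‖p.Gam0 J b a - (p.trunc O' h1 h2).Gam0 J b a‖ ≤ 4 * J.card * Real.sqrt κ * ‖b‖ * ‖a‖ := by
  set p' := p.trunc O' h1 h2 with hp'
  set M : HV V →L[ℂ] HV V := act (regOp p.c p.Θ Set.univ) with hM
  have hMn : ∀ y : HV V, ‖M y‖ ≤ ‖y‖ := p.norm_reg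
  have hterm : ∀ I : Finset β, ‖⟪p.CC J I b, M (p.CC J I a)⟫_ℂ -
      ⟪p'.CC J I b, M (p'.CC J I a)⟫_ℂ‖ ≤ 4 * J.card * Real.sqrt κ * ‖b‖ * ‖a‖ := by
    intro I
    have e : ⟪p.CC J I b, M (p.CC J I a)⟫_ℂ - ⟪p'.CC J I b, M (p'.CC J I a)⟫_ℂ =
        ⟪p.CC J I b - p'.CC J I b, M (p.CC J I a)⟫_ℂ +
        ⟪p'.CC J I b, M (p.CC J I a - p'.CC J I a)⟫_ℂ := by
      rw [inner_sub_left, map_sub, inner_sub_right]
      ring
    rw [e]
    refine (norm_add_le _ _).trans ?_
    have h3 : ‖⟪p.CC J I b - p'.CC J I b, M (p.CC J I a)⟫_ℂ‖ ≤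
        2 * J.card * Real.sqrt κ * ‖b‖ * ‖a‖ := by
      refine (norm_inner_le_norm _ _).trans ?_
      have h4 := p.CC_diff O' h1 h2 κ hκ htr J I b hb
      have h5 : ‖M (p.CC J I a)‖ ≤ ‖a‖ := (hMn _).trans (p.norm_CC J I a).le
      exact mul_le_mul h4 h5 (norm_nonneg _) (by positivity)
    have h3' : ‖⟪p'.CC J I b, M (p.CC J I a - p'.CC J I a)⟫_ℂ‖ ≤
        2 * J.card * Real.sqrt κ * ‖b‖ * ‖a‖ := by
      refine (norm_inner_le_norm _ _).trans ?_
      have h4 := (hMn _).trans (p.CC_diff O' h1 h2 κ hκ htr J I a ha)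
      rw [p'.norm_CC J I b]
      calc ‖b‖ * ‖M (p.CC J I a - p'.CC J I a)‖ ≤ ‖b‖ * (2 * J.card * Real.sqrt κ * ‖a‖) :=
            mul_le_mul_of_nonneg_left h4 (norm_nonneg _)
        _ = _ := by ring
    calc _ ≤ 2 * J.card * Real.sqrt κ * ‖b‖ * ‖a‖ + 2 * J.card * Real.sqrt κ * ‖b‖ * ‖a‖ :=
          add_le_add h3 h3'
      _ = _ := by ring
  have e : p.Gam0 J b a - p'.Gam0 J b a = (1 / 2 ^ J.card : ℂ) * ∑ I ∈ J.powerset,
      (-1 : ℂ) ^ I.card * (⟪p.CC J I b, M (p.CC J I a)⟫_ℂ -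
        ⟪p'.CC J I b, M (p'.CC J I a)⟫_ℂ) := by
    have e1 : p'.Gam0 J b a = (1 / 2 ^ J.card : ℂ) * ∑ I ∈ J.powerset,
      (-1 : ℂ) ^ I.card * ⟪p'.CC J I b, M (p'.CC J I a)⟫_ℂ := rfl
    have e2 : p.Gam0 J b a = (1 / 2 ^ J.card : ℂ) * ∑ I ∈ J.powerset,
      (-1 : ℂ) ^ I.card * ⟪p.CC J I b, M (p.CC J I a)⟫_ℂ := rfl
    rw [e1, e2, ← mul_sub, ← Finset.sum_sub_distrib]
    congr 1
    refine Finset.sum_congr rfl fun I _ => ?_
    ring
  rw [e, norm_mul]
  have h7 : ‖∑ I ∈ J.powerset, (-1 : ℂ) ^ I.card * (⟪p.CC J I b, M (p.CC J I a)⟫_ℂ -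
        ⟪p'.CC J I b, M (p'.CC J I a)⟫_ℂ)‖ ≤
        2 ^ J.card * (4 * J.card * Real.sqrt κ * ‖b‖ * ‖a‖) := by
    refine (norm_sum_le _ _).trans ?_
    calc _ ≤ ∑ _I ∈ J.powerset, 4 * J.card * Real.sqrt κ * ‖b‖ * ‖a‖ := by
          refine Finset.sum_le_sum fun I _ => ?_
          rw [norm_mul, norm_pow, norm_neg, norm_one, one_pow, one_mul]
          exact hterm I
      _ = _ := by
          rw [Finset.sum_const, Finset.card_powerset, nsmul_eq_mul]
          push_cast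
          ring
  have h8 : ‖(1 / 2 ^ J.card : ℂ)‖ = 1 / 2 ^ J.card := by
    rw [norm_div, norm_one, norm_pow]
    simp
  rw [h8]
  calc 1 / 2 ^ J.card * _ ≤ 1 / 2 ^ J.card * (2 ^ J.card * (4 * J.card * Real.sqrt κ * ‖b‖ * ‖a‖)) :=
        mul_le_mul_of_nonneg_left h7 (by positivity)
    _ = _ := by
        field_simp

end PS

end P368.D3
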