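import Mathlib

namespace P368

/-- scales for the selection lemma. -/
def Ks (b : ℕ) : ℕ → ℕ
  | 0 => 0
  | l + 1 => 40 * b * (b ^ 2 + b * Ks b l + 1)

theorem Ks_mono {b : ℕ} (hb : 1 ≤ b) : Monotone (Ks b) := by
  refine monotone_nat_of_le_succ fun l => ?_
  show Ks b l ≤ 40 * b * (b ^ 2 + b * Ks b l + 1)
  nlinarith [Nat.zero_le (Ks b l), Nat.zero_le (b ^ 2), mul_le_mul hb hb (Nat.zero_le _) (Nat.zero_le _)]

theorem selection (B : ℕ) : ∃ K : ℕ, 0 < K ∧ ∀ (n : ℕ), K ≤ n →
    ∀ (V ι : Type) [DecidableEq V] [DecidableEq ι] (O : Fin n → Finset V) (reg : V → ι) (o : V),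
    (∀ h, (O h).card ≤ B) → (∀ v, (Finset.univ.filter fun h => v ∈ O h).card ≤ B) →
    ∃ (J : Finset (Fin n)) (Hv : Finset ι), n ≤ K * J.card ∧ 10 * Hv.card ≤ J.card ∧
      (∀ h ∈ J, o ∉ O h) ∧ (∀ h ∈ J, ∀ h' ∈ J, h ≠ h' → Disjoint (O h) (O h')) ∧
      (∀ h ∈ J, ∀ h' ∈ J, h ≠ h' → ∀ v ∈ O h, ∀ v' ∈ O h', reg v = reg v' → reg v ∈ Hv) := by
  classical
  set b := B + 1 with hb
  have hb1 : 1 ≤ b := by omega
  refine ⟨4 * (b ^ 2 + b * Ks b (2 * b) + 1), by positivity, ?_⟩
  intro n hn V ι _ _ O reg o hO hV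
  have hO' : ∀ h, (O h).card ≤ b := fun h => (hO h).trans (by omega)
  have hV' : ∀ v, (Finset.univ.filter fun h => v ∈ O h).card ≤ b := fun v => (hV v).trans (by omega)
  -- regions and degrees
  set inc : Fin n → ι → Prop := fun h g => ∃ v ∈ O h, reg v = g with hinc
  set deg : ι → ℕ := fun g => (Finset.univ.filter fun h => inc h g).card with hdeg
  set G : Finset ι := Finset.univ.biUnion fun h => (O h).image reg with hG
  have hGsum : ∑ g ∈ G, deg g ≤ b * n := by
    have h1 : ∑ g ∈ G, deg g = ∑ h : Fin n, (G.filter fun g => inc h g).card := by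
      simp only [hdeg, Finset.card_filter]
      rw [Finset.sum_comm]
    rw [h1]
    have h2 : ∀ h : Fin n, (G.filter fun g => inc h g).card ≤ b := by
      intro h
      refine le_trans (Finset.card_le_card (t := (O h).image reg) ?_)
        (Finset.card_image_le.trans (hO' h))
      intro g hg
      obtain ⟨v, hv, hvg⟩ := (Finset.mem_filter.1 hg).2
      exact Finset.mem_image.2 ⟨v, hv, hvg⟩
    calc ∑ h : Fin n, (G.filter fun g => inc h g).card ≤ ∑ h : Fin n, b :=
          Finset.sum_le_sum fun h _ => h2 h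
      _ = b * n := by rw [Finset.sum_const, Finset.card_univ, Fintype.card_fin, smul_eq_mul, mul_comm]
  -- pigeonhole on scales
  set mid : ℕ → Finset ι := fun l => G.filter fun g => Ks b l < deg g ∧ deg g ≤ Ks b (l + 1) with hmid
  have hdisj : ∀ l l', l ≠ l' → Disjoint (mid l) (mid l') := by
    have key : ∀ l l', l < l' → Disjoint (mid l) (mid l') := by
      intro l l' hl
      rw [Finset.disjoint_left]
      intro g hg hg'
      have h1 := (Finset.mem_filter.1 hg).2.2
      have h2 := (Finset.mem_filter.1 hg').2.1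
      have h3 : Ks b (l + 1) ≤ Ks b l' := Ks_mono hb1 hl
      omega
    intro l l' hl
    rcases lt_or_gt_of_ne hl with h | h
    · exact key l l' h
    · exact (key l' l h).symm
  obtain ⟨l, hl, hlsum⟩ : ∃ l, l < 2 * b ∧ 2 * ∑ g ∈ mid l, deg g ≤ n := by
    by_contra hcon
    push Not at hcon
    have h1 : ∑ l ∈ Finset.range (2 * b), ∑ g ∈ mid l, deg g ≤ b * n := by
      rw [← Finset.sum_biUnion (fun l _ l' _ hne => hdisj l l' hne)]
      refine le_trans (Finset.sum_le_sum_of_subset ?_) hGsum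
      intro g hg
      obtain ⟨l, _, hl⟩ := Finset.mem_biUnion.1 hg
      exact (Finset.mem_filter.1 hl).1
    have h2 : ∑ l ∈ Finset.range (2 * b), (n + 1) ≤
        ∑ l ∈ Finset.range (2 * b), 2 * ∑ g ∈ mid l, deg g :=
      Finset.sum_le_sum fun l hl => hcon l (Finset.mem_range.1 hl)
    rw [← Finset.mul_sum, Finset.sum_const, Finset.card_range, smul_eq_mul] at h2
    have h3 : 2 * b * (n + 1) = 2 * (b * n) + 2 * b := by ring
    omega
  set D : ℕ := b ^ 2 + b * Ks b l + 1 with hD
  have hDpos : 0 < D := by positivity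
  -- surviving indices
  set S : Finset (Fin n) := Finset.univ.filter fun h => o ∉ O h ∧ ∀ g ∈ mid l, ¬ inc h g with hS
  have hScard : n ≤ S.card + (∑ g ∈ mid l, deg g) + b := by
    have hcover : (Finset.univ : Finset (Fin n)) ⊆ S ∪ ((mid l).biUnion fun g =>
        Finset.univ.filter fun h => inc h g) ∪ (Finset.univ.filter fun h => o ∈ O h) := by
      intro h _
      by_cases h1 : o ∈ O h
      · exact Finset.mem_union_right _ (Finset.mem_filter.2 ⟨Finset.mem_univ _, h1⟩)
      · refine Finset.mem_union_left _ ?_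
        by_cases h2 : ∀ g ∈ mid l, ¬ inc h g
        · exact Finset.mem_union_left _ (Finset.mem_filter.2 ⟨Finset.mem_univ _, h1, h2⟩)
        · push Not at h2
          obtain ⟨g, hg, hgi⟩ := h2
          exact Finset.mem_union_right _ (Finset.mem_biUnion.2
            ⟨g, hg, Finset.mem_filter.2 ⟨Finset.mem_univ _, hgi⟩⟩)
    have h1 := Finset.card_le_card hcover
    rw [Finset.card_univ, Fintype.card_fin] at h1
    have h2 := Finset.card_union_le (S ∪ ((mid l).biUnion fun g =>
        Finset.univ.filter fun h => inc h g)) (Finset.univ.filter fun h => o ∈ O h)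
    have h3 := Finset.card_union_le S ((mid l).biUnion fun g =>
        Finset.univ.filter fun h => inc h g)
    have h4 : ((mid l).biUnion fun g => Finset.univ.filter fun h => inc h g).card ≤
        ∑ g ∈ mid l, deg g := Finset.card_biUnion_le
    have h5 := hV' o
    omega
  -- conflicts
  set conf : Fin n → Fin n → Prop := fun h h' => (∃ v ∈ O h, v ∈ O h') ∨
    (∃ v ∈ O h, deg (reg v) ≤ Ks b l ∧ inc h' (reg v)) with hconf
  set Nb : Fin n → Finset (Fin n) := fun h => Finset.univ.filter fun h' => h' = h ∨ conf h h' ∨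
    conf h' h with hNb
  have hconf_symm : ∀ h h', conf h' h → conf h h' := by
    rintro h h' (⟨v, hv, hv'⟩ | ⟨v, hv, hd, ⟨v', hv', hr⟩⟩)
    · exact Or.inl ⟨v, hv', hv⟩
    · exact Or.inr ⟨v', hv', by rw [hr]; exact hd, ⟨v, hv, hr.symm⟩⟩
  have hNcard : ∀ h, (Nb h).card ≤ D := by
    intro h
    have hcov : Nb h ⊆ {h} ∪ ((O h).biUnion fun v => Finset.univ.filter fun h' => v ∈ O h') ∪
        (((O h).filter fun v => deg (reg v) ≤ Ks b l).biUnion fun v =>
          Finset.univ.filter fun h' => inc h' (reg v)) := by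
      intro h' hh'
      have h1 : h' = h ∨ conf h h' := by
        rcases (Finset.mem_filter.1 hh').2 with h1 | h1 | h1
        · exact Or.inl h1
        · exact Or.inr h1
        · exact Or.inr (hconf_symm _ _ h1)
      rcases h1 with rfl | ⟨v, hv, hv'⟩ | ⟨v, hv, hd, hi⟩
      · exact Finset.mem_union_left _ (Finset.mem_union_left _ (Finset.mem_singleton_self _))
      · exact Finset.mem_union_left _ (Finset.mem_union_right _ (Finset.mem_biUnion.2
          ⟨v, hv, Finset.mem_filter.2 ⟨Finset.mem_univ _, hv'⟩⟩))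
      · exact Finset.mem_union_right _ (Finset.mem_biUnion.2
          ⟨v, Finset.mem_filter.2 ⟨hv, hd⟩, Finset.mem_filter.2 ⟨Finset.mem_univ _, hi⟩⟩)
    have h1 := Finset.card_le_card hcov
    have h2 := Finset.card_union_le ({h} ∪ ((O h).biUnion fun v =>
      Finset.univ.filter fun h' => v ∈ O h')) (((O h).filter fun v => deg (reg v) ≤ Ks b l).biUnion
        fun v => Finset.univ.filter fun h' => inc h' (reg v))
    have h3 := Finset.card_union_le ({h} : Finset (Fin n)) ((O h).biUnion fun v =>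
      Finset.univ.filter fun h' => v ∈ O h')
    rw [Finset.card_singleton] at h3
    have h4 : ((O h).biUnion fun v => Finset.univ.filter fun h' => v ∈ O h').card ≤ b * b :=
      (Finset.card_biUnion_le_card_mul _ _ b fun v _ => hV' v).trans
        (Nat.mul_le_mul_right b (hO' h))
    have h5 : (((O h).filter fun v => deg (reg v) ≤ Ks b l).biUnion
        fun v => Finset.univ.filter fun h' => inc h' (reg v)).card ≤ b * Ks b l :=
      (Finset.card_biUnion_le_card_mul _ _ (Ks b l) fun v hv => (Finset.mem_filter.1 hv).2).trans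
        (Nat.mul_le_mul_right _ ((Finset.card_filter_le _ _).trans (hO' h)))
    have h6 : b ^ 2 = b * b := by ring
    rw [hD, h6]
    omega
  -- maximal conflict free set
  set good : Finset (Fin n) → Prop := fun J => ∀ h ∈ J, ∀ h' ∈ J, h ≠ h' → ¬ conf h h' with hgood
  obtain ⟨J, hJmem, hJmax⟩ := Finset.exists_max_image (S.powerset.filter good) Finset.card
    ⟨∅, Finset.mem_filter.2 ⟨Finset.empty_mem_powerset S, fun h hh => absurd hh (Finset.notMem_empty _)⟩⟩
  have hJS : J ⊆ S := Finset.mem_powerset.1 (Finset.mem_filter.1 hJmem).1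
  have hJg : good J := (Finset.mem_filter.1 hJmem).2
  have hScov : S ⊆ J.biUnion Nb := by
    intro h hh
    by_contra hcon
    have hnb : ∀ h' ∈ J, h ∉ Nb h' := fun h' hh' hm => hcon (Finset.mem_biUnion.2 ⟨h', hh', hm⟩)
    have hne : ∀ h' ∈ J, h ≠ h' ∧ ¬ conf h' h ∧ ¬ conf h h' := by
      intro h' hh'
      have := hnb h' hh'
      rw [hNb] at this
      simp only [Finset.mem_filter, Finset.mem_univ, true_and, not_or] at this
      exact this
    have hhJ : h ∉ J := fun hJ => (hne h hJ).1 rfl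
    have hins : insert h J ∈ S.powerset.filter good := by
      refine Finset.mem_filter.2 ⟨Finset.mem_powerset.2 (Finset.insert_subset hh hJS), ?_⟩
      intro a ha a' ha' haa
      rcases Finset.mem_insert.1 ha with h1 | h1 <;> rcases Finset.mem_insert.1 ha' with h2 | h2
      · exact absurd (h1.trans h2.symm) haa
      · rw [h1]; exact (hne a' h2).2.2
      · rw [h2]; exact (hne a h1).2.1
      · exact hJg a h1 a' h2 haa
    have := hJmax _ hins
    rw [Finset.card_insert_of_notMem hhJ] at this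
    omega
  have hSJ : S.card ≤ J.card * D := by
    refine (Finset.card_le_card hScov).trans ?_
    exact Finset.card_biUnion_le_card_mul _ _ D fun h _ => hNcard h
  -- sizes
  have hKl : Ks b l ≤ Ks b (2 * b) := Ks_mono hb1 hl.le
  have hDK : 4 * D ≤ 4 * (b ^ 2 + b * Ks b (2 * b) + 1) := by
    have := Nat.mul_le_mul_left b hKl
    omega
  have h4b : 4 * b ≤ n := by
    have : b ≤ b ^ 2 := by nlinarith
    have h2 : 0 ≤ b * Ks b (2 * b) := Nat.zero_le _
    omega
  have hJn : n ≤ 4 * D * J.card := by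
    have : 4 * S.card ≤ 4 * (J.card * D) := Nat.mul_le_mul_left 4 hSJ
    have e : 4 * (J.card * D) = 4 * D * J.card := by ring
    omega
  set Hv : Finset ι := G.filter fun g => Ks b (l + 1) < deg g with hHv
  have hHvcard : Hv.card * Ks b (l + 1) ≤ b * n := by
    calc Hv.card * Ks b (l + 1) = ∑ g ∈ Hv, Ks b (l + 1) := by
          rw [Finset.sum_const, smul_eq_mul]
      _ ≤ ∑ g ∈ Hv, deg g := Finset.sum_le_sum fun g hg => (Finset.mem_filter.1 hg).2.le
      _ ≤ ∑ g ∈ G, deg g := Finset.sum_le_sum_of_subset (Finset.filter_subset _ _)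
      _ ≤ b * n := hGsum
  have hK1 : Ks b (l + 1) = 40 * b * D := rfl
  refine ⟨J, Hv, hJn.trans (Nat.mul_le_mul_right _ hDK), ?_, ?_, ?_, ?_⟩
  · rw [hK1] at hHvcard
    have h1 : Hv.card * (40 * b * D) ≤ b * (4 * D * J.card) :=
      hHvcard.trans (Nat.mul_le_mul_left b hJn)
    have h2 : (4 * b * D) * (10 * Hv.card) ≤ (4 * b * D) * J.card := by
      calc (4 * b * D) * (10 * Hv.card) = Hv.card * (40 * b * D) := by ring
        _ ≤ b * (4 * D * J.card) := h1
        _ = (4 * b * D) * J.card := by ring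
    exact Nat.le_of_mul_le_mul_left h2 (by positivity)
  · intro h hh
    exact (Finset.mem_filter.1 (hJS hh)).2.1
  · intro h hh h' hh' hne
    rw [Finset.disjoint_left]
    intro v hv hv'
    exact hJg h hh h' hh' hne (Or.inl ⟨v, hv, hv'⟩)
  · intro h hh h' hh' hne v hv v' hv' hr
    have hvG : reg v ∈ G := Finset.mem_biUnion.2 ⟨h, Finset.mem_univ _, Finset.mem_image_of_mem _ hv⟩
    refine Finset.mem_filter.2 ⟨hvG, ?_⟩
    have h1 : Ks b l < deg (reg v) := by
      by_contra hcon
      push Not at hcon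
      exact hJg h hh h' hh' hne (Or.inr ⟨v, hv, hcon, ⟨v', hv', hr.symm⟩⟩)
    by_contra hcon
    push Not at hcon
    exact (Finset.mem_filter.1 (hJS hh)).2.2 (reg v) (Finset.mem_filter.2 ⟨hvG, h1, hcon⟩)
      ⟨v, hv, rfl⟩

end P368
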