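import Vale.Agent.P368.Sys

namespace P368.D3

open Matrix
open scoped BigOperators InnerProductSpace ComplexOrder

theorem commute_act {V : Type} [Fintype V] [DecidableEq V] {S T : Set V} (h : Disjoint S T)
    {M N : Op V} (hM : M ∈ locAlg S) (hN : N ∈ locAlg T) : Commute (act M) (act N) := by
  have := (locAlg_commute h hM hN).map (act : Op V ≃⋆ₐ[ℂ] (HV V →L[ℂ] HV V))
  exact this

theorem onSet_mem {V : Type} [Fintype V] [DecidableEq V] (S : Set V) (f : V → M2) :
    onSet S f ∈ locAlg S := by
  unfold onSet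
  refine prodOp_mem _ fun v hv => ?_
  simp [hv]

theorem site_mem {V : Type} [Fintype V] [DecidableEq V] (v : V) (A : M2) :
    site v A ∈ locAlg ({v} : Set V) := by
  unfold site
  refine prodOp_mem _ fun w hw => ?_
  rw [Function.update_of_ne]
  simpa using hw

namespace Sys

variable {V β : Type} [Fintype V] [DecidableEq V] [DecidableEq β] (s : Sys V β)

theorem R_mem (h : β) : s.R h ∈ locAlg (s.O h : Set V) := by
  unfold R
  exact Subalgebra.sub_mem _ (Subalgebra.one_mem _) (Subalgebra.smul_mem _ (onSet_mem _ _) _)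

theorem X_mem (h : β) : s.X h ∈ locAlg ({s.inp h} : Set V) := site_mem _ _

theorem X_mem_O (h : β) : s.X h ∈ locAlg (s.O h : Set V) :=
  locAlg_mono (by simpa using s.inp_O h) (s.X_mem h)

theorem X_mem_zone (h : β) : s.X h ∈ locAlg (s.zone h) :=
  locAlg_mono (by simpa using s.inp_zone h) (s.X_mem h)

theorem Y_mem (h : β) : s.Y h ∈ locAlg (s.zone h) := by
  unfold Y
  exact Subalgebra.smul_mem _ (Subalgebra.mul_mem _ (s.E_mem h) (s.F_mem h)) _

theorem Pf_mem (h : β) : s.Pf h ∈ locAlg (s.O h : Set V) := onSet_mem _ _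

theorem Cop_commute {S : Set V} {M : Op V} (hM : M ∈ locAlg S) (h : β)
    (hd : Disjoint S (s.O h : Set V)) (b : Bool) : Commute (act M) (s.Cop b h) := by
  unfold Cop
  split_ifs
  · exact commute_act hd hM (Subalgebra.mul_mem _ (s.R_mem h) (s.X_mem_O h))
  · exact commute_act hd hM (s.R_mem h)


theorem star_act (M : Op V) : star (act M) = act (star M) := (map_star act M).symm

end Sys

end P368.D3
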