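import Vale.Agent.P368.Act
import Vale.Agent.P368.Beta
import Vale.Agent.P368.Bessel

namespace P368.D3

open Matrix
open scoped BigOperators InnerProductSpace ComplexOrder

/-- block system -/
structure Sys (V β : Type) [Fintype V] [DecidableEq V] [DecidableEq β] where
  O : β → Finset V
  inp : β → V
  zone : β → Set V
  m : ℕ
  G : ℕ → Set V
  pi : V → Bool → ℂ
  th : V → Bool → ℂ
  γ : V → ℝ
  x1 : β → M2
  Q : ℕ → Op V
  E : β → Op V
  F : β → Op V
  lam : β → ℝ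
  pi_unit : ∀ q, ∑ b, ‖pi q b‖ ^ 2 = 1
  th_unit : ∀ q, ∑ b, ‖th q b‖ ^ 2 = 1
  γ0 : ∀ q, 0 ≤ γ q
  γ1 : ∀ q, γ q ≤ 1
  hγ : ∀ h, ∀ q ∈ O h, q ≠ inp h → ∑ b, star (th q b) * pi q b = (γ q : ℂ)
  x1_star : ∀ h, star (x1 h) = x1 h
  x1_sq : ∀ h, x1 h * x1 h = 1
  x1_off : ∀ h, ∑ b, star (pi (inp h) b) * (x1 h *ᵥ pi (inp h)) b = 0
  Q_proj : ∀ j, IsStarProjection (Q j)
  Q_mem : ∀ j, Q j ∈ locAlg (G j)
  E_proj : ∀ h, IsStarProjection (E h)
  F_proj : ∀ h, IsStarProjection (F h)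
  E_mem : ∀ h, E h ∈ locAlg (zone h)
  F_mem : ∀ h, F h ∈ locAlg (zone h)
  lam0 : ∀ h, 0 ≤ lam h
  lam1 : ∀ h, lam h ≤ 1
  O_disj : ∀ h h', h ≠ h' → Disjoint (O h) (O h')
  zone_disj : ∀ h h', h ≠ h' → Disjoint (zone h) (zone h')
  G_disj : ∀ i j, i ≠ j → Disjoint (G i) (G j)
  zone_G : ∀ h j, Disjoint (zone h) (G j)
  zone_O : ∀ h h', h ≠ h' → Disjoint (zone h) (O h' : Set V)
  cover : ∀ h, (O h : Set V) ⊆ zone h ∪ ⋃ j ∈ Set.Iio m, G j
  inp_O : ∀ h, inp h ∈ O h
  inp_zone : ∀ h, inp h ∈ zone h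

namespace Sys

variable {V β : Type} [Fintype V] [DecidableEq V] [DecidableEq β] (s : Sys V β)

noncomputable def R (h : β) : Op V := 1 - (2 : ℂ) • onSet (s.O h : Set V) (fun q => outer (s.th q))
noncomputable def X (h : β) : Op V := site (s.inp h) (s.x1 h)
noncomputable def Y (h : β) : Op V := (s.lam h : ℂ) • (s.E h * s.F h)
noncomputable def Pf (h : β) : Op V := onSet (s.O h : Set V) (fun q => outer (s.pi q))
noncomputable def P (j : ℕ) (h : β) : Op V :=
  onSet ((s.O h : Set V) ∩ s.G j) (fun q => outer (s.pi q))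

open Classical in
/-- weight of block `h` at gate `j` -/
noncomputable def wt (j : ℕ) (h : β) : ℝ := 1 - ∏ q ∈ (s.O h).filter (fun q => q ∈ s.G j), s.γ q ^ 2

/-- one-qubit unitary moving `pi q` to `th q` -/
noncomputable def rot (q : V) : M2 :=
  Matrix.of fun a b => s.th q a * star (s.pi q b) +
    (if a = true then star (s.th q false) else -star (s.th q true)) *
      star (if b = true then star (s.pi q false) else -star (s.pi q true))

/-- all blocks of `J` other than `h` unexcited at gate `j` -/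
noncomputable def Ot (J : Finset β) (h : β) (j : ℕ) : Op V :=
  onSet ({q | ∃ h' ∈ J, h' ≠ h ∧ q ∈ s.O h'} ∩ s.G j) (fun q => outer (s.pi q))

open Classical in
noncomputable def Φ (τ : ℝ) (h : β) (j : ℕ) : Op V :=
  if s.wt j h ≤ τ then onSet ((s.O h : Set V) ∩ s.G j) s.rot else 1

open Classical in
noncomputable def cw (τ : ℝ) (h : β) (j : ℕ) : ℝ :=
  if s.wt j h ≤ τ then ∏ q ∈ (s.O h).filter (fun q => q ∈ s.G j), s.γ q else 1

open Classical in
noncomputable def ww (τ : ℝ) (h : β) (j : ℕ) : ℝ := if s.wt j h ≤ τ then s.wt j h else 0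

/-- local part of the first layer projection -/
noncomputable def Ul (h : β) : Op V := onSet ((s.O h : Set V) ∩ s.zone h) (fun q => outer (s.th q))

/-- weak part of the first layer projection -/
noncomputable def Uw (τ : ℝ) (h : β) : Op V :=
  onSet ((s.O h : Set V) ∩ {q | ∃ j < s.m, q ∈ s.G j ∧ s.wt j h ≤ τ}) (fun q => outer (s.th q))

/-- vectors with the blocks of `J` in the reference product state -/
def Dom (J : Finset β) (a : HV V) : Prop := ∀ h ∈ J, act (s.Pf h) a = a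

noncomputable def Cop (b : Bool) (h : β) : HV V →L[ℂ] HV V :=
  if b then act (s.R h * s.X h) else act (s.R h)

theorem Cop_loc (a : Bool) (h : β) : ∃ M ∈ locAlg (s.O h : Set V), s.Cop a h = act M := by
  have hR : s.R h ∈ locAlg (s.O h : Set V) :=
    sub_mem (one_mem _) (Subalgebra.smul_mem _ (prodOp_mem _ fun _ hv => if_neg hv) _)
  have hX : s.X h ∈ locAlg (s.O h : Set V) :=
    prodOp_mem _ fun w hw => by
      have hne : w ≠ s.inp h := fun e => hw (e ▸ Finset.mem_coe.mpr (s.inp_O h))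
      rw [Function.update_of_ne hne]
  unfold Cop
  split_ifs
  · exact ⟨_, mul_mem hR hX, rfl⟩
  · exact ⟨_, hR, rfl⟩

theorem Cop_comm (h h' : β) (hne : h ≠ h') (a b : Bool) : Commute (s.Cop a h) (s.Cop b h') := by
  have hd : Disjoint (s.O h : Set V) (s.O h' : Set V) :=
    Finset.disjoint_coe.mpr (s.O_disj h h' hne)
  obtain ⟨M, hM, h1⟩ := s.Cop_loc a h
  obtain ⟨N, hN, h2⟩ := s.Cop_loc b h'
  rw [h1, h2]
  exact (locAlg_commute hd hM hN).map (act : Op V ≃⋆ₐ[ℂ] (HV V →L[ℂ] HV V))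

theorem Y_comm (h h' : β) (hne : h ≠ h') : Commute (act (s.Y h)) (act (s.Y h')) := by
  have hY : ∀ k, s.Y k ∈ locAlg (s.zone k) := fun k =>
    Subalgebra.smul_mem _ (mul_mem (s.E_mem k) (s.F_mem k)) _
  exact (locAlg_commute (s.zone_disj h h' hne) (hY h) (hY h')).map
    (act : Op V ≃⋆ₐ[ℂ] (HV V →L[ℂ] HV V))

noncomputable def CC (J I : Finset β) : HV V →L[ℂ] HV V := mix s.Cop s.Cop_comm J I

noncomputable def YY (J : Finset β) : HV V →L[ℂ] HV V :=
  J.noncommProd (fun h => act (s.Y h)) (fun h _ h' _ hne => s.Y_comm h h' hne)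

noncomputable def Qall : HV V →L[ℂ] HV V := pre (fun j => act (s.Q j)) s.m

/-- signed average over the inputs of the blocks in `J` -/
noncomputable def Gam (J : Finset β) (b a : HV V) : ℂ :=
  (1 / 2 ^ J.card : ℂ) * ∑ I ∈ J.powerset, (-1 : ℂ) ^ I.card *
    ⟪s.CC J I b, s.YY J (s.Qall (s.CC J I a))⟫_ℂ

end Sys

end P368.D3
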