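import Vale.Agent.P368.SysB3

namespace P368.D3

open Matrix
open scoped BigOperators InnerProductSpace ComplexOrder

namespace Sys

variable {V β : Type} [Fintype V] [DecidableEq V] [DecidableEq β] (s : Sys V β)

theorem sb_B_false (h : β) : s.sb_B false h = s.sb_cp h • s.Cop false h + s.sb_cq h • s.Cop true h := by
  unfold sb_B
  rw [if_neg Bool.false_ne_true]

theorem sb_B_true (h : β) : s.sb_B true h = -(starRingEnd ℂ (s.sb_cq h)) • s.Cop false h +
    (starRingEnd ℂ (s.sb_cp h)) • s.Cop true h := by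
  unfold sb_B
  rw [if_pos rfl]

noncomputable def sb_nu (τ : ℝ) (j : ℕ) : HV V →L[ℂ] HV V :=
  act (s.Q j) + ((Real.sqrt τ : ℝ) : ℂ) • (1 - act (s.Q j))

/-- the creation operator -/
noncomputable def sb_crM (τ : ℝ) (J : Finset β) (h : β) (j : ℕ) : HV V →L[ℂ] HV V :=
  act (s.Ot J h j) * ((1 - act (s.P j h)) * (act (s.Q j) * pre (s.sb_nu τ) j))

theorem sb_commute_nu {T : HV V →L[ℂ] HV V} (τ : ℝ) (hT : ∀ j, Commute T (act (s.Q j))) (j : ℕ) :
    Commute T (s.sb_nu τ j) := by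
  unfold sb_nu
  exact (hT j).add_right (((Commute.one_right _).sub_right (hT j)).smul_right _)

theorem sb_crM_commute (τ : ℝ) (J : Finset β) (h : β) (j : ℕ) {A : Op V} (k : β)
    (hA : A ∈ locAlg ({s.inp k} : Set V)) : Commute (act A) (s.sb_crM τ J h j) := by
  have hG : ∀ i, Disjoint ({s.inp k} : Set V) (s.G i) := fun i =>
    Set.disjoint_singleton_left.2 (s.sb_inp_not_G k i)
  have hQ : ∀ i, Commute (act A) (act (s.Q i)) := fun i => commute_act (hG i) hA (s.Q_mem i)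
  have hO : Commute (act A) (act (s.Ot J h j)) :=
    commute_act (Set.disjoint_of_subset_right Set.inter_subset_right (hG j)) hA (onSet_mem _ _)
  have hP : Commute (act A) (act (s.P j h)) :=
    commute_act (Set.disjoint_of_subset_right Set.inter_subset_right (hG j)) hA (onSet_mem _ _)
  unfold sb_crM
  exact hO.mul_right (((Commute.one_right _).sub_right hP).mul_right
    ((hQ j).mul_right (pre_commute _ _ _ fun i _ => s.sb_commute_nu τ hQ i)))

theorem sb_mixB_commute (J I : Finset β) (k : β) (hk : k ∉ J) {S : Set V} {A : Op V}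
    (hA : A ∈ locAlg S) (hS : S ⊆ s.O k) : Commute (act A) (mix s.sb_B s.sb_B_comm J I) := by
  refine mix_commute _ _ _ _ _ fun h hh b => ?_
  refine s.sb_B_comm_of h (fun c => s.Cop_commute hA h ?_ c) b
  refine Set.disjoint_of_subset_left hS ?_
  have hne : k ≠ h := fun e => hk (e ▸ hh)
  exact_mod_cast s.O_disj k h hne

/-- splitting off a block in the rotated state -/
theorem sb_mixB_apply (J I : Finset β) (h : β) (hh : h ∈ J) (hI : h ∉ I) (a : HV V)
    (ha : act (s.Pf h) a = a) :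
    mix s.sb_B s.sb_B_comm J I a =
      mix s.sb_B s.sb_B_comm (J.erase h) I (s.sb_cp h • a + s.sb_cq h • act (s.X h) a) := by
  have e1 : mix s.sb_B s.sb_B_comm J I = s.sb_B false h * mix s.sb_B s.sb_B_comm (J.erase h) I := by
    rw [← mix_insert_left _ _ _ _ _ (Finset.notMem_erase h J) hI, Finset.insert_erase hh]
  have c : Commute (s.sb_B false h) (mix s.sb_B s.sb_B_comm (J.erase h) I) := by
    refine mix_commute _ _ _ _ _ fun k hk b => s.sb_B_comm _ _ ?_ _ _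
    rintro rfl
    exact Finset.notMem_erase _ _ hk
  rw [e1, c.eq, sb_clm_mul_apply, s.sb_B_false_apply h a ha]

theorem sb_crM_mix (τ : ℝ) (J I : Finset β) (h : β) (hh : h ∈ J) (hI : h ∉ I) (j : ℕ) (a : HV V)
    (ha : act (s.Pf h) a = a) :
    ‖s.sb_crM τ J h j (mix s.sb_B s.sb_B_comm J I a)‖ ^ 2 =
      ‖s.sb_crM τ J h j (mix s.sb_B s.sb_B_comm (J.erase h) I a)‖ ^ 2 := by
  rw [s.sb_mixB_apply J I h hh hI a ha]
  set Pn : Op V := onSet ({s.inp h} : Set V) (fun q => outer (s.pi q)) with hPn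
  have hsub : ({s.inp h} : Set V) ⊆ s.O h := Set.singleton_subset_iff.2 (s.inp_O h)
  have hnm : h ∉ J.erase h := Finset.notMem_erase h J
  have hXm : s.X h ∈ locAlg ({s.inp h} : Set V) := s.X_mem h
  have hPm : Pn ∈ locAlg ({s.inp h} : Set V) := onSet_mem _ _
  have cX : Commute (s.sb_crM τ J h j * mix s.sb_B s.sb_B_comm (J.erase h) I) (act (s.X h)) :=
    ((s.sb_crM_commute τ J h j h hXm).mul_right (s.sb_mixB_commute _ I h hnm hXm hsub)).symm
  have cP : Commute (s.sb_crM τ J h j * mix s.sb_B s.sb_B_comm (J.erase h) I) (act Pn) :=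
    ((s.sb_crM_commute τ J h j h hPm).mul_right (s.sb_mixB_commute _ I h hnm hPm hsub)).symm
  have hz : Pn * s.X h * Pn = 0 := by
    rw [hPn]
    unfold onSet X site
    rw [prodOp_mul, prodOp_mul]
    apply sb_prodOp_zero _ (s.inp h)
    simp only [Set.mem_singleton_iff, if_true, Function.update_self]
    rw [sb_outer_conj, s.x1_off h, zero_smul]
  exact sb_norm_rot cX cP (s.sb_X_invol h).1 (s.sb_X_invol h).2
    (sb_act_proj (sb_onSet_proj _ _ fun q _ => sb_outer_proj (s.pi_unit q)))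
    (by rw [← map_mul, ← map_mul, hz, map_zero])
    (s.sb_P_fix_of_subset h ha _ hsub) (s.sb_cpq h)

theorem sb_bessel_I (τ : ℝ) (hτ0 : 0 ≤ τ) (hτ : τ ≤ 1 / 4) (J I : Finset β)
    (a : HV V) (ha : s.Dom J a) :
    ∑ h ∈ J \ I, ∑ j ∈ Finset.range s.m, ‖s.sb_crM τ J h j (mix s.sb_B s.sb_B_comm J I a)‖ ^ 2 ≤
      4 / 3 * ‖mix s.sb_B s.sb_B_comm J I a‖ ^ 2 := by
  have hG : ∀ i j, i ≠ j → ∀ S : Set V, ∀ f : V → M2,
      Commute (act (s.Q i)) (act (onSet (S ∩ s.G j) f)) := fun i j hij S f =>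
    commute_act (Set.disjoint_of_subset_right Set.inter_subset_right (s.G_disj i j hij))
      (s.Q_mem i) (onSet_mem _ _)
  have hsame : ∀ S T : Set V, Commute (act (onSet S (fun q => outer (s.pi q))))
      (act (onSet T (fun q => outer (s.pi q)))) := fun S T =>
    (sb_onSet_commute_same S T _ s.sb_pi_sq).map (act : Op V ≃⋆ₐ[ℂ] (HV V →L[ℂ] HV V))
  refine bessel_blocks s.m τ hτ0 hτ (fun j => act (s.Q j)) (fun j h => act (s.P j h))
    (fun j h => act (s.Ot J h j)) (J \ I) (fun j => sb_act_proj (s.Q_proj j)) ?_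
    (fun j h _ => s.sb_P_proj j h) (fun j h _ => s.sb_Ot_proj J h j) (fun j h _ h' _ => hsame _ _)
    (fun j h _ h' _ => hsame _ _) (fun j h _ h' _ => hsame _ _)
    (fun i j hij h _ => hG i j hij _ _) (fun i j hij h _ => hG i j hij _ _) ?_ _ ?_
  · intro i j
    by_cases hij : i = j
    · rw [hij]
    · exact commute_act (s.G_disj i j hij) (s.Q_mem i) (s.Q_mem j)
  · intro j h _ h' hh' hne
    rw [← map_mul]
    congr 1
    unfold Ot P
    rw [sb_onSet_mul_same _ _ _ s.sb_pi_sq]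
    congr 1
    refine Set.union_eq_left.2 ?_
    rintro q ⟨h1, h2⟩
    exact ⟨⟨h', (Finset.mem_sdiff.1 hh').1, hne.symm, h1⟩, h2⟩
  · intro h hh j
    obtain ⟨hJ, hI'⟩ := Finset.mem_sdiff.1 hh
    have hPa := ha.P_fix hJ j
    rw [s.sb_mixB_apply J I h hJ hI' a (ha h hJ)]
    have c := s.sb_mixB_commute (J.erase h) I h (Finset.notMem_erase h J)
      (onSet_mem ((s.O h : Set V) ∩ s.G j) (fun q => outer (s.pi q))) Set.inter_subset_left
    change act (onSet ((s.O h : Set V) ∩ s.G j) (fun q => outer (s.pi q))) _ = _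
    rw [sb_comm_apply c, map_add, map_smul, map_smul]
    have h1 : act (onSet ((s.O h : Set V) ∩ s.G j) (fun q => outer (s.pi q))) a = a := hPa
    have h2 : act (onSet ((s.O h : Set V) ∩ s.G j) (fun q => outer (s.pi q))) (act (s.X h) a) =
        act (s.X h) a := by
      have := sb_comm_apply (s.sb_X_P_commute j h h) a
      rw [hPa] at this
      exact this
    rw [h1, h2]

theorem sb_sum_mixB (J : Finset β) (a : HV V) :
    ∑ I ∈ J.powerset, ‖mix s.sb_B s.sb_B_comm J I a‖ ^ 2 = 2 ^ J.card * ‖a‖ ^ 2 := by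
  have h := mix_average s.Cop s.sb_B s.Cop_comm s.sb_B_comm J s.sb_cp s.sb_cq (fun h _ => s.sb_cpq h)
    (fun h _ => s.sb_B_false h) (fun h _ => s.sb_B_true h) 1 a
  have h1 : ∑ I ∈ J.powerset, ‖mix s.sb_B s.sb_B_comm J I a‖ ^ 2 =
      ∑ I ∈ J.powerset, ‖mix s.Cop s.Cop_comm J I a‖ ^ 2 := h.symm
  rw [h1, Finset.sum_congr rfl fun I _ => by
    rw [show mix s.Cop s.Cop_comm J I a = s.CC J I a from rfl, s.norm_CC]]
  rw [Finset.sum_const, Finset.card_powerset, nsmul_eq_mul]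
  push_cast
  rfl

/-- average creation over all blocks -/
theorem Cr_average (τ W : ℝ) (hτ0 : 0 ≤ τ) (hτ : τ ≤ 1 / 4) (J : Finset β)
    (hW : ∀ h ∈ J, ∑ j ∈ Finset.range s.m, s.wt j h ≤ W) (a : HV V) (ha : s.Dom J a) :
    ∑ h ∈ J.attach, (1 / 2 ^ (J.card - 1) : ℝ) * ∑ I ∈ (J.erase h.1).powerset,
      (s.chain τ W hτ0 hτ J h.1 h.2 (hW h.1 h.2)).Cr (s.CC (J.erase h.1) I a) ≤
      8 / 3 * ‖a‖ ^ 2 := by
  have h1 : ∀ h ∈ J.attach, ∀ I,
      (s.chain τ W hτ0 hτ J h.1 h.2 (hW h.1 h.2)).Cr (s.CC (J.erase h.1) I a) =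
      ∑ j ∈ Finset.range s.m, ‖s.sb_crM τ J h.1 j (s.CC (J.erase h.1) I a)‖ ^ 2 := fun _ _ _ => rfl
  rw [Finset.sum_congr rfl fun h hh => by
    rw [Finset.sum_congr rfl fun I _ => h1 h hh I]]
  rw [Finset.sum_attach J (fun h => (1 / 2 ^ (J.card - 1) : ℝ) * ∑ I ∈ (J.erase h).powerset,
    ∑ j ∈ Finset.range s.m, ‖s.sb_crM τ J h j (s.CC (J.erase h) I a)‖ ^ 2)]
  rw [← Finset.mul_sum]
  rcases J.eq_empty_or_nonempty with rfl | hne
  · simp
  have h2 : ∀ h ∈ J, ∑ I ∈ (J.erase h).powerset,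
      ∑ j ∈ Finset.range s.m, ‖s.sb_crM τ J h j (s.CC (J.erase h) I a)‖ ^ 2 =
      ∑ I ∈ (J.erase h).powerset,
        ∑ j ∈ Finset.range s.m, ‖s.sb_crM τ J h j (mix s.sb_B s.sb_B_comm J I a)‖ ^ 2 := by
    intro h hh
    rw [Finset.sum_comm, Finset.sum_comm (s := (J.erase h).powerset)]
    refine Finset.sum_congr rfl fun j _ => ?_
    have h3 := mix_average s.Cop s.sb_B s.Cop_comm s.sb_B_comm (J.erase h) s.sb_cp s.sb_cq
      (fun h _ => s.sb_cpq h) (fun h _ => s.sb_B_false h) (fun h _ => s.sb_B_true h)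
      (s.sb_crM τ J h j) a
    refine Eq.trans h3 (Finset.sum_congr rfl fun I hI => ?_)
    exact (s.sb_crM_mix τ J I h hh (fun hh' => Finset.notMem_erase h J
      (Finset.mem_powerset.1 hI hh')) j a (ha h hh)).symm
  rw [Finset.sum_congr rfl h2]
  have h4 : ∑ h ∈ J, ∑ I ∈ (J.erase h).powerset,
      ∑ j ∈ Finset.range s.m, ‖s.sb_crM τ J h j (mix s.sb_B s.sb_B_comm J I a)‖ ^ 2 =
      ∑ I ∈ J.powerset, ∑ h ∈ J \ I,
        ∑ j ∈ Finset.range s.m, ‖s.sb_crM τ J h j (mix s.sb_B s.sb_B_comm J I a)‖ ^ 2 := by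
    refine Finset.sum_comm' fun h I => ?_
    simp only [Finset.mem_powerset, Finset.mem_sdiff, Finset.subset_erase]
    tauto
  rw [h4]
  have h5 : ∑ I ∈ J.powerset, ∑ h ∈ J \ I,
        ∑ j ∈ Finset.range s.m, ‖s.sb_crM τ J h j (mix s.sb_B s.sb_B_comm J I a)‖ ^ 2 ≤
      ∑ I ∈ J.powerset, 4 / 3 * ‖mix s.sb_B s.sb_B_comm J I a‖ ^ 2 :=
    Finset.sum_le_sum fun I _ => s.sb_bessel_I τ hτ0 hτ J I a ha
  rw [← Finset.mul_sum, s.sb_sum_mixB] at h5
  have hc : J.card = (J.card - 1) + 1 := (Nat.succ_pred_eq_of_pos hne.card_pos).symm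
  have hp : (0 : ℝ) < 2 ^ (J.card - 1) := by positivity
  have h6 : (2 : ℝ) ^ J.card = 2 ^ (J.card - 1) * 2 := by
    conv_lhs => rw [hc, pow_succ]
  rw [h6] at h5
  calc (1 / 2 ^ (J.card - 1) : ℝ) * ∑ I ∈ J.powerset, ∑ h ∈ J \ I,
        ∑ j ∈ Finset.range s.m, ‖s.sb_crM τ J h j (mix s.sb_B s.sb_B_comm J I a)‖ ^ 2
      ≤ (1 / 2 ^ (J.card - 1) : ℝ) * (4 / 3 * (2 ^ (J.card - 1) * 2 * ‖a‖ ^ 2)) :=
        mul_le_mul_of_nonneg_left h5 (by positivity)
    _ = 8 / 3 * ‖a‖ ^ 2 := by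
        field_simp
        ring

end Sys

end P368.D3
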