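import Vale.Agent.P368.SysA
import Vale.Agent.P368.Supp

namespace P368.D3

open Matrix
open scoped BigOperators InnerProductSpace ComplexOrder

section Gen

variable {V : Type} [Fintype V] [DecidableEq V]

/-- scalar product of two one-qubit vectors -/
noncomputable def sb_ip (u v : Bool → ℂ) : ℂ := ∑ b, star (u b) * v b

theorem sb_outer_star (u : Bool → ℂ) : star (outer u) = outer u := by
  ext a b
  simp [outer, Matrix.star_apply, mul_comm]

theorem sb_outer_conj (u : Bool → ℂ) (A : M2) :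
    outer u * A * outer u = (∑ b, star (u b) * (A *ᵥ u) b) • outer u := by
  ext a b
  simp only [outer, Matrix.mul_apply, Matrix.of_apply, Fintype.sum_bool, Matrix.smul_apply,
    Matrix.mulVec, dotProduct, smul_eq_mul]
  ring

theorem sb_outer_mul_outer (u v : Bool → ℂ) (a b : Bool) :
    (outer u * outer v) a b = sb_ip u v * (u a * star (v b)) := by
  simp only [outer, Matrix.mul_apply, Matrix.of_apply, Fintype.sum_bool, sb_ip]
  ring

theorem sb_ip_self {u : Bool → ℂ} (hu : ∑ b, ‖u b‖ ^ 2 = 1) : sb_ip u u = 1 := by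
  have h : sb_ip u u = ((∑ b, ‖u b‖ ^ 2 : ℝ) : ℂ) := by
    unfold sb_ip
    push_cast
    refine Finset.sum_congr rfl fun b _ => ?_
    rw [← Complex.conj_mul']
    rfl
  rw [h, hu, Complex.ofReal_one]

theorem sb_outer_sq {u : Bool → ℂ} (hu : ∑ b, ‖u b‖ ^ 2 = 1) : outer u * outer u = outer u := by
  ext a b
  rw [sb_outer_mul_outer, sb_ip_self hu, one_mul]
  rfl

theorem sb_outer_proj {u : Bool → ℂ} (hu : ∑ b, ‖u b‖ ^ 2 = 1) : IsStarProjection (outer u) :=
  ⟨sb_outer_sq hu, sb_outer_star u⟩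

theorem sb_outer_three (u v : Bool → ℂ) (γ : ℝ) (h : sb_ip v u = (γ : ℂ)) :
    outer u * outer v * outer u = ((γ ^ 2 : ℝ) : ℂ) • outer u := by
  have h2 : sb_ip u v = (γ : ℂ) := by
    have h3 : sb_ip u v = star (sb_ip v u) := by
      unfold sb_ip
      simp [mul_comm]
    rw [h3, h]
    exact Complex.conj_ofReal γ
  ext a b
  rw [Matrix.mul_apply, Fintype.sum_bool, sb_outer_mul_outer, sb_outer_mul_outer, Matrix.smul_apply]
  simp only [outer, Matrix.of_apply, smul_eq_mul]
  have h4 : star (v true) * u true + star (v false) * u false = (γ : ℂ) := by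
    rw [← h]; unfold sb_ip; rw [Fintype.sum_bool]
  rw [h2]
  push_cast
  linear_combination (γ : ℂ) * u a * star (u b) * h4

theorem sb_act_proj {M : Op V} (h : IsStarProjection M) : IsStarProjection (act M) := by
  refine ⟨?_, ?_⟩
  · have h1 : M * M = M := h.isIdempotentElem
    change act M * act M = act M
    rw [← map_mul, h1]
  · have h1 : star M = M := h.isSelfAdjoint
    change star (act M) = act M
    rw [← map_star, h1]

theorem sb_onSet_proj (S : Set V) (f : V → M2) (h : ∀ q ∈ S, IsStarProjection (f q)) :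
    IsStarProjection (onSet S f) := by
  unfold onSet
  refine prodOp_proj _ fun v => ?_
  by_cases hv : v ∈ S
  · simp only [hv, if_true]
    exact h v hv
  · simp only [hv, if_false]
    exact IsStarProjection.one M2

theorem sb_onSet_mul_same (S T : Set V) (f : V → M2) (h : ∀ q, f q * f q = f q) :
    onSet S f * onSet T f = onSet (S ∪ T) f := by
  unfold onSet
  rw [prodOp_mul]
  congr 1
  funext v
  by_cases hS : v ∈ S <;> by_cases hT : v ∈ T <;> simp [hS, hT, h]

theorem sb_onSet_commute_same (S T : Set V) (f : V → M2) (h : ∀ q, f q * f q = f q) :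
    Commute (onSet S f) (onSet T f) := by
  unfold Commute SemiconjBy
  rw [sb_onSet_mul_same S T f h, sb_onSet_mul_same T S f h, Set.union_comm]

theorem sb_onSet_mul_disj (S T : Set V) (f : V → M2) (hST : Disjoint S T) :
    onSet S f * onSet T f = onSet (S ∪ T) f := by
  unfold onSet
  rw [prodOp_mul]
  congr 1
  funext v
  by_cases hS : v ∈ S <;> by_cases hT : v ∈ T
  · exact absurd hT (Set.disjoint_left.1 hST hS)
  all_goals simp [hS, hT]

omit [DecidableEq V] in
theorem sb_prodOp_smul_prod (c : V → ℂ) (B : V → M2) :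
    prodOp (fun v => c v • B v) = (∏ v, c v) • prodOp B := by
  ext x y
  simp only [prodOp, Matrix.of_apply, Matrix.smul_apply, smul_eq_mul, Finset.prod_mul_distrib]

omit [DecidableEq V] in
theorem sb_prodOp_zero (B : V → M2) (v : V) (h : B v = 0) : prodOp B = 0 := by
  ext x y
  simp only [prodOp, Matrix.of_apply, Matrix.zero_apply]
  refine Finset.prod_eq_zero (Finset.mem_univ v) ?_
  rw [h, Matrix.zero_apply]

open Classical in
/-- compression of a product of rank one projections by another one -/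
theorem sb_onSet_compress (S : Set V) (f g : V → M2) (c : V → ℝ)
    (h : ∀ q ∈ S, f q * g q * f q = (c q : ℂ) • f q) :
    onSet S f * onSet S g * onSet S f =
      ((∏ q ∈ Finset.univ.filter (fun q => q ∈ S), c q : ℝ) : ℂ) • onSet S f := by
  have e : (((∏ q ∈ Finset.univ.filter (fun q => q ∈ S), c q : ℝ)) : ℂ) =
      ∏ q, (if q ∈ S then (c q : ℂ) else 1) := by
    rw [Finset.prod_filter]
    push_cast
    refine Finset.prod_congr rfl fun q _ => ?_
    split_ifs <;> simp
  rw [e]
  unfold onSet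
  rw [prodOp_mul, prodOp_mul, ← sb_prodOp_smul_prod]
  congr 1
  funext v
  by_cases hv : v ∈ S
  · simp only [hv, if_true]
    rw [h v hv]
  · simp [hv]

theorem sb_site_eq_hom (v : V) (A : M2) : site v A = siteHom v A := rfl

theorem sb_site_one (v : V) : site v (1 : M2) = 1 := by
  unfold site
  rw [← prodOp_one]
  congr 1
  exact Function.update_eq_self v _

theorem sb_site_mul (v : V) (A C : M2) : site v A * site v C = site v (A * C) := by
  rw [sb_site_eq_hom, sb_site_eq_hom, sb_site_eq_hom, map_mul]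

theorem sb_site_star (v : V) (A : M2) : star (site v A) = site v (star A) := by
  rw [sb_site_eq_hom, sb_site_eq_hom, map_star]

theorem sb_site_add (v : V) (A C : M2) : site v (A + C) = site v A + site v C := by
  rw [sb_site_eq_hom, sb_site_eq_hom, sb_site_eq_hom, map_add]

theorem sb_site_smul (v : V) (c : ℂ) (A : M2) : site v (c • A) = c • site v A := by
  rw [sb_site_eq_hom, sb_site_eq_hom, map_smul]

end Gen

section Hil

variable {H : Type*} [NormedAddCommGroup H] [InnerProductSpace ℂ H] [CompleteSpace H]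

theorem sb_norm_of_invol {A : H →L[ℂ] H} (hs : star A = A) (h1 : A * A = 1) (x : H) :
    ‖A x‖ = ‖x‖ := by
  refine ContinuousLinearMap.norm_map_of_mem_unitary (u := A) ?_ x
  rw [Unitary.mem_iff, hs]
  exact ⟨h1, h1⟩

theorem sb_invol_of_proj {U : H →L[ℂ] H} (hU : IsStarProjection U) :
    star (1 - (2 : ℂ) • U) = 1 - (2 : ℂ) • U ∧
      (1 - (2 : ℂ) • U) * (1 - (2 : ℂ) • U) = 1 := by
  have h1 : U * U = U := hU.isIdempotentElem
  have h2 : star U = U := hU.isSelfAdjoint
  constructor
  · rw [star_sub, star_one, star_smul, h2]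
    simp
  · have e : (1 - (2 : ℂ) • U) * (1 - (2 : ℂ) • U) = 1 - (4 : ℂ) • U + (4 : ℂ) • (U * U) := by
      rw [sub_mul, mul_sub, mul_sub, one_mul, mul_one, smul_mul_smul_comm, one_mul]
      module
    rw [e, h1]
    abel

theorem sb_sp_norm_sq {P : H →L[ℂ] H} (hP : IsStarProjection P) (x : H) :
    ‖P x‖ ^ 2 = RCLike.re ⟪x, P x⟫_ℂ := by
  rw [← sp_inner hP, ← sp_inner_self hP, inner_self_eq_norm_sq (𝕜 := ℂ)]

theorem sb_sp_norm_sub {P : H →L[ℂ] H} (hP : IsStarProjection P) (x : H) :
    ‖(1 - P) x‖ ^ 2 = ‖x‖ ^ 2 - ‖P x‖ ^ 2 := by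
  rw [sb_sp_norm_sq (sp_one_sub hP), sb_sp_norm_sq hP]
  have : (1 - P) x = x - P x := rfl
  rw [this, inner_sub_right, map_sub, inner_self_eq_norm_sq (𝕜 := ℂ)]

theorem sb_sp_norm_le {P : H →L[ℂ] H} (hP : IsStarProjection P) (x : H) : ‖P x‖ ≤ ‖x‖ := by
  have h := sb_sp_norm_sub hP x
  have h2 : 0 ≤ ‖(1 - P) x‖ ^ 2 := by positivity
  nlinarith [norm_nonneg x, norm_nonneg (P x)]

end Hil

namespace Sys

variable {V β : Type} [Fintype V] [DecidableEq V] [DecidableEq β] (s : Sys V β)

theorem sb_pi_sq (q : V) : outer (s.pi q) * outer (s.pi q) = outer (s.pi q) :=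
  sb_outer_sq (s.pi_unit q)

/-- basic facts on vectors in the domain -/
theorem Dom.P_fix {s : Sys V β} {J : Finset β} {a : HV V} (ha : s.Dom J a) {h : β} (hh : h ∈ J)
    (j : ℕ) : act (s.P j h) a = a := by
  have h1 : s.P j h * s.Pf h = s.Pf h := by
    unfold P Pf
    rw [sb_onSet_mul_same _ _ _ s.sb_pi_sq]
    congr 1
    exact Set.union_eq_right.2 Set.inter_subset_left
  have h2 := ha h hh
  calc act (s.P j h) a = act (s.P j h) (act (s.Pf h) a) := by rw [h2]
    _ = act (s.P j h * s.Pf h) a := by rw [map_mul]; rfl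
    _ = a := by rw [h1, h2]

theorem sb_U_proj (h : β) : IsStarProjection (onSet (s.O h : Set V) (fun q => outer (s.th q))) :=
  sb_onSet_proj _ _ fun q _ => sb_outer_proj (s.th_unit q)

theorem sb_R_invol (h : β) : star (act (s.R h)) = act (s.R h) ∧ act (s.R h) * act (s.R h) = 1 := by
  have h1 : act (s.R h) = 1 - (2 : ℂ) • act (onSet (s.O h : Set V) (fun q => outer (s.th q))) := by
    unfold R
    rw [map_sub, map_one, map_smul]
  rw [h1]
  exact sb_invol_of_proj (sb_act_proj (s.sb_U_proj h))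

theorem sb_X_invol (h : β) : star (act (s.X h)) = act (s.X h) ∧ act (s.X h) * act (s.X h) = 1 := by
  unfold X
  constructor
  · rw [← map_star, sb_site_star, s.x1_star]
  · rw [← map_mul, sb_site_mul, s.x1_sq, sb_site_one, map_one]

theorem sb_norm_R (h : β) (a : HV V) : ‖act (s.R h) a‖ = ‖a‖ :=
  sb_norm_of_invol (s.sb_R_invol h).1 (s.sb_R_invol h).2 a

theorem sb_norm_X (h : β) (a : HV V) : ‖act (s.X h) a‖ = ‖a‖ :=
  sb_norm_of_invol (s.sb_X_invol h).1 (s.sb_X_invol h).2 a

theorem norm_Cop (b : Bool) (h : β) (a : HV V) : ‖s.Cop b h a‖ = ‖a‖ := by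
  unfold Cop
  split_ifs
  · rw [map_mul]
    change ‖act (s.R h) (act (s.X h) a)‖ = ‖a‖
    rw [s.sb_norm_R, s.sb_norm_X]
  · exact s.sb_norm_R h a

theorem norm_CC (J I : Finset β) (a : HV V) : ‖s.CC J I a‖ = ‖a‖ := by
  unfold CC
  induction J using Finset.induction_on with
  | empty => rfl
  | insert h J hJ ih =>
    rw [mix_insert _ _ _ _ _ hJ]
    change ‖s.Cop (decide (h ∈ I)) h (mix s.Cop s.Cop_comm J I a)‖ = ‖a‖
    rw [s.norm_Cop, ih]

theorem norm_YY_le (J : Finset β) : ‖s.YY J‖ ≤ 1 := by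
  have hY : ∀ h, ‖act (s.Y h)‖ ≤ 1 := by
    intro h
    unfold Y
    rw [map_smul, map_mul, norm_smul]
    have h1 : ‖(s.lam h : ℂ)‖ ≤ 1 := by
      rw [Complex.norm_real, Real.norm_of_nonneg (s.lam0 h)]
      exact s.lam1 h
    have h2 : ‖act (s.E h) * act (s.F h)‖ ≤ 1 := by
      refine (norm_mul_le _ _).trans ?_
      have h3 := (sb_act_proj (s.E_proj h)).norm_le
      have h4 := (sb_act_proj (s.F_proj h)).norm_le
      exact mul_le_one₀ h3 (norm_nonneg _) h4
    exact mul_le_one₀ h1 (norm_nonneg _) h2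
  induction J using Finset.induction_on with
  | empty =>
    change ‖(1 : HV V →L[ℂ] HV V)‖ ≤ 1
    exact ContinuousLinearMap.norm_id_le
  | insert h J hJ ih =>
    have e : s.YY (insert h J) = act (s.Y h) * s.YY J :=
      Finset.noncommProd_insert_of_notMem _ _ _ _ hJ
    rw [e]
    exact (norm_mul_le _ _).trans (mul_le_one₀ (hY h) (norm_nonneg _) ih)

end Sys

end P368.D3
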