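import Vale.Agent.P368.SysB0

namespace P368.D3

open Matrix
open scoped BigOperators InnerProductSpace ComplexOrder

theorem sb_one_sub_sum_le_prod {ι : Type*} [DecidableEq ι] (T : Finset ι) (x : ι → ℝ)
    (h0 : ∀ j ∈ T, 0 ≤ x j) (h1 : ∀ j ∈ T, x j ≤ 1) : 1 - ∑ j ∈ T, x j ≤ ∏ j ∈ T, (1 - x j) := by
  induction T using Finset.induction_on with
  | empty => simp
  | insert j T hj ih =>
    rw [Finset.sum_insert hj, Finset.prod_insert hj]
    have ih' := ih (fun i hi => h0 i (Finset.mem_insert_of_mem hi))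
      (fun i hi => h1 i (Finset.mem_insert_of_mem hi))
    have a0 := h0 j (Finset.mem_insert_self j T)
    have a1 := h1 j (Finset.mem_insert_self j T)
    have s0 : 0 ≤ ∑ i ∈ T, x i :=
      Finset.sum_nonneg fun i hi => h0 i (Finset.mem_insert_of_mem hi)
    have h2 : (1 - x j) * (1 - ∑ i ∈ T, x i) ≤ (1 - x j) * ∏ i ∈ T, (1 - x i) :=
      mul_le_mul_of_nonneg_left ih' (by linarith)
    nlinarith [mul_nonneg a0 s0]

namespace Sys

variable {V β : Type} [Fintype V] [DecidableEq V] [DecidableEq β] (s : Sys V β)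

theorem sb_th_sq (q : V) : outer (s.th q) * outer (s.th q) = outer (s.th q) :=
  sb_outer_sq (s.th_unit q)

theorem sb_inp_not_G (h : β) (j : ℕ) : s.inp h ∉ s.G j := fun hq =>
  Set.disjoint_left.1 (s.zone_G h j) (s.inp_zone h) hq

open Classical in
/-- squared overlap on `S` -/
noncomputable def sb_gp (S : Set V) : ℝ := ∏ q ∈ Finset.univ.filter (fun q => q ∈ S), s.γ q ^ 2

/-- `pi`-compression of the first layer projection on a set of non-input qubits -/
theorem sb_compress_th (h : β) (S : Set V) (hS : S ⊆ s.O h) (hin : s.inp h ∉ S) (a : HV V)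
    (ha : act (onSet S (fun q => outer (s.pi q))) a = a) :
    ‖act (onSet S (fun q => outer (s.th q))) a‖ ^ 2 = s.sb_gp S * ‖a‖ ^ 2 ∧
    ‖act (onSet S (fun q => outer (s.pi q))) (act (onSet S (fun q => outer (s.th q))) a)‖ ^ 2 =
      s.sb_gp S ^ 2 * ‖a‖ ^ 2 := by
  set P := onSet S (fun q => outer (s.pi q)) with hP
  set U := onSet S (fun q => outer (s.th q)) with hU
  set c : ℝ := s.sb_gp S with hc
  have key : P * U * P = ((c : ℝ) : ℂ) • P := by
    have := sb_onSet_compress S (fun q => outer (s.pi q)) (fun q => outer (s.th q))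
      (fun q => s.γ q ^ 2) (fun q hq => sb_outer_three _ _ _
        (s.hγ h q (hS hq) (fun e => hin (e ▸ hq))))
    exact this
  have hPp : IsStarProjection (act P) :=
    sb_act_proj (sb_onSet_proj _ _ fun q _ => sb_outer_proj (s.pi_unit q))
  have hUp : IsStarProjection (act U) :=
    sb_act_proj (sb_onSet_proj _ _ fun q _ => sb_outer_proj (s.th_unit q))
  have e1 : act P (act U a) = (c : ℂ) • a := by
    calc act P (act U a) = act P (act U (act P a)) := by rw [ha]
      _ = act (P * U * P) a := by rw [map_mul, map_mul]; rfl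
      _ = (c : ℂ) • act P a := by rw [key, map_smul]; rfl
      _ = (c : ℂ) • a := by rw [ha]
  constructor
  · rw [sb_sp_norm_sq hUp]
    have e2 : ⟪a, act U a⟫_ℂ = (c : ℂ) * ⟪a, a⟫_ℂ := by
      rw [← inner_smul_right, ← e1]
      nth_rewrite 1 [← ha]
      rw [sp_inner hPp]
    have e3 : ⟪a, a⟫_ℂ = ((‖a‖ ^ 2 : ℝ) : ℂ) := by
      rw [inner_self_eq_norm_sq_to_K]
      push_cast
      rfl
    rw [e2, e3, ← Complex.ofReal_mul]
    exact Complex.ofReal_re _
  · rw [e1, norm_smul, mul_pow, Complex.norm_real, Real.norm_eq_abs, sq_abs]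

theorem sb_wt_eq (j : ℕ) (h : β) : s.sb_gp ((s.O h : Set V) ∩ s.G j) = 1 - s.wt j h := by
  unfold wt sb_gp
  rw [sub_sub_cancel]
  refine Finset.prod_congr ?_ fun _ _ => rfl
  ext q
  simp

theorem sb_X_commute {S : Set V} {M : Op V} (hM : M ∈ locAlg S) (h : β) (hS : s.inp h ∉ S) :
    Commute (act M) (act (s.X h)) :=
  commute_act (Set.disjoint_singleton_right.2 hS) hM (s.X_mem h)

theorem sb_P_fix_of_subset {a : HV V} (h : β) (ha : act (s.Pf h) a = a) (S : Set V)
    (hS : S ⊆ s.O h) : act (onSet S (fun q => outer (s.pi q))) a = a := by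
  have h1 : onSet S (fun q => outer (s.pi q)) * s.Pf h = s.Pf h := by
    unfold Pf
    rw [sb_onSet_mul_same _ _ _ s.sb_pi_sq]
    congr 1
    exact Set.union_eq_right.2 hS
  calc act (onSet S (fun q => outer (s.pi q))) a
      = act (onSet S (fun q => outer (s.pi q))) (act (s.Pf h) a) := by rw [ha]
    _ = act (onSet S (fun q => outer (s.pi q)) * s.Pf h) a := by rw [map_mul]; rfl
    _ = a := by rw [h1, ha]

/-- deleting the medium links of the peeled block -/
theorem R_sub_R2 (τ ζ : ℝ) (h : β)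
    (hζ : ∑ j ∈ (Finset.range s.m).filter (fun j => τ < s.wt j h), s.wt j h ≤ ζ)
    (a : HV V) (ha : act (s.Pf h) a = a) (b : Bool) :
    ‖act (s.R h) ((if b then act (s.X h) else 1) a) -
      (1 - (2 : ℂ) • (act (s.Ul h) * act (s.Uw τ h))) ((if b then act (s.X h) else 1) a)‖ ≤
      2 * Real.sqrt ζ * ‖a‖ := by
  classical
  set med : Set V := {q | ∃ j < s.m, q ∈ s.G j ∧ τ < s.wt j h} with hmed
  set S : Set V := (s.O h : Set V) ∩ med with hS
  set Um := onSet S (fun q => outer (s.th q)) with hUm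
  have hin : s.inp h ∉ S := by
    rintro ⟨_, j, _, hj, _⟩
    exact s.sb_inp_not_G h j hj
  -- the full first layer projection
  have hU : onSet (s.O h : Set V) (fun q => outer (s.th q)) = s.Ul h * s.Uw τ h * Um := by
    unfold Ul Uw
    rw [hUm, sb_onSet_mul_same _ _ _ s.sb_th_sq, sb_onSet_mul_same _ _ _ s.sb_th_sq]
    congr 1
    ext q
    simp only [Set.mem_union, Set.mem_inter_iff, hS, hmed, Set.mem_ofPred_eq]
    constructor
    · intro hq
      rcases s.cover h hq with hz | hG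
      · exact Or.inl (Or.inl ⟨hq, hz⟩)
      · simp only [Set.mem_iUnion, Set.mem_Iio] at hG
        obtain ⟨j, hj, hqj⟩ := hG
        rcases le_or_gt (s.wt j h) τ with hle | hgt
        · exact Or.inl (Or.inr ⟨hq, j, hj, hqj, hle⟩)
        · exact Or.inr ⟨hq, j, hj, hqj, hgt⟩
    · rintro ((⟨hq, _⟩ | ⟨hq, _⟩) | ⟨hq, _⟩) <;> exact hq
  set y : HV V := (if b then act (s.X h) else 1) a with hy
  have hR : act (s.R h) y - (1 - (2 : ℂ) • (act (s.Ul h) * act (s.Uw τ h))) y =
      (2 : ℂ) • act (s.Ul h) (act (s.Uw τ h) ((1 - act Um) y)) := by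
    have e1 : act (s.R h) y = y - (2 : ℂ) • act (s.Ul h) (act (s.Uw τ h) (act Um y)) := by
      unfold R
      rw [hU, map_sub, map_one, map_smul, map_mul, map_mul]
      rfl
    have e2 : (1 - (2 : ℂ) • (act (s.Ul h) * act (s.Uw τ h))) y =
        y - (2 : ℂ) • act (s.Ul h) (act (s.Uw τ h) y) := rfl
    have e3 : (1 - act Um) y = y - act Um y := rfl
    rw [e1, e2, e3, map_sub, map_sub, smul_sub]
    abel
  rw [hR, norm_smul]
  have hUlp : IsStarProjection (act (s.Ul h)) :=
    sb_act_proj (sb_onSet_proj _ _ fun q _ => sb_outer_proj (s.th_unit q))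
  have hUwp : IsStarProjection (act (s.Uw τ h)) :=
    sb_act_proj (sb_onSet_proj _ _ fun q _ => sb_outer_proj (s.th_unit q))
  have hUmp : IsStarProjection (act Um) :=
    sb_act_proj (sb_onSet_proj _ _ fun q _ => sb_outer_proj (s.th_unit q))
  have hn : ‖act (s.Ul h) (act (s.Uw τ h) ((1 - act Um) y))‖ ≤ ‖(1 - act Um) y‖ :=
    (sb_sp_norm_le hUlp _).trans (sb_sp_norm_le hUwp _)
  have hcomm : ‖(1 - act Um) y‖ = ‖(1 - act Um) a‖ := by
    rw [hy]
    cases b
    · rfl
    · have c1 : Commute (act Um) (act (s.X h)) := s.sb_X_commute (onSet_mem _ _) h hin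
      have e : (1 - act Um) (act (s.X h) a) = act (s.X h) ((1 - act Um) a) := by
        have e4 : (1 - act Um) (act (s.X h) a) = act (s.X h) a - act Um (act (s.X h) a) := rfl
        have e5 : (1 - act Um) a = a - act Um a := rfl
        have e6 : act Um (act (s.X h) a) = act (s.X h) (act Um a) :=
          congrArg (fun L : HV V →L[ℂ] HV V => L a) c1.eq
        rw [e4, e5, e6, map_sub]
      change ‖(1 - act Um) (act (s.X h) a)‖ = _
      rw [e, s.sb_norm_X]
  have hfix := s.sb_P_fix_of_subset h ha S (by rw [hS]; exact Set.inter_subset_left)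
  have h1 := (s.sb_compress_th h S (by rw [hS]; exact Set.inter_subset_left) hin a hfix).1
  have h2 := sb_sp_norm_sub hUmp a
  -- product of the weights
  have e0 : s.sb_gp S = ∏ j ∈ (Finset.range s.m).filter (fun j => τ < s.wt j h),
      s.sb_gp ((s.O h : Set V) ∩ s.G j) := by
    unfold sb_gp
    rw [← Finset.prod_biUnion]
    · refine Finset.prod_congr ?_ fun _ _ => rfl
      ext q
      simp only [Finset.mem_filter, Finset.mem_univ, true_and, Finset.mem_biUnion,
        Finset.mem_range, Set.mem_inter_iff, hS, hmed, Set.mem_ofPred_eq]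
      constructor
      · rintro ⟨hq, j, hj, hqj, ht⟩
        exact ⟨j, ⟨hj, ht⟩, hq, hqj⟩
      · rintro ⟨j, ⟨hj, ht⟩, hq, hqj⟩
        exact ⟨hq, j, hj, hqj, ht⟩
    · intro i _ j _ hij
      rw [Function.onFun, Finset.disjoint_left]
      intro q hq hq'
      simp only [Finset.mem_filter, Finset.mem_univ, true_and, Set.mem_inter_iff] at hq hq'
      exact Set.disjoint_left.1 (s.G_disj i j hij) hq.2 hq'.2
  have h3 : 1 - ζ ≤ s.sb_gp S := by
    rw [e0, Finset.prod_congr rfl fun j _ => s.sb_wt_eq j h]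
    refine le_trans ?_ (sb_one_sub_sum_le_prod _ _ (fun j _ => s.wt_nonneg j h)
      (fun j _ => s.wt_le_one j h))
    linarith
  have h4 : ‖(1 - act Um) a‖ ^ 2 ≤ ζ * ‖a‖ ^ 2 := by
    rw [h2, h1]
    nlinarith [mul_le_mul_of_nonneg_right h3 (sq_nonneg ‖a‖)]
  have h5 : ‖(1 - act Um) a‖ ≤ Real.sqrt ζ * ‖a‖ := by
    have hζ0 : 0 ≤ ζ := le_trans (Finset.sum_nonneg fun j _ => s.wt_nonneg j h) hζ
    have : ‖(1 - act Um) a‖ ≤ Real.sqrt (ζ * ‖a‖ ^ 2) := Real.le_sqrt_of_sq_le h4
    rwa [Real.sqrt_mul hζ0, Real.sqrt_sq (norm_nonneg _)] at this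
  have h6 : ‖(2 : ℂ)‖ = 2 := by simp
  rw [h6]
  calc 2 * ‖act (s.Ul h) (act (s.Uw τ h) ((1 - act Um) y))‖ ≤ 2 * ‖(1 - act Um) y‖ := by
        linarith
    _ = 2 * ‖(1 - act Um) a‖ := by rw [hcomm]
    _ ≤ 2 * (Real.sqrt ζ * ‖a‖) := by linarith
    _ = 2 * Real.sqrt ζ * ‖a‖ := by ring

end Sys

end P368.D3
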