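import Vale.Agent.P368.SysB1

namespace P368.D3

open Matrix
open scoped BigOperators InnerProductSpace ComplexOrder

theorem sb_sp_norm_mul {H : Type*} [NormedAddCommGroup H] [InnerProductSpace ℂ H] [CompleteSpace H]
    {P O : H →L[ℂ] H} (hP : IsStarProjection P) (x : H) :
    ‖(1 - P * O) x‖ ^ 2 ≤ ‖(1 - P) x‖ ^ 2 + ‖(1 - O) x‖ ^ 2 := by
  have h1 := sb_sp_norm_sub hP ((1 - P * O) x)
  have hPP : ∀ y, P (P y) = P y := fun y =>
    congrArg (fun L : H →L[ℂ] H => L y) hP.isIdempotentElem.eq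
  have e1 : (1 - P) ((1 - P * O) x) = (1 - P) x := by
    change (x - P (O x)) - P (x - P (O x)) = x - P x
    rw [map_sub, hPP]
    abel
  have e2 : P ((1 - P * O) x) = P ((1 - O) x) := by
    change P (x - P (O x)) = P (x - O x)
    rw [map_sub, map_sub, hPP]
  have h2 := sb_sp_norm_le hP ((1 - O) x)
  rw [e1, e2] at h1
  nlinarith [norm_nonneg ((1 - O) x), norm_nonneg (P ((1 - O) x))]

namespace Sys

variable {V β : Type} [Fintype V] [DecidableEq V] [DecidableEq β] (s : Sys V β)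

theorem sb_P_proj (j : ℕ) (h : β) : IsStarProjection (act (s.P j h)) :=
  sb_act_proj (sb_onSet_proj _ _ fun q _ => sb_outer_proj (s.pi_unit q))

theorem sb_Ot_proj (J : Finset β) (h : β) (j : ℕ) : IsStarProjection (act (s.Ot J h j)) :=
  sb_act_proj (sb_onSet_proj _ _ fun q _ => sb_outer_proj (s.pi_unit q))

/-- union bound for the excitation of several blocks -/
theorem sb_one_sub_Ot (T : Finset β) (j : ℕ) (x : HV V) :
    ‖(1 - act (onSet ({q | ∃ h' ∈ T, q ∈ s.O h'} ∩ s.G j) (fun q => outer (s.pi q)))) x‖ ^ 2 ≤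
      ∑ h' ∈ T, ‖(1 - act (s.P j h')) x‖ ^ 2 := by
  induction T using Finset.induction_on with
  | empty =>
    have e : onSet ({q | ∃ h' ∈ (∅ : Finset β), q ∈ s.O h'} ∩ s.G j)
        (fun q => outer (s.pi q)) = (1 : Op V) := by
      unfold onSet
      rw [← prodOp_one]
      congr 1
      funext v
      simp
    rw [e, map_one]
    simp
  | insert h T hT ih =>
    have e : onSet ({q | ∃ h' ∈ insert h T, q ∈ s.O h'} ∩ s.G j) (fun q => outer (s.pi q)) =
        s.P j h * onSet ({q | ∃ h' ∈ T, q ∈ s.O h'} ∩ s.G j) (fun q => outer (s.pi q)) := by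
      unfold P
      rw [sb_onSet_mul_same _ _ _ s.sb_pi_sq]
      congr 1
      ext q
      simp only [Set.mem_inter_iff, Set.mem_ofPred_eq, Finset.mem_insert, exists_eq_or_imp,
        Set.mem_union, Finset.mem_coe]
      tauto
    rw [e, Finset.sum_insert hT, map_mul]
    exact (sb_sp_norm_mul (s.sb_P_proj j h) x).trans (by gcongr)

theorem sb_Ot_eq (J : Finset β) (h : β) (j : ℕ) :
    s.Ot J h j = onSet ({q | ∃ h' ∈ J.erase h, q ∈ s.O h'} ∩ s.G j)
      (fun q => outer (s.pi q)) := by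
  unfold Ot
  congr 1
  ext q
  simp only [Set.mem_inter_iff, Set.mem_ofPred_eq, Finset.mem_erase]
  constructor
  · rintro ⟨⟨h', h1, h2, h3⟩, h4⟩
    exact ⟨⟨h', ⟨h2, h1⟩, h3⟩, h4⟩
  · rintro ⟨⟨h', ⟨h2, h1⟩, h3⟩, h4⟩
    exact ⟨⟨h', h1, h2, h3⟩, h4⟩

theorem sb_gp_le_one (S : Set V) : s.sb_gp S ≤ 1 := by
  unfold sb_gp
  refine Finset.prod_le_one (fun q _ => sq_nonneg _) fun q _ => ?_
  exact pow_le_one₀ (s.γ0 q) (s.γ1 q)

theorem sb_clm_mul_apply (A B : HV V →L[ℂ] HV V) (x : HV V) : (A * B) x = A (B x) := rfl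

theorem sb_comm_apply {A B : HV V →L[ℂ] HV V} (h : Commute A B) (x : HV V) :
    A (B x) = B (A x) := congrArg (fun L : HV V →L[ℂ] HV V => L x) h.eq

theorem sb_X_P_commute (j : ℕ) (h h' : β) : Commute (act (s.P j h)) (act (s.X h')) :=
  s.sb_X_commute (onSet_mem _ _) h' (fun hh => s.sb_inp_not_G h' j hh.2)

/-- splitting the first layer projection at one gate -/
theorem sb_U_split (h : β) (j : ℕ) : onSet (s.O h : Set V) (fun q => outer (s.th q)) =
    onSet ((s.O h : Set V) ∩ s.G j) (fun q => outer (s.th q)) *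
      onSet ((s.O h : Set V) ∩ (s.G j)ᶜ) (fun q => outer (s.th q)) := by
  rw [sb_onSet_mul_same _ _ _ s.sb_th_sq, ← Set.inter_union_distrib_left,
    Set.union_compl_self, Set.inter_univ]

theorem sb_exc_aux (h : β) (j : ℕ) (y : HV V) (hPy : act (s.P j h) y = y) :
    ‖(1 - act (s.P j h)) (act (onSet (s.O h : Set V) (fun q => outer (s.th q))) y)‖ ^ 2 ≤
      s.wt j h * ‖y‖ ^ 2 := by
  rw [s.sb_U_split h j, map_mul, sb_clm_mul_apply]
  set z := act (onSet ((s.O h : Set V) ∩ (s.G j)ᶜ) (fun q => outer (s.th q))) y with hz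
  have hPz : act (s.P j h) z = z := by
    have hd : Disjoint ((s.O h : Set V) ∩ s.G j) ((s.O h : Set V) ∩ (s.G j)ᶜ) := by
      rw [Set.disjoint_left]
      rintro q ⟨_, h1⟩ ⟨_, h2⟩
      exact h2 h1
    have c : Commute (act (s.P j h))
        (act (onSet ((s.O h : Set V) ∩ (s.G j)ᶜ) (fun q => outer (s.th q)))) :=
      commute_act hd (onSet_mem _ _) (onSet_mem _ _)
    rw [hz, sb_comm_apply c, hPy]
  have hnz : ‖z‖ ≤ ‖y‖ := sb_sp_norm_le
    (sb_act_proj (sb_onSet_proj _ _ fun q _ => sb_outer_proj (s.th_unit q))) y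
  obtain ⟨h1, h2⟩ := s.sb_compress_th h ((s.O h : Set V) ∩ s.G j) Set.inter_subset_left
    (fun hh => s.sb_inp_not_G h j hh.2) z hPz
  rw [s.sb_wt_eq] at h1 h2
  have h3 := sb_sp_norm_sub (s.sb_P_proj j h)
    (act (onSet ((s.O h : Set V) ∩ s.G j) (fun q => outer (s.th q))) z)
  have hw0 := s.wt_nonneg j h
  have hw1 := s.wt_le_one j h
  have h2' : ‖act (s.P j h) (act (onSet ((s.O h : Set V) ∩ s.G j)
      (fun q => outer (s.th q))) z)‖ ^ 2 = (1 - s.wt j h) ^ 2 * ‖z‖ ^ 2 := h2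
  rw [h3, h1, h2']
  have h5 : ‖z‖ ^ 2 ≤ ‖y‖ ^ 2 := pow_le_pow_left₀ (norm_nonneg z) hnz 2
  have h6 : 0 ≤ s.wt j h * ‖z‖ ^ 2 * s.wt j h := by positivity
  nlinarith [mul_le_mul_of_nonneg_left h5 hw0]

theorem sb_R_apply (h : β) (y : HV V) : act (s.R h) y =
    y - (2 : ℂ) • act (onSet (s.O h : Set V) (fun q => outer (s.th q))) y := by
  unfold R
  rw [map_sub, map_one, map_smul]
  rfl

/-- excitation created by the first layer gate of one block -/
theorem sb_exc_one (b : Bool) (h : β) (j : ℕ) (a : HV V) (ha : act (s.Pf h) a = a) :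
    ‖(1 - act (s.P j h)) (s.Cop b h a)‖ ^ 2 ≤ 4 * s.wt j h * ‖a‖ ^ 2 := by
  have hPa : act (s.P j h) a = a := s.sb_P_fix_of_subset h ha _ Set.inter_subset_left
  obtain ⟨y, hy, hny, hPy⟩ : ∃ y : HV V, s.Cop b h a = act (s.R h) y ∧ ‖y‖ = ‖a‖ ∧
      act (s.P j h) y = y := by
    cases b
    · exact ⟨a, rfl, rfl, hPa⟩
    · refine ⟨act (s.X h) a, ?_, s.sb_norm_X h a, ?_⟩
      · unfold Cop
        rw [if_pos rfl, map_mul, sb_clm_mul_apply]
      · rw [sb_comm_apply (s.sb_X_P_commute j h h), hPa]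
  have e3 : (1 - act (s.P j h)) (s.Cop b h a) = -((2 : ℂ) • (1 - act (s.P j h))
      (act (onSet (s.O h : Set V) (fun q => outer (s.th q))) y)) := by
    rw [hy, s.sb_R_apply, map_sub, map_smul]
    have : (1 - act (s.P j h)) y = 0 := by
      change y - act (s.P j h) y = 0
      rw [hPy, sub_self]
    rw [this, zero_sub]
  have h4 : ‖(2 : ℂ)‖ = 2 := by simp
  have h5 := s.sb_exc_aux h j y hPy
  rw [e3, norm_neg, norm_smul, mul_pow, h4]
  rw [hny] at h5
  linarith

/-- total excitation of the other blocks -/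
theorem Ka_bound (τ W : ℝ) (hτ0 : 0 ≤ τ) (hτ : τ ≤ 1 / 4) (J : Finset β)
    (hW : ∀ h ∈ J, ∑ j ∈ Finset.range s.m, s.wt j h ≤ W) (h : β) (hh : h ∈ J)
    (I : Finset β) (a : HV V) (ha : s.Dom J a) :
    (s.chain τ W hτ0 hτ J h hh (hW h hh)).Ka (s.CC (J.erase h) I a) ≤ 4 * W * J.card * ‖a‖ ^ 2 := by
  have hW0 : 0 ≤ W := (Finset.sum_nonneg fun j _ => s.wt_nonneg j h).trans (hW h hh)
  have h1 : (s.chain τ W hτ0 hτ J h hh (hW h hh)).Ka (s.CC (J.erase h) I a) =
      ∑ j ∈ Finset.range s.m, ‖(1 - act (s.Ot J h j)) (s.CC (J.erase h) I a)‖ ^ 2 := rfl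
  rw [h1]
  have h2 : ∀ j ∈ Finset.range s.m, ‖(1 - act (s.Ot J h j)) (s.CC (J.erase h) I a)‖ ^ 2 ≤
      ∑ h' ∈ J.erase h, 4 * s.wt j h' * ‖a‖ ^ 2 := by
    intro j _
    rw [s.sb_Ot_eq]
    refine (s.sb_one_sub_Ot _ j _).trans (Finset.sum_le_sum fun h' hh' => ?_)
    have hJ' : h' ∈ J := Finset.mem_of_mem_erase hh'
    have e : s.CC (J.erase h) I a =
        s.CC ((J.erase h).erase h') I (s.Cop (decide (h' ∈ I)) h' a) := by
      have e1 : s.CC (J.erase h) I =
          s.Cop (decide (h' ∈ I)) h' * s.CC ((J.erase h).erase h') I := by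
        unfold CC
        rw [← mix_insert _ _ _ _ _ (Finset.notMem_erase h' _), Finset.insert_erase hh']
      have c : Commute (s.Cop (decide (h' ∈ I)) h') (s.CC ((J.erase h).erase h') I) := by
        unfold CC
        refine mix_commute _ _ _ _ _ fun k hk b => s.Cop_comm _ _ ?_ _ _
        rintro rfl
        exact Finset.notMem_erase _ _ hk
      rw [e1, c.eq]
      rfl
    rw [e]
    have c2 : Commute (1 - act (s.P j h')) (s.CC ((J.erase h).erase h') I) := by
      refine (Commute.one_left _).sub_left ?_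
      unfold CC
      refine mix_commute _ _ _ _ _ fun k hk b => s.Cop_commute (onSet_mem _ _) k ?_ b
      refine Set.disjoint_of_subset_left Set.inter_subset_left ?_
      have hne : h' ≠ k := by
        rintro rfl
        exact Finset.notMem_erase _ _ hk
      exact_mod_cast s.O_disj h' k hne
    have e2 := congrArg (fun L : HV V →L[ℂ] HV V => L (s.Cop (decide (h' ∈ I)) h' a)) c2.eq
    change (1 - act (s.P j h')) (s.CC ((J.erase h).erase h') I (s.Cop (decide (h' ∈ I)) h' a)) =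
      s.CC ((J.erase h).erase h') I ((1 - act (s.P j h')) (s.Cop (decide (h' ∈ I)) h' a)) at e2
    rw [e2, s.norm_CC]
    exact s.sb_exc_one _ h' j a (ha h' hJ')
  refine (Finset.sum_le_sum h2).trans ?_
  rw [Finset.sum_comm]
  have h3 : ∀ h' ∈ J.erase h, ∑ j ∈ Finset.range s.m, 4 * s.wt j h' * ‖a‖ ^ 2 ≤
      4 * W * ‖a‖ ^ 2 := by
    intro h' hh'
    rw [← Finset.sum_mul, ← Finset.mul_sum]
    have := hW h' (Finset.mem_of_mem_erase hh')
    gcongr
  refine (Finset.sum_le_sum h3).trans ?_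
  rw [Finset.sum_const, nsmul_eq_mul]
  have h4 : ((J.erase h).card : ℝ) ≤ J.card := by
    exact_mod_cast Finset.card_le_card (Finset.erase_subset h J)
  have h5 : 0 ≤ 4 * W * ‖a‖ ^ 2 := by positivity
  nlinarith [mul_le_mul_of_nonneg_right h4 h5]

end Sys

end P368.D3
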