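import Vale.Agent.P368.SysB2

namespace P368.D3

open Matrix
open scoped BigOperators InnerProductSpace ComplexOrder

/-- coordinates of a unit vector in an orthonormal basis of `ℂ²` -/
theorem sb_ip_sq_add (u v t : Bool → ℂ) (hu : sb_ip u u = 1) (hv : sb_ip v v = 1) (huv : sb_ip u v = 0)
    (ht : ∑ b, ‖t b‖ ^ 2 = 1) : ‖sb_ip t u‖ ^ 2 + ‖sb_ip t v‖ ^ 2 = 1 := by
  have hvu : sb_ip v u = 0 := by
    have : sb_ip v u = star (sb_ip u v) := by
      unfold sb_ip
      simp [mul_comm]
    rw [this, huv, star_zero]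
  set M : M2 := Matrix.of fun a b => if b = true then v a else u a with hM
  have h1 : star M * M = 1 := by
    ext a b
    rw [Matrix.mul_apply]
    simp only [Matrix.star_apply, hM, Matrix.of_apply]
    cases a <;> cases b <;> simp only [if_true, if_false, Bool.false_eq_true, Matrix.one_apply]
    · exact hu
    · exact huv
    · exact hvu
    · exact hv
  have h2 : M * star M = 1 := mul_eq_one_comm.1 h1
  have e : ∀ a b, (M * star M) a b = u a * star (u b) + v a * star (v b) := by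
    intro a b
    rw [Matrix.mul_apply, Fintype.sum_bool]
    simp only [Matrix.star_apply, hM, Matrix.of_apply]
    simp
    ring
  have h3 : ∀ a b, u a * star (u b) + v a * star (v b) = (1 : M2) a b := by
    intro a b
    rw [← e, h2]
  have h4 : ((‖sb_ip t u‖ ^ 2 + ‖sb_ip t v‖ ^ 2 : ℝ) : ℂ) = ∑ a, ∑ b,
      star (t a) * t b * (u a * star (u b) + v a * star (v b)) := by
    push_cast
    rw [← Complex.mul_conj', ← Complex.mul_conj']
    unfold sb_ip
    simp only [Fintype.sum_bool, map_add, map_mul, Complex.star_def, Complex.conj_conj]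
    ring
  have h5 : ∑ a, ∑ b, star (t a) * t b * (u a * star (u b) + v a * star (v b)) =
      ((∑ b, ‖t b‖ ^ 2 : ℝ) : ℂ) := by
    simp only [h3]
    push_cast
    simp only [Fintype.sum_bool, ← Complex.conj_mul', Matrix.one_apply, Complex.star_def]
    simp
  rw [h5, ht] at h4
  exact_mod_cast h4

/-- abstract change of the state of one block -/
theorem sb_norm_rot {H : Type*} [NormedAddCommGroup H] [InnerProductSpace ℂ H] [CompleteSpace H]
    {N X Pj : H →L[ℂ] H} (hNX : Commute N X) (hNPj : Commute N Pj) (hX : star X = X)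
    (hXX : X * X = 1) (hPj : IsStarProjection Pj) (hPjX : Pj * X * Pj = 0) {a : H} (ha : Pj a = a)
    {p q : ℂ} (hpq : ‖p‖ ^ 2 + ‖q‖ ^ 2 = 1) : ‖N (p • a + q • X a)‖ ^ 2 = ‖N a‖ ^ 2 := by
  have e1 : N (X a) = X (N a) := congrArg (fun L : H →L[ℂ] H => L a) hNX.eq
  have e2 : Pj (N a) = N a := by
    have : N (Pj a) = Pj (N a) := congrArg (fun L : H →L[ℂ] H => L a) hNPj.eq
    rw [← this, ha]
  rw [map_add, map_smul, map_smul, e1]
  set y := N a with hy
  have hXy : ‖X y‖ = ‖y‖ := sb_norm_of_invol hX hXX y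
  have h0 : ⟪y, X y⟫_ℂ = 0 := by
    have h1 : ⟪y, X y⟫_ℂ = ⟪y, Pj (X (Pj y))⟫_ℂ := by
      rw [← sp_inner hPj, e2]
    have h2 : Pj (X (Pj y)) = 0 := congrArg (fun L : H →L[ℂ] H => L y) hPjX
    rw [h1, h2, inner_zero_right]
  rw [norm_add_sq (𝕜 := ℂ), inner_smul_left, inner_smul_right, h0, norm_smul, norm_smul, hXy]
  simp only [mul_zero, map_zero, add_zero, mul_pow]
  rw [← add_mul, hpq, one_mul]

namespace Sys

variable {V β : Type} [Fintype V] [DecidableEq V] [DecidableEq β] (s : Sys V β)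

noncomputable def sb_cp (h : β) : ℂ := sb_ip (s.th (s.inp h)) (s.x1 h *ᵥ s.pi (s.inp h))
noncomputable def sb_cq (h : β) : ℂ := -sb_ip (s.th (s.inp h)) (s.pi (s.inp h))

theorem sb_ip_x1 (h : β) : sb_ip (s.x1 h *ᵥ s.pi (s.inp h)) (s.x1 h *ᵥ s.pi (s.inp h)) = 1 := by
  have h1 : sb_ip (s.x1 h *ᵥ s.pi (s.inp h)) (s.x1 h *ᵥ s.pi (s.inp h)) =
      star (s.x1 h *ᵥ s.pi (s.inp h)) ⬝ᵥ (s.x1 h *ᵥ s.pi (s.inp h)) := rfl
  rw [h1, Matrix.star_mulVec, Matrix.dotProduct_mulVec, Matrix.vecMul_vecMul]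
  have h2 : (s.x1 h)ᴴ = s.x1 h := s.x1_star h
  rw [h2, s.x1_sq, Matrix.vecMul_one]
  exact sb_ip_self (s.pi_unit _)

theorem sb_cpq (h : β) : ‖s.sb_cp h‖ ^ 2 + ‖s.sb_cq h‖ ^ 2 = 1 := by
  unfold sb_cp sb_cq
  rw [norm_neg, add_comm]
  exact sb_ip_sq_add _ _ _ (sb_ip_self (s.pi_unit _)) (s.sb_ip_x1 h) (s.x1_off h) (s.th_unit _)

noncomputable def sb_B (b : Bool) (h : β) : HV V →L[ℂ] HV V :=
  if b then -(starRingEnd ℂ (s.sb_cq h)) • s.Cop false h + (starRingEnd ℂ (s.sb_cp h)) • s.Cop true h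
  else s.sb_cp h • s.Cop false h + s.sb_cq h • s.Cop true h

theorem sb_B_comm_of {T : HV V →L[ℂ] HV V} (h : β) (hT : ∀ b, Commute T (s.Cop b h)) (b : Bool) :
    Commute T (s.sb_B b h) := by
  unfold sb_B
  split_ifs
  · exact ((hT false).smul_right _).add_right ((hT true).smul_right _)
  · exact ((hT false).smul_right _).add_right ((hT true).smul_right _)

theorem sb_B_comm (h h' : β) (hne : h ≠ h') (a b : Bool) : Commute (s.sb_B a h) (s.sb_B b h') :=
  s.sb_B_comm_of h' (fun b => (s.sb_B_comm_of h (fun a => (s.Cop_comm h' h hne.symm b a)) a).symm) b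

/-- the rotated state is not touched by the first layer -/
theorem sb_B_false_apply (h : β) (a : HV V) (ha : act (s.Pf h) a = a) :
    s.sb_B false h a = s.sb_cp h • a + s.sb_cq h • act (s.X h) a := by
  have h1 : s.sb_B false h a = act (s.R h) (s.sb_cp h • a + s.sb_cq h • act (s.X h) a) := by
    unfold sb_B Cop
    simp only [Bool.false_eq_true, if_false, if_true]
    rw [map_mul, map_add, map_smul, map_smul]
    rfl
  have h2 : onSet (s.O h : Set V) (fun q => outer (s.th q)) *
      (s.sb_cp h • 1 + s.sb_cq h • s.X h) * s.Pf h = 0 := by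
    have e1 : s.sb_cp h • (1 : Op V) + s.sb_cq h • s.X h =
        site (s.inp h) (s.sb_cp h • (1 : M2) + s.sb_cq h • s.x1 h) := by
      unfold X
      rw [sb_site_add, sb_site_smul, sb_site_smul, sb_site_one]
    rw [e1]
    unfold onSet site Pf onSet
    rw [prodOp_mul, prodOp_mul]
    apply sb_prodOp_zero _ (s.inp h)
    have hi : s.inp h ∈ (s.O h : Set V) := s.inp_O h
    simp only [hi, if_true, Function.update_self]
    ext a b
    have e2 := s.x1_off h
    simp only [outer, Matrix.mul_apply, Matrix.of_apply, Fintype.sum_bool, Matrix.add_apply,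
      Matrix.smul_apply, smul_eq_mul, Matrix.zero_apply, Matrix.one_apply, sb_cp, sb_cq, sb_ip,
      Matrix.mulVec, dotProduct]
    simp
    ring
  rw [h1, s.sb_R_apply]
  have h3 : act (onSet (s.O h : Set V) (fun q => outer (s.th q)))
      (s.sb_cp h • a + s.sb_cq h • act (s.X h) a) = 0 := by
    have h4 := congrArg (fun M : Op V => act M a) h2
    simp only [map_mul, map_add, map_smul, map_one, map_zero] at h4
    have h5 : act (onSet (s.O h : Set V) (fun q => outer (s.th q)))
        (s.sb_cp h • (act (s.Pf h) a) + s.sb_cq h • act (s.X h) (act (s.Pf h) a)) = 0 := h4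
    rwa [ha] at h5
  rw [h3, smul_zero, sub_zero]

end Sys

end P368.D3
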