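import Vale.Agent.P368.Cand
import Vale.Agent.P368.Drop

namespace P368.D3

open Matrix
open scoped BigOperators InnerProductSpace ComplexOrder Matrix.Norms.L2Operator

section ThreeAux

variable {V : Type} [Fintype V] [DecidableEq V]

theorem th_good_update {cg : V → Finset V} (hcg : Good cg) (r : V) :
    Good (Function.update cg r ∅) := by
  have hsub : ∀ v, Function.update cg r ∅ v ⊆ cg v := by
    intro v
    by_cases hv : v = r
    · subst hv
      rw [Function.update_self]
      exact Finset.empty_subset _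
    · rw [Function.update_of_ne hv]
  refine ⟨fun v hv => hcg.target_notMem v (hsub v hv), fun v w hvw hv hw => ?_⟩
  exact (hcg.disjoint v w hvw (hv.mono (hsub v)) (hw.mono (hsub w))).mono
    (Finset.insert_subset_insert _ (hsub v)) (Finset.insert_subset_insert _ (hsub w))

theorem th_mem_gate_rep (cg : V → Finset V) {q v : V} (h : q ∈ gate cg v) : v ∈ gate cg v := by
  unfold gate at h ⊢
  split_ifs at h ⊢ with h1
  · exact Finset.mem_insert_self _ _
  · simp at h

theorem th_notMem_update {cg : V → Finset V} (hcg : Good cg) (r : V) {h : V}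
    (hh : h ∈ gate cg r) (v : V) : h ∉ gate (Function.update cg r ∅) v := by
  intro hv
  by_cases hvr : v = r
  · subst hvr
    unfold gate at hv
    rw [Function.update_self] at hv
    simp at hv
  · have h2 : h ∈ gate cg v := by
      unfold gate at hv ⊢
      rwa [Function.update_of_ne hvr] at hv
    exact hvr (hcg.gate_inj h2 hh)

theorem th_rep_single {cg : V → Finset V} (hcg : Good cg) {r q : V}
    (hr : ¬ (cg r).Nonempty) (h : rep cg q = r) : q = r := by
  by_cases hex : ∃ v, q ∈ gate cg v
  · obtain ⟨v, hv⟩ := hex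
    have h1 := hcg.rep_eq hv
    rw [h] at h1
    subst h1
    unfold gate at hv
    rw [if_neg hr] at hv
    simp at hv
  · push Not at hex
    rw [rep_eq_self hex] at h
    exact h

theorem th_rep_iff {c : V → Finset V} (hc : Good c) {r : V} (hr : (c r).Nonempty) (q : V) :
    rep c q = r ↔ q ∈ gate c r := by
  constructor
  · intro h
    by_cases hex : ∃ v, q ∈ gate c v
    · obtain ⟨v, hv⟩ := hex
      have := hc.rep_eq hv
      rw [h] at this
      rwa [this]
    · push Not at hex
      have h1 := rep_eq_self hex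
      rw [h] at h1
      exfalso
      apply hex r
      rw [← h1]
      unfold gate
      rw [if_pos hr]
      exact Finset.mem_insert_self _ _
  · exact fun h => hc.rep_eq h

end ThreeAux

theorem sig_bound (ε : ℝ) (hε : 0 < ε) : ∃ N : ℕ, ∀ (V : Type) [Fintype V] [DecidableEq V]
    (c cg : V → Finset V) (hc : Good c) (hcg : Good cg) (W₁ W : V → M2)
    (hW₁ : ∀ q, W₁ q ∈ unitary M2) (hW : ∀ q, W q ∈ unitary M2) (Θ : V → M2) (o : V)
    (hΘ : ∀ q, q ≠ o → IsStarProjection (Θ q)) (ho : ‖Θ o‖ ≤ 1) (In : Finset V),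
    N ≤ In.card → ‖sig W₁ W cg (regOp c Θ Set.univ) In‖ ≤ ε := by
  classical
  obtain ⟨N₁, hN₁⟩ := cand_bound (ε / 2) (by positivity)
  -- choice of `n₁`
  obtain ⟨m, hm⟩ : ∃ m : ℕ, ∀ k, m ≤ k → 4 * Real.sqrt ((1 / 2) ^ k) ≤ ε / 2 := by
    have ht : Filter.Tendsto (fun k : ℕ => 4 * Real.sqrt ((1 / 2 : ℝ) ^ k)) Filter.atTop
        (nhds (4 * Real.sqrt 0)) := by
      have h1 : Filter.Tendsto (fun k : ℕ => ((1 / 2 : ℝ)) ^ k) Filter.atTop (nhds 0) :=
        tendsto_pow_atTop_nhds_zero_of_lt_one (by norm_num) (by norm_num)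
      exact ((Real.continuous_sqrt.tendsto 0).comp h1).const_mul 4
    rw [Real.sqrt_zero, mul_zero] at ht
    have h2 := ht.eventually (gt_mem_nhds (half_pos hε))
    rw [Filter.eventually_atTop] at h2
    obtain ⟨m, hm⟩ := h2
    exact ⟨m, fun k hk => (hm k hk).le⟩
  set n₁ := max m (N₁ + 2) with hn₁
  have hn₁m : m ≤ n₁ := le_max_left _ _
  have hn₁N : N₁ + 2 ≤ n₁ := le_max_right _ _
  refine ⟨n₁ * (N₁ + 2), ?_⟩
  intro V _ _ c cg hc hcg W₁ W hW₁ hW Θ o hΘ ho In hIn
  have hΘn : ∀ q, ‖Θ q‖ ≤ 1 := by
    intro q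
    by_cases hq : q = o
    · subst hq
      exact ho
    · exact top_norm_proj_le _ (hΘ q hq)
  by_cases hA : ∃ r, n₁ ≤ (In.filter (fun q => rep cg q = r)).card
  · obtain ⟨r, hr⟩ := hA
    have hne : (cg r).Nonempty := by
      by_contra hcon
      have h1 : (In.filter (fun q => rep cg q = r)).card ≤ 1 := by
        rw [Finset.card_le_one]
        intro a ha b hb
        rw [Finset.mem_filter] at ha hb
        rw [th_rep_single hcg hcon ha.2, th_rep_single hcg hcon hb.2]
      omega
    have hfil : In.filter (fun q => q ∈ gate cg r) = In.filter (fun q => rep cg q = r) := by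
      refine Finset.filter_congr fun q _ => ?_
      rw [th_rep_iff hcg hne]
    have hdrop := drop_gate cg hcg W₁ W hW₁ hW (regOp c Θ Set.univ)
      (hc.regOp_norm Θ Set.univ fun q _ => hΘn q) In r
    rw [hfil] at hdrop
    have hdrop2 := hdrop.trans (hm _ (hn₁m.trans hr))
    set cg' := Function.update cg r ∅ with hcg'
    have hgood' : Good cg' := th_good_update hcg r
    set Cand := (In.filter (fun q => rep cg q = r)).erase o with hCand
    have hCmem : ∀ h ∈ Cand, h ∈ gate cg r ∧ h ≠ o ∧ h ∈ In := by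
      intro h hh
      rw [hCand, Finset.mem_erase, Finset.mem_filter, th_rep_iff hcg hne] at hh
      exact ⟨hh.2.2, hh.1, hh.2.1⟩
    have hself : ∀ h ∈ Cand, rep cg' h = h := fun h hh =>
      rep_eq_self (th_notMem_update hcg r (hCmem h hh).1)
    have hb := hN₁ V c cg' hc hgood' W₁ W hW₁ hW Θ o hΘ ho In Cand
      (fun h hh => (hCmem h hh).2.2)
      (fun h hh h' hh' e => by rwa [hself h hh, hself h' hh'] at e)
      (fun h hh => by
        rw [hself h hh]
        intro e
        by_cases hex : ∃ v, o ∈ gate cg' v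
        · obtain ⟨v, hv⟩ := hex
          have h1 := hgood'.rep_eq hv
          rw [← e] at h1
          subst h1
          exact th_notMem_update hcg r (hCmem h hh).1 h (th_mem_gate_rep cg' hv)
        · push Not at hex
          rw [rep_eq_self hex] at e
          exact (hCmem h hh).2.1 e)
      (by
        have := Finset.pred_card_le_card_erase (a := o)
          (s := In.filter (fun q => rep cg q = r))
        rw [← hCand] at this
        omega)
    calc ‖sig W₁ W cg (regOp c Θ Set.univ) In‖
        = ‖(sig W₁ W cg (regOp c Θ Set.univ) In - sig W₁ W cg' (regOp c Θ Set.univ) In) +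
          sig W₁ W cg' (regOp c Θ Set.univ) In‖ := by rw [sub_add_cancel]
      _ ≤ ε / 2 + ε / 2 := (norm_add_le _ _).trans (add_le_add hdrop2 hb)
      _ = ε := add_halves ε
  · push Not at hA
    have hcard := Finset.card_le_mul_card_image (f := rep cg) In n₁
      (fun a _ => (hA a).le)
    have himg : N₁ + 2 ≤ (In.image (rep cg)).card := by
      by_contra hcon
      push Not at hcon
      have h1 : n₁ * (In.image (rep cg)).card < n₁ * (N₁ + 2) :=
        Nat.mul_lt_mul_of_pos_left hcon (by omega)
      omega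
    set I' := (In.image (rep cg)).erase (rep cg o) with hI'
    have hI'card : N₁ + 1 ≤ I'.card := by
      have := Finset.pred_card_le_card_erase (a := rep cg o) (s := In.image (rep cg))
      rw [← hI'] at this
      omega
    have hex : ∀ v : V, ∃ q : V, v ∈ I' → q ∈ In ∧ rep cg q = v := by
      intro v
      by_cases hv : v ∈ I'
      · have h1 := Finset.mem_of_mem_erase hv
        obtain ⟨q, hq, hqv⟩ := Finset.mem_image.1 h1
        exact ⟨q, fun _ => ⟨hq, hqv⟩⟩
      · exact ⟨v, fun h => absurd h hv⟩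
    choose g hg using hex
    have hb := hN₁ V c cg hc hcg W₁ W hW₁ hW Θ o hΘ ho In (I'.image g)
      (by
        intro h hh
        obtain ⟨v, hv, rfl⟩ := Finset.mem_image.1 hh
        exact (hg v hv).1)
      (by
        intro h hh h' hh' e
        obtain ⟨v, hv, rfl⟩ := Finset.mem_image.1 hh
        obtain ⟨v', hv', rfl⟩ := Finset.mem_image.1 hh'
        rw [(hg v hv).2, (hg v' hv').2] at e
        rw [e])
      (by
        intro h hh e
        obtain ⟨v, hv, rfl⟩ := Finset.mem_image.1 hh
        rw [(hg v hv).2] at e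
        exact Finset.ne_of_mem_erase hv e)
      (by
        rw [Finset.card_image_of_injOn]
        · omega
        · intro v hv v' hv' e
          have h1 := (hg v hv).2
          have h2 := (hg v' hv').2
          change g v = g v' at e
          rw [← h1, e, h2])
    exact hb.trans (by linarith)

section ThreeB

variable {n : ℕ} {A : Type} [Fintype A] [DecidableEq A]

/-- the set of inputs equal to one -/
def th_K (A : Type) (x : Fin n → Bool) : Finset (Fin n ⊕ A) :=
  (Finset.univ.filter fun i => x i = true).map Function.Embedding.inl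

theorem th_mem_K_inl (x : Fin n → Bool) (i : Fin n) :
    (Sum.inl i : Fin n ⊕ A) ∈ th_K A x ↔ x i = true := by
  simp [th_K]

theorem th_mem_K_inr (x : Fin n → Bool) (a : A) :
    (Sum.inr a : Fin n ⊕ A) ∉ th_K A x := by
  simp [th_K]

theorem th_start (x : Fin n → Bool) :
    start (zeros A) x = Pi.single (fun q => decide (q ∈ th_K A x)) 1 := by
  funext z
  unfold start zeros
  by_cases h1 : (fun i => z (Sum.inl i)) = x
  · by_cases h2 : (fun a => z (Sum.inr a)) = fun _ => false
    · have hz : z = fun q => decide (q ∈ th_K A x) := by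
        funext q
        rcases q with i | a
        · have := congrFun h1 i
          simp only [th_mem_K_inl]
          rw [this]
          simp
        · have := congrFun h2 a
          simp only [th_mem_K_inr]
          rw [this]
          simp
      rw [if_pos h1, if_pos h2, hz, Pi.single_eq_same]
    · have hz : z ≠ fun q => decide (q ∈ th_K A x) := by
        intro hz
        apply h2
        funext a
        rw [hz]
        simp [th_mem_K_inr]
      rw [if_pos h1, if_neg h2, Pi.single_eq_of_ne hz]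
  · have hz : z ≠ fun q => decide (q ∈ th_K A x) := by
      intro hz
      apply h1
      funext i
      rw [hz]
      simp [th_mem_K_inl]
    rw [if_neg h1, Pi.single_eq_of_ne hz]

theorem corr_sig (L₀ : Layer (Fin n ⊕ A))
    (W₁ : (Fin n ⊕ A) → M2) (hW₁ : ∀ q, W₁ q ∈ unitary M2) (Ξ : Op (Fin n ⊕ A)) :
    (1 / 2 ^ n : ℂ) * ∑ x : Fin n → Bool, (-1 : ℂ) ^ ones x *
        ⟪act (prodOp W₁) (vec (run [L₀] (start (zeros A) x))),
          act Ξ (act (prodOp W₁) (vec (run [L₀] (start (zeros A) x))))⟫_ℂ =
      sig W₁ (fun q => W₁ q * L₀.W q) L₀.ctrl Ξ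
        ((Finset.univ : Finset (Fin n)).map Function.Embedding.inl) := by
  classical
  have key : ∀ x : Fin n → Bool, act (prodOp W₁) (vec (run [L₀] (start (zeros A) x))) =
      act (lay W₁ L₀.ctrl) (inpVec (fun q => W₁ q * L₀.W q) (th_K A x)) := by
    intro x
    have h1 : run [L₀] (start (zeros A) x) = L₀.act (start (zeros A) x) := rfl
    rw [h1, act_layer, th_start]
    unfold inpVec lay
    rw [← top_act_mul_apply, ← top_act_mul_apply, ← prodOp_mul]
    congr 2
    calc prodOp W₁ * (tof L₀.ctrl * prodOp L₀.W)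
        = prodOp W₁ * tof L₀.ctrl * 1 * prodOp L₀.W := by
          rw [mul_one, mul_assoc]
      _ = prodOp W₁ * tof L₀.ctrl * (star (prodOp W₁) * prodOp W₁) * prodOp L₀.W := by
          have h2 : star (prodOp W₁) * prodOp W₁ = 1 := by
            rw [prodOp_star, prodOp_mul, ← prodOp_one]
            congr 1
            funext v
            exact Unitary.star_mul_self_of_mem (hW₁ v)
          rw [h2]
      _ = _ := by simp only [mul_assoc]
  unfold sig
  rw [Finset.card_map, Finset.card_univ, Fintype.card_fin]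
  congr 1
  refine Finset.sum_nbij' (fun x => th_K A x) (fun K i => decide (Sum.inl i ∈ K)) ?_ ?_ ?_ ?_ ?_
  · intro x _
    rw [Finset.mem_powerset]
    exact Finset.map_subset_map.2 (Finset.filter_subset _ _)
  · intro K _
    exact Finset.mem_univ _
  · intro x _
    funext i
    simp [th_mem_K_inl]
  · intro K hK
    rw [Finset.mem_powerset] at hK
    ext q
    rcases q with i | a
    · rw [th_mem_K_inl]
      simp
    · have h1 : (Sum.inr a : Fin n ⊕ A) ∉ K := by
        intro h
        have := hK h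
        simp at this
      simp [th_mem_K_inr, h1]
  · intro x _
    rw [key]
    congr 2
    simp [th_K, ones]

/-- the layer that does nothing -/
def th_triv (V : Type) [DecidableEq V] : Layer V where
  W := fun _ => 1
  ctrl := fun _ => ∅

theorem th_triv_valid (V : Type) [DecidableEq V] : (th_triv V).Valid where
  unitary := fun _ => one_mem _
  target_notMem := fun v => Finset.notMem_empty v
  disjoint := fun v w _ hv _ => absurd hv (by simp [th_triv])

theorem th_triv_act {V : Type} [Fintype V] [DecidableEq V] (ψ : Ket V) :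
    (th_triv V).act ψ = ψ := by
  have h := act_layer (th_triv V) ψ
  have h1 : tof (th_triv V).ctrl = (1 : Op V) := tof_empty
  have h2 : prodOp (th_triv V).W = (1 : Op V) := prodOp_one
  rw [h1, h2, mul_one, map_one] at h
  exact congrArg WithLp.ofLp h

theorem th_pad (C : List (Layer (Fin n ⊕ A))) (hC : ∀ L ∈ C, L.Valid) :
    ∀ k : ℕ, (∀ L ∈ List.replicate k (th_triv (Fin n ⊕ A)) ++ C, L.Valid) ∧
      ∀ ψ, run (List.replicate k (th_triv (Fin n ⊕ A)) ++ C) ψ = run C ψ := by
  intro k
  induction k with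
  | zero => exact ⟨by simpa using hC, fun ψ => rfl⟩
  | succ k ih =>
    rw [List.replicate_succ, List.cons_append]
    refine ⟨?_, ?_⟩
    · intro L hL
      rcases List.mem_cons.1 hL with rfl | hL
      · exact th_triv_valid _
      · exact ih.1 L hL
    · intro ψ
      change run _ ((th_triv (Fin n ⊕ A)).act ψ) = _
      rw [th_triv_act]
      exact ih.2 ψ

end ThreeB

/-- Circuits of three layers, any number of ancillas started in zero. -/
theorem three_layers (ε : ℝ) (hε : 0 < ε) : ∃ n₀ : ℕ, ∀ n, n₀ ≤ n → ∀ (A : Type) [Fintype A]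
    [DecidableEq A] (C : List (Layer (Fin n ⊕ A))), C.length ≤ 3 → (∀ L ∈ C, L.Valid) →
    ∀ (F : Fin n ⊕ A → Matrix Bool Bool ℂ), (∀ v, F v ∈ Matrix.unitaryGroup Bool ℂ) →
    ∀ o : Fin n ⊕ A, |corr C F o (zeros A)| ≤ ε := by
  obtain ⟨N, hN⟩ := sig_bound (ε / 9) (by positivity)
  refine ⟨N, ?_⟩
  intro n hn A _ _ C hlen hC F hF o
  obtain ⟨hV, hrun⟩ := th_pad C hC (3 - C.length)
  set C' := List.replicate (3 - C.length) (th_triv (Fin n ⊕ A)) ++ C with hC'
  have hlen' : C'.length = 3 := by
    rw [hC', List.length_append, List.length_replicate]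
    omega
  obtain ⟨L₀, L₁, L₂, hL⟩ := List.length_eq_three.1 hlen'
  have hcorr : corr C F o (zeros A) = corr ([L₀] ++ [L₁, L₂]) F o (zeros A) := by
    have h1 : ∀ x r, prob C F o (zeros A) x r = prob C' F o (zeros A) x r := by
      intro x r
      unfold prob
      rw [hrun]
    have h2 : C' = [L₀] ++ [L₁, L₂] := hL
    unfold corr
    simp only [h1, h2]
  have hv0 : L₀.Valid := hV L₀ (by rw [hL]; simp)
  have hv1 : L₁.Valid := hV L₁ (by rw [hL]; simp)
  have hv2 : L₂.Valid := hV L₂ (by rw [hL]; simp)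
  obtain ⟨w, Θ, hw, hΘ, hΘo, hsum⟩ := corr_top L₁ L₂ hv1 hv2 F hF o
  have hkey := hsum [L₀] (zeros A)
  have hU1 : ∀ q, L₁.W q ∈ unitary M2 := fun q => hv1.unitary q
  have hU0 : ∀ q, L₀.W q ∈ unitary M2 := fun q => hv0.unitary q
  have hterm : ∀ k, ‖(1 / 2 ^ n : ℂ) * ∑ x : Fin n → Bool, (-1 : ℂ) ^ ones x *
      ⟪act (prodOp L₁.W) (vec (run [L₀] (start (zeros A) x))),
        act (regOp L₁.ctrl (Θ k) Set.univ)
          (act (prodOp L₁.W) (vec (run [L₀] (start (zeros A) x))))⟫_ℂ‖ ≤ ε / 9 := by
    intro k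
    rw [corr_sig L₀ L₁.W hU1]
    refine hN (Fin n ⊕ A) L₁.ctrl L₀.ctrl (valid_good hv1) (valid_good hv0) L₁.W
      (fun q => L₁.W q * L₀.W q) hU1 (fun q => mul_mem (hU1 q) (hU0 q)) (Θ k) o
      (hΘ k) (hΘo k) _ ?_
    rw [Finset.card_map, Finset.card_univ, Fintype.card_fin]
    exact hn
  rw [hcorr]
  have h3 : |corr ([L₀] ++ [L₁, L₂]) F o (zeros A)| =
      ‖((corr ([L₀] ++ [L₁, L₂]) F o (zeros A) : ℝ) : ℂ)‖ := by
    rw [Complex.norm_real, Real.norm_eq_abs]
  rw [h3, hkey]
  calc ‖∑ k, w k * ((1 / 2 ^ n : ℂ) * ∑ x : Fin n → Bool, (-1 : ℂ) ^ ones x *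
        ⟪act (prodOp L₁.W) (vec (run [L₀] (start (zeros A) x))),
          act (regOp L₁.ctrl (Θ k) Set.univ)
            (act (prodOp L₁.W) (vec (run [L₀] (start (zeros A) x))))⟫_ℂ)‖
      ≤ ∑ k, ‖w k‖ * (ε / 9) := by
        refine (norm_sum_le _ _).trans (Finset.sum_le_sum fun k _ => ?_)
        rw [norm_mul]
        exact mul_le_mul_of_nonneg_left (hterm k) (norm_nonneg _)
    _ = (∑ k, ‖w k‖) * (ε / 9) := by rw [Finset.sum_mul]
    _ ≤ 9 * (ε / 9) := mul_le_mul_of_nonneg_right hw (by positivity)
    _ = ε := by ring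

end P368.D3
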