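import Vale.Agent.P368.Act

namespace P368.D3

open Matrix
open scoped BigOperators InnerProductSpace Matrix.Norms.L2Operator

variable {n : ℕ} {A : Type} [Fintype A] [DecidableEq A]

theorem valid_good {V : Type} [DecidableEq V] {L : Layer V} (h : L.Valid) : Good L.ctrl :=
  ⟨h.target_notMem, h.disjoint⟩

section Aux

variable {V : Type} [Fintype V] [DecidableEq V]

theorem top_act_vec (M : Op V) (ψ : Ket V) : act M (vec ψ) = vec (M *ᵥ ψ) := rfl

theorem top_act_mul_apply (M N : Op V) (ψ : HV V) : act (M * N) ψ = act M (act N ψ) := by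
  rw [map_mul]; rfl

theorem top_oneQubit_eq (W : V → Matrix Bool Bool ℂ) (ψ : Ket V) :
    oneQubit W ψ = prodOp W *ᵥ ψ := rfl

end Aux

theorem act_layer {V : Type} [Fintype V] [DecidableEq V] (L : Layer V) (ψ : Ket V) :
    vec (L.act ψ) = act (tof L.ctrl * prodOp L.W) (vec ψ) := by
  rw [top_act_mul_apply, top_act_vec, top_act_vec, ← top_oneQubit_eq]
  congr 1
  funext z
  unfold Layer.act
  rw [Matrix.mulVec, dotProduct]
  refine Finset.sum_congr rfl fun y _ => ?_
  rw [tof_apply]
  split_ifs
  · rw [one_mul]
  · rw [zero_mul]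

section Aux2

variable {V : Type} [Fintype V] [DecidableEq V]

theorem top_site_diag (o : V) (d : Bool → ℂ) :
    site o (Matrix.diagonal d) = Matrix.diagonal (fun z : V → Bool => d (z o)) := by
  ext z y
  unfold site prodOp
  rw [Matrix.of_apply]
  by_cases hzy : z = y
  · subst hzy
    rw [Matrix.diagonal_apply_eq, ← Finset.mul_prod_erase Finset.univ _ (Finset.mem_univ o),
      Function.update_self, Matrix.diagonal_apply_eq]
    rw [Finset.prod_eq_one, mul_one]
    intro v hv
    rw [Function.update_of_ne (Finset.ne_of_mem_erase hv), Matrix.one_apply_eq]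
  · rw [Matrix.diagonal_apply_ne _ hzy]
    obtain ⟨v, hv⟩ : ∃ v, z v ≠ y v := by
      by_contra hcon
      push Not at hcon
      exact hzy (funext hcon)
    apply Finset.prod_eq_zero (Finset.mem_univ v)
    by_cases hvo : v = o
    · subst hvo
      rw [Function.update_self, Matrix.diagonal_apply_ne _ hv]
    · rw [Function.update_of_ne hvo, Matrix.one_apply_ne hv]

/-- the signed observable -/
noncomputable def zm : M2 := Matrix.diagonal (fun b => if b = true then (-1 : ℂ) else 1)

theorem top_inner_zm (o : V) (φ : Ket V) :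
    ⟪vec φ, act (site o zm) (vec φ)⟫_ℂ =
      ∑ z : V → Bool, (if z o = true then (-1 : ℂ) else 1) * ((‖φ z‖ ^ 2 : ℝ) : ℂ) := by
  rw [top_act_vec]
  unfold zm
  rw [top_site_diag, PiLp.inner_apply]
  refine Finset.sum_congr rfl fun z _ => ?_
  have h1 : (vec ((Matrix.diagonal fun z : V → Bool => if z o = true then (-1 : ℂ) else 1) *ᵥ φ)).ofLp z
      = (if z o = true then (-1 : ℂ) else 1) * φ z := by
    change ((Matrix.diagonal fun z : V → Bool => if z o = true then (-1 : ℂ) else 1) *ᵥ φ) z = _
    rw [Matrix.mulVec_diagonal]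
  have h2 : (vec φ).ofLp z = φ z := rfl
  rw [h1, h2, RCLike.inner_apply]
  have h3 : φ z * (starRingEnd ℂ) (φ z) = ((‖φ z‖ ^ 2 : ℝ) : ℂ) := by
    rw [Complex.mul_conj, Complex.normSq_eq_norm_sq]
  rw [mul_assoc, h3]

theorem top_site_mem (o : V) (E : M2) : site o E ∈ locAlg ({o} : Set V) := by
  apply prodOp_mem
  intro v hv
  rw [Function.update_of_ne]
  simpa using hv

theorem top_zm_unitary : zm ∈ unitary M2 := by
  have h1 : star zm = zm := by
    unfold zm
    rw [Matrix.star_eq_conjTranspose, Matrix.diagonal_conjTranspose]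
    congr 1
    funext b
    cases b <;> simp
  have h2 : zm * zm = 1 := by
    unfold zm
    rw [Matrix.diagonal_mul_diagonal, ← Matrix.diagonal_one]
    congr 1
    funext b
    cases b <;> simp
  rw [Unitary.mem_iff, h1]
  exact ⟨h2, h2⟩

theorem top_norm_unitary_le (U : M2) (hU : U ∈ unitary M2) : ‖U‖ ≤ 1 :=
  (CStarRing.norm_of_mem_unitary hU).le

theorem top_norm_proj_le (P : M2) (hP : IsStarProjection P) : ‖P‖ ≤ 1 := by
  have h1 : star P * P = P := by
    rw [hP.isSelfAdjoint]
    exact hP.isIdempotentElem
  have h2 := CStarRing.norm_star_mul_self (x := P)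
  rw [h1] at h2
  by_contra hcon
  push Not at hcon
  nlinarith

theorem top_norm_mul_le_one {P Q : M2} (hP : ‖P‖ ≤ 1) (hQ : ‖Q‖ ≤ 1) : ‖P * Q‖ ≤ 1 := by
  refine (norm_mul_le P Q).trans ?_
  have := norm_nonneg P
  have := norm_nonneg Q
  nlinarith

theorem top_gfac_proj (c : V → Finset V) (v q : V) : IsStarProjection (gfac c v q) := by
  unfold gfac
  split_ifs
  · exact e1_proj
  · exact em_proj
  · exact .one _

theorem top_obs (c : V → Finset V) (hc : Good c) (o : V) (E : M2) (hE : ‖E‖ ≤ 1) :
    ∃ (w : Fin 4 → ℂ) (B : Fin 4 → V → M2), ∑ k, ‖w k‖ ≤ 9 ∧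
      (∀ k q, q ≠ o → IsStarProjection (B k q)) ∧ (∀ k, ‖B k o‖ ≤ 1) ∧
      tof c * site o E * tof c = ∑ k, w k • prodOp (B k) := by
  classical
  by_cases hg : ∃ v, o ∈ gate c v
  · obtain ⟨v, hv⟩ := hg
    have hne : (c v).Nonempty := by
      by_contra hcon
      unfold gate at hv
      rw [if_neg hcon] at hv
      simp at hv
    have hU : Ug c v = prodOp (gfac c v) := by
      unfold Ug
      rw [if_pos hne]
    obtain ⟨T, hT, hc1, hc2, hTT⟩ : ∃ T : Op V, tof c = (1 - (2 : ℂ) • Ug c v) * T ∧
        Commute T (site o E) ∧ Commute T (Ug c v) ∧ T * T = 1 := by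
      have h1 := hc.tof_insert {x | x ≠ v} v (by simp)
      have h2 : ∀ inst : DecidablePred (· ∈ (insert v {x | x ≠ v} : Set V)),
          @D3.res V c (insert v {x | x ≠ v}) inst = c := by
        intro inst
        funext q
        unfold D3.res
        rw [if_pos]
        rw [Set.mem_insert_iff]
        by_cases hq : q = v
        · exact Or.inl hq
        · exact Or.inr hq
      rw [h2] at h1
      refine ⟨_, h1, ?_, ?_, ?_⟩
      · refine locAlg_commute ?_ (hc.tof_mem {x | x ≠ v}) (top_site_mem o E)
        rw [Set.disjoint_singleton_right]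
        rintro ⟨v', hv', h3⟩
        exact hv' (hc.gate_inj h3 hv)
      · refine locAlg_commute ?_ (hc.tof_mem {x | x ≠ v}) (Ug_mem c v)
        rw [Set.disjoint_left]
        rintro q ⟨v', hv', h3⟩ h4
        exact hv' (hc.gate_inj h3 h4)
      · exact Good.tof_mul_self (@Good.res V _ _ c hc {x | x ≠ v}
          (fun a => Classical.propDecidable _))
    set U := Ug c v with hUdef
    have hc3 : Commute T (1 - (2 : ℂ) • U) :=
      (Commute.one_right T).sub_right (hc2.smul_right _)
    have hmain : tof c * site o E * tof c =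
        site o E - (2 : ℂ) • (U * site o E) - (2 : ℂ) • (site o E * U) +
          (4 : ℂ) • (U * site o E * U) := by
      rw [hT]
      have e1 : (1 - (2 : ℂ) • U) * T * site o E * ((1 - (2 : ℂ) • U) * T) =
          (1 - (2 : ℂ) • U) * site o E * (1 - (2 : ℂ) • U) * (T * T) := by
        calc (1 - (2 : ℂ) • U) * T * site o E * ((1 - (2 : ℂ) • U) * T)
            = (1 - (2 : ℂ) • U) * (T * site o E) * ((1 - (2 : ℂ) • U) * T) := by
              simp only [mul_assoc]
          _ = (1 - (2 : ℂ) • U) * (site o E * T) * ((1 - (2 : ℂ) • U) * T) := by rw [hc1.eq]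
          _ = (1 - (2 : ℂ) • U) * site o E * (T * (1 - (2 : ℂ) • U)) * T := by
              simp only [mul_assoc]
          _ = (1 - (2 : ℂ) • U) * site o E * ((1 - (2 : ℂ) • U) * T) * T := by rw [hc3.eq]
          _ = _ := by simp only [mul_assoc]
      rw [e1, hTT, mul_one]
      rw [sub_mul, one_mul, mul_sub, sub_mul, mul_one, sub_mul]
      simp only [smul_mul_assoc, mul_smul_comm, smul_smul, mul_one]
      rw [show (2 : ℂ) * 2 = 4 by norm_num]
      abel
    refine ⟨![1, -2, -2, 4], ![Function.update (fun _ => (1 : M2)) o E,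
      fun q => gfac c v q * Function.update (fun _ => (1 : M2)) o E q,
      fun q => Function.update (fun _ => (1 : M2)) o E q * gfac c v q,
      fun q => gfac c v q * Function.update (fun _ => (1 : M2)) o E q * gfac c v q],
      ?_, ?_, ?_, ?_⟩
    · rw [Fin.sum_univ_four]
      simp only [Matrix.cons_val_zero, Matrix.cons_val_one, Matrix.cons_val]
      norm_num
    · intro k q hq
      fin_cases k
      · change IsStarProjection (Function.update (fun _ => (1 : M2)) o E q)
        rw [Function.update_of_ne hq]
        exact .one _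
      · change IsStarProjection (gfac c v q * Function.update (fun _ => (1 : M2)) o E q)
        rw [Function.update_of_ne hq, mul_one]
        exact top_gfac_proj c v q
      · change IsStarProjection (Function.update (fun _ => (1 : M2)) o E q * gfac c v q)
        rw [Function.update_of_ne hq, one_mul]
        exact top_gfac_proj c v q
      · change IsStarProjection (gfac c v q * Function.update (fun _ => (1 : M2)) o E q *
          gfac c v q)
        rw [Function.update_of_ne hq, mul_one, (top_gfac_proj c v q).isIdempotentElem]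
        exact top_gfac_proj c v q
    · have hg1 := top_norm_proj_le _ (top_gfac_proj c v o)
      intro k
      fin_cases k
      · change ‖Function.update (fun _ => (1 : M2)) o E o‖ ≤ 1
        rw [Function.update_self]
        exact hE
      · change ‖gfac c v o * Function.update (fun _ => (1 : M2)) o E o‖ ≤ 1
        rw [Function.update_self]
        exact top_norm_mul_le_one hg1 hE
      · change ‖Function.update (fun _ => (1 : M2)) o E o * gfac c v o‖ ≤ 1
        rw [Function.update_self]
        exact top_norm_mul_le_one hE hg1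
      · change ‖gfac c v o * Function.update (fun _ => (1 : M2)) o E o * gfac c v o‖ ≤ 1
        rw [Function.update_self]
        exact top_norm_mul_le_one (top_norm_mul_le_one hg1 hE) hg1
    · rw [hmain, Fin.sum_univ_four]
      have s1 : U * site o E = prodOp (fun q => gfac c v q *
          Function.update (fun _ => (1 : M2)) o E q) := by
        rw [hU]
        unfold site
        rw [prodOp_mul]
      have s2 : site o E * U = prodOp (fun q => Function.update (fun _ => (1 : M2)) o E q *
          gfac c v q) := by
        rw [hU]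
        unfold site
        rw [prodOp_mul]
      have s3 : U * site o E * U = prodOp (fun q => gfac c v q *
          Function.update (fun _ => (1 : M2)) o E q * gfac c v q) := by
        rw [s1, hU, prodOp_mul]
      rw [s3, s1, s2]
      change _ = (1 : ℂ) • prodOp (Function.update (fun _ => (1 : M2)) o E) +
        (-2 : ℂ) • prodOp (fun q => gfac c v q * Function.update (fun _ => (1 : M2)) o E q) +
        (-2 : ℂ) • prodOp (fun q => Function.update (fun _ => (1 : M2)) o E q * gfac c v q) +
        (4 : ℂ) • prodOp (fun q => gfac c v q * Function.update (fun _ => (1 : M2)) o E q *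
          gfac c v q)
      rw [one_smul, neg_smul, neg_smul]
      unfold site
      abel
  · push Not at hg
    have hc1 : Commute (tof c) (site o E) := by
      have h1 := hc.tof_mem Set.univ
      have h2 : @D3.res V c Set.univ (fun a => Classical.propDecidable _) = c := by
        funext q
        unfold D3.res
        rw [if_pos (Set.mem_univ q)]
      rw [h2] at h1
      refine locAlg_commute ?_ h1 (top_site_mem o E)
      rw [Set.disjoint_singleton_right]
      rintro ⟨v', -, h2⟩
      exact hg v' h2
    refine ⟨![1, 0, 0, 0], fun _ => Function.update (fun _ => (1 : M2)) o E, ?_, ?_, ?_, ?_⟩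
    · rw [Fin.sum_univ_four]
      simp
    · intro k q hq
      change IsStarProjection (Function.update (fun _ => (1 : M2)) o E q)
      rw [Function.update_of_ne hq]
      exact .one _
    · intro k
      change ‖Function.update (fun _ => (1 : M2)) o E o‖ ≤ 1
      rw [Function.update_self]
      exact hE
    · rw [hc1.eq, mul_assoc, hc.tof_mul_self, mul_one, Fin.sum_univ_four]
      simp only [Matrix.cons_val_zero, Matrix.cons_val_one, Matrix.cons_val, one_smul, zero_smul,
        add_zero]
      rfl

end Aux2

/-- number of ones -/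
def ones (x : Fin n → Bool) : ℕ := (Finset.univ.filter fun i => x i = true).card

theorem top_prob_diff (C : List (Layer (Fin n ⊕ A))) (F : Fin n ⊕ A → Matrix Bool Bool ℂ)
    (o : Fin n ⊕ A) (α : Ket A) (x : Fin n → Bool) :
    ((prob C F o α x (par x) - prob C F o α x (!par x) : ℝ) : ℂ) =
      (-1 : ℂ) ^ ones x * ⟪act (prodOp F) (vec (run C (start α x))),
        act (site o zm) (act (prodOp F) (vec (run C (start α x))))⟫_ℂ := by
  rw [top_act_vec, ← top_oneQubit_eq, top_inner_zm]
  unfold prob
  set φ := oneQubit F (run C (start α x)) with hφ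
  rw [← Finset.sum_sub_distrib, Finset.mul_sum]
  push_cast
  refine Finset.sum_congr rfl fun z _ => ?_
  have hpar : par x = decide (Odd (ones x)) := rfl
  rw [hpar]
  rcases Nat.even_or_odd (ones x) with he | ho
  · rw [he.neg_one_pow, decide_eq_false (by rwa [Nat.not_odd_iff_even])]
    cases hz : z o <;> simp
  · rw [ho.neg_one_pow, decide_eq_true ho]
    cases hz : z o <;> simp

/-- The correlation as a combination of at most four product observables seen below the two last
layers. -/
theorem corr_top (L₁ L₂ : Layer (Fin n ⊕ A)) (h₁ : L₁.Valid) (h₂ : L₂.Valid)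
    (F : Fin n ⊕ A → Matrix Bool Bool ℂ) (hF : ∀ v, F v ∈ Matrix.unitaryGroup Bool ℂ)
    (o : Fin n ⊕ A) :
    ∃ (w : Fin 4 → ℂ) (Θ : Fin 4 → (Fin n ⊕ A) → M2),
      ∑ k, ‖w k‖ ≤ 9 ∧ (∀ k q, q ≠ o → IsStarProjection (Θ k q)) ∧ (∀ k, ‖Θ k o‖ ≤ 1) ∧
      ∀ (D : List (Layer (Fin n ⊕ A))) (α : Ket A),
        ((corr (D ++ [L₁, L₂]) F o α : ℝ) : ℂ) =
          ∑ k, w k * ((1 / 2 ^ n : ℂ) * ∑ x : Fin n → Bool, (-1 : ℂ) ^ ones x *
            ⟪act (prodOp L₁.W) (vec (run D (start α x))),
              act (regOp L₁.ctrl (Θ k) Set.univ)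
                (act (prodOp L₁.W) (vec (run D (start α x))))⟫_ℂ) := by
  have hc1 := valid_good h₁
  have hc2 := valid_good h₂
  have hFo : ‖star (F o) * zm * F o‖ ≤ 1 := by
    have h1 : F o ∈ unitary M2 := hF o
    exact top_norm_mul_le_one (top_norm_mul_le_one
      (top_norm_unitary_le _ (Unitary.star_mem h1)) (top_norm_unitary_le _ top_zm_unitary))
      (top_norm_unitary_le _ h1)
  obtain ⟨w, B, hw, hB, hBo, hsum⟩ := top_obs L₂.ctrl hc2 o (star (F o) * zm * F o) hFo
  have hW : ∀ q, L₂.W q ∈ unitary M2 := fun q => h₂.unitary q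
  refine ⟨w, fun k q => star (L₂.W q) * B k q * L₂.W q, hw, ?_, ?_, ?_⟩
  · intro k q hq
    have h1 := hB k q hq
    have h2 : L₂.W q * star (L₂.W q) = 1 := Unitary.mul_star_self_of_mem (hW q)
    refine ⟨?_, ?_⟩
    · change (star (L₂.W q) * B k q * L₂.W q) * (star (L₂.W q) * B k q * L₂.W q) =
        star (L₂.W q) * B k q * L₂.W q
      calc (star (L₂.W q) * B k q * L₂.W q) * (star (L₂.W q) * B k q * L₂.W q)
          = star (L₂.W q) * B k q * (L₂.W q * star (L₂.W q)) * B k q * L₂.W q := by
            simp only [mul_assoc]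
        _ = star (L₂.W q) * (B k q * B k q) * L₂.W q := by
            rw [h2, mul_one]; simp only [mul_assoc]
        _ = _ := by rw [h1.isIdempotentElem]
    · change star (star (L₂.W q) * B k q * L₂.W q) = star (L₂.W q) * B k q * L₂.W q
      rw [star_mul, star_mul, star_star, h1.isSelfAdjoint, mul_assoc]
  · intro k
    exact top_norm_mul_le_one (top_norm_mul_le_one (top_norm_unitary_le _ (Unitary.star_mem (hW o))) (hBo k))
      (top_norm_unitary_le _ (hW o))
  · intro D α
    -- the observable seen below the two layers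
    have hobs : star (prodOp F * (tof L₂.ctrl * prodOp L₂.W) * tof L₁.ctrl) * site o zm *
        (prodOp F * (tof L₂.ctrl * prodOp L₂.W) * tof L₁.ctrl) =
        ∑ k, w k • regOp L₁.ctrl (fun q => star (L₂.W q) * B k q * L₂.W q) Set.univ := by
      have e1 : star (prodOp F) * site o zm * prodOp F = site o (star (F o) * zm * F o) := by
        unfold site
        rw [prodOp_star, prodOp_mul, prodOp_mul]
        congr 1
        funext q
        by_cases hq : q = o
        · subst hq
          rw [Function.update_self, Function.update_self]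
        · rw [Function.update_of_ne hq, Function.update_of_ne hq, mul_one]
          exact Unitary.star_mul_self_of_mem (hF q)
      have e2 : star (prodOp F * (tof L₂.ctrl * prodOp L₂.W) * tof L₁.ctrl) * site o zm *
          (prodOp F * (tof L₂.ctrl * prodOp L₂.W) * tof L₁.ctrl) =
          tof L₁.ctrl * (star (prodOp L₂.W) * (tof L₂.ctrl *
            (star (prodOp F) * site o zm * prodOp F) * tof L₂.ctrl) * prodOp L₂.W) *
            tof L₁.ctrl := by
        rw [star_mul, star_mul, star_mul, hc1.star_tof, hc2.star_tof]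
        simp only [mul_assoc]
      rw [e2, e1, hsum, Finset.mul_sum, Finset.sum_mul, Finset.mul_sum, Finset.sum_mul]
      refine Finset.sum_congr rfl fun k _ => ?_
      rw [hc1.regOp_univ, mul_smul_comm, smul_mul_assoc, mul_smul_comm, smul_mul_assoc,
        prodOp_star, prodOp_mul, prodOp_mul]
    have hrun : ∀ x, act (prodOp F) (vec (run (D ++ [L₁, L₂]) (start α x))) =
        act (prodOp F * (tof L₂.ctrl * prodOp L₂.W) * tof L₁.ctrl)
          (act (prodOp L₁.W) (vec (run D (start α x)))) := by
      intro x
      have h1 : ∀ (D : List (Layer (Fin n ⊕ A))) (ψ : Ket (Fin n ⊕ A)),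
          run (D ++ [L₁, L₂]) ψ = L₂.act (L₁.act (run D ψ)) := by
        intro D
        induction D with
        | nil => intro ψ; rfl
        | cons L D ih => intro ψ; exact ih (L.act ψ)
      rw [h1, act_layer, act_layer]
      simp only [top_act_mul_apply]
    have hterm : ∀ x, ((prob (D ++ [L₁, L₂]) F o α x (par x) -
        prob (D ++ [L₁, L₂]) F o α x (!par x) : ℝ) : ℂ) =
        ∑ k, w k * ((-1 : ℂ) ^ ones x *
          ⟪act (prodOp L₁.W) (vec (run D (start α x))),
            act (regOp L₁.ctrl (fun q => star (L₂.W q) * B k q * L₂.W q) Set.univ)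
              (act (prodOp L₁.W) (vec (run D (start α x))))⟫_ℂ) := by
      intro x
      rw [top_prob_diff, hrun]
      set u := act (prodOp L₁.W) (vec (run D (start α x))) with hu
      set M := prodOp F * (tof L₂.ctrl * prodOp L₂.W) * tof L₁.ctrl with hM
      have e1 : ⟪act M u, act (site o zm) (act M u)⟫_ℂ =
          ⟪u, act (star M * site o zm * M) u⟫_ℂ := by
        have e3 : act (star M * site o zm * M) u =
            ContinuousLinearMap.adjoint (act M) (act (site o zm) (act M u)) := by
          rw [top_act_mul_apply, top_act_mul_apply, map_star, ContinuousLinearMap.star_eq_adjoint]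
        rw [e3, ContinuousLinearMap.adjoint_inner_right]
      rw [e1, hobs, map_sum]
      have e2 : (∑ k, act (w k • regOp L₁.ctrl (fun q => star (L₂.W q) * B k q * L₂.W q)
          Set.univ)) u = ∑ k, w k • act (regOp L₁.ctrl
            (fun q => star (L₂.W q) * B k q * L₂.W q) Set.univ) u := by
        rw [_root_.sum_apply]
        refine Finset.sum_congr rfl fun k _ => ?_
        rw [map_smul]
        rfl
      rw [e2, inner_sum, Finset.mul_sum]
      refine Finset.sum_congr rfl fun k _ => ?_
      rw [inner_smul_right]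
      ring
    unfold corr
    have hcast : (((∑ x : Fin n → Bool, (prob (D ++ [L₁, L₂]) F o α x (par x) -
        prob (D ++ [L₁, L₂]) F o α x (!par x))) / 2 ^ n : ℝ) : ℂ) =
        (1 / 2 ^ n : ℂ) * ∑ x : Fin n → Bool, ((prob (D ++ [L₁, L₂]) F o α x (par x) -
        prob (D ++ [L₁, L₂]) F o α x (!par x) : ℝ) : ℂ) := by
      push_cast
      ring
    rw [hcast, Finset.sum_congr rfl fun x _ => hterm x, Finset.sum_comm, Finset.mul_sum]
    refine Finset.sum_congr rfl fun k _ => ?_
    rw [← Finset.mul_sum]
    ring

end P368.D3
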