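import Vale.Agent.P368.Two4

/-!
Circuits of bounded fan-in and bounded depth followed by two unrestricted layers.
-/

namespace P368.D3

open Matrix
open scoped BigOperators InnerProductSpace Matrix.Norms.L2Operator

section Conj

variable {V : Type} [Fintype V] [DecidableEq V]

theorem site_xfl_star (v : V) : star (site v xfl) = site v xfl := by
  unfold site
  rw [prodOp_star]
  congr 1
  funext q
  by_cases hq : q = v
  · subst hq; simp [xfl_star]
  · simp [Function.update_of_ne hq]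

theorem site_xfl_sq (v : V) : site v xfl * site v xfl = 1 := by
  unfold site
  rw [prodOp_mul, ← prodOp_one]
  congr 1
  funext q
  by_cases hq : q = v
  · subst hq; simp [xfl_sq]
  · simp [Function.update_of_ne hq]

theorem site_xfl_comm (v v' : V) (h : v ≠ v') : Commute (site v xfl) (site v' xfl) :=
  locAlg_commute (Set.disjoint_singleton.mpr h) (top_site_mem v xfl) (top_site_mem v' xfl)

theorem conj_mul (U M N : Op V) (hU : U ∈ unitary (Op V)) :
    (U * M * star U) * (U * N * star U) = U * (M * N) * star U := by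
  have h : star U * U = 1 := Unitary.star_mul_self_of_mem hU
  calc (U * M * star U) * (U * N * star U) = U * M * (star U * U) * N * star U := by noncomm_ring
    _ = _ := by rw [h]; noncomm_ring

theorem conj_star (U M : Op V) (hM : star M = M) : star (U * M * star U) = U * M * star U := by
  rw [star_mul, star_mul, star_star, hM, mul_assoc]

end Conj

section Final

variable {n : ℕ} {A : Type} [Fintype A] [DecidableEq A]

theorem two_bound (D : List (Layer (Fin n ⊕ A))) (hD : ∀ L ∈ D, L.Valid)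
    (L₁ : Layer (Fin n ⊕ A)) (h₁ : L₁.Valid) (α : Ket A) (hα : nsq α = 1)
    (Θ : Fin n ⊕ A → M2) (o : Fin n ⊕ A) (hΘ : ∀ q, q ≠ o → IsStarProjection (Θ q))
    (hΘo : ‖Θ o‖ ≤ 1) (J : Finset (Fin n)) (Hv : Finset (Fin n ⊕ A))
    (ho : ∀ h ∈ J, o ∉ fwd D {Sum.inl h})
    (hO : ∀ h ∈ J, ∀ h' ∈ J, h ≠ h' → Disjoint (fwd D {Sum.inl h}) (fwd D {Sum.inl h'}))
    (hreg : ∀ h ∈ J, ∀ h' ∈ J, h ≠ h' → ∀ v ∈ fwd D {Sum.inl h}, ∀ v' ∈ fwd D {Sum.inl h'},
      rep L₁.ctrl v = rep L₁.ctrl v' → rep L₁.ctrl v ∈ Hv) :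
    ‖(1 / 2 ^ n : ℂ) * ∑ x : Fin n → Bool, (-1 : ℂ) ^ ones x *
      ⟪act (prodOp L₁.W) (vec (run D (start α x))),
        act (regOp L₁.ctrl Θ Set.univ)
          (act (prodOp L₁.W) (vec (run D (start α x))))⟫_ℂ‖ ≤
      9 ^ (Hv.card + 1) * (3 / 4) ^ J.card := by
  have hW : ∀ q, L₁.W q ∈ unitary M2 := fun q => h₁.unitary q
  have hU : prodOp L₁.W * opD D ∈ unitary (Op (Fin n ⊕ A)) :=
    mul_mem (prodOp_unitary _ hW) (opD_unitary D hD)
  have hvec : ∀ x, act (prodOp L₁.W) (vec (run D (start α x))) =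
      act (prodOp L₁.W * opD D) (vec (start α x)) := by
    intro x
    rw [run_vec, top_act_mul_apply]
  simp only [hvec]
  set U := prodOp L₁.W * opD D with hUd
  have hcomm : ∀ h h' : Fin n, h ≠ h' →
      Commute (U * site (Sum.inl h : Fin n ⊕ A) xfl * star U)
        (U * site (Sum.inl h' : Fin n ⊕ A) xfl * star U) := by
    intro h h' hne
    have h1 := site_xfl_comm (Sum.inl h : Fin n ⊕ A) (Sum.inl h') (by simpa using hne)
    unfold Commute SemiconjBy
    rw [conj_mul U _ _ hU, conj_mul U _ _ hU, h1.eq]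
  have hstar : ∀ h : Fin n, star (U * site (Sum.inl h : Fin n ⊕ A) xfl * star U) =
      U * site (Sum.inl h : Fin n ⊕ A) xfl * star U := by
    intro h
    exact conj_star U _ (site_xfl_star _)
  have hsq : ∀ h : Fin n, (U * site (Sum.inl h : Fin n ⊕ A) xfl * star U) *
      (U * site (Sum.inl h : Fin n ⊕ A) xfl * star U) = 1 := by
    intro h
    rw [conj_mul U _ _ hU, site_xfl_sq, mul_one]
    exact Unitary.mul_star_self_of_mem hU
  have hmem : ∀ h : Fin n, U * site (Sum.inl h : Fin n ⊕ A) xfl * star U ∈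
      locAlg (fwd D {Sum.inl h} : Set (Fin n ⊕ A)) := by
    intro h
    have h1 : site (Sum.inl h : Fin n ⊕ A) xfl ∈
        locAlg ((({Sum.inl h} : Finset (Fin n ⊕ A)) : Set (Fin n ⊕ A))) := by
      rw [Finset.coe_singleton]
      exact top_site_mem _ _
    have h2 := opD_conj_mem D hD {Sum.inl h} _ h1
    have h3 := locAlg_conj L₁.W hW h2
    have e : U * site (Sum.inl h : Fin n ⊕ A) xfl * star U =
        prodOp L₁.W * (opD D * site (Sum.inl h : Fin n ⊕ A) xfl * star (opD D)) *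
          star (prodOp L₁.W) := by
      rw [hUd, star_mul]
      noncomm_ring
    rw [e]
    exact h3
  have hXX : ∀ h h' : Fin n, h ≠ h' →
      Commute (act (U * site (Sum.inl h : Fin n ⊕ A) xfl * star U))
        (act (U * site (Sum.inl h' : Fin n ⊕ A) xfl * star U)) :=
    fun h h' hne => act_commute (hcomm h h' hne)
  refine (sum_le_avg U hU α hα (act (regOp L₁.ctrl Θ Set.univ)) hXX
    (fun h => by rw [← map_star, hstar]) J).trans ?_
  exact region_avg L₁.ctrl (valid_good h₁) Θ o hΘ hΘo J (fun h => fwd D {Sum.inl h})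
    (fun h => U * site (Sum.inl h : Fin n ⊕ A) xfl * star U) hmem hXX hstar hsq Hv ho hO hreg

theorem corr_le (D : List (Layer (Fin n ⊕ A))) (hD : ∀ L ∈ D, L.Valid)
    (L₁ L₂ : Layer (Fin n ⊕ A)) (h₁ : L₁.Valid) (h₂ : L₂.Valid) (α : Ket A) (hα : nsq α = 1)
    (F : Fin n ⊕ A → Matrix Bool Bool ℂ) (hF : ∀ v, F v ∈ Matrix.unitaryGroup Bool ℂ)
    (o : Fin n ⊕ A) (J : Finset (Fin n)) (Hv : Finset (Fin n ⊕ A))
    (ho : ∀ h ∈ J, o ∉ fwd D {Sum.inl h})
    (hO : ∀ h ∈ J, ∀ h' ∈ J, h ≠ h' → Disjoint (fwd D {Sum.inl h}) (fwd D {Sum.inl h'}))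
    (hreg : ∀ h ∈ J, ∀ h' ∈ J, h ≠ h' → ∀ v ∈ fwd D {Sum.inl h}, ∀ v' ∈ fwd D {Sum.inl h'},
      rep L₁.ctrl v = rep L₁.ctrl v' → rep L₁.ctrl v ∈ Hv) :
    |corr (D ++ [L₁, L₂]) F o α| ≤ 81 * (9 ^ Hv.card * (3 / 4) ^ J.card) := by
  obtain ⟨w, Θ, hw, hΘ, hΘo, hcorr⟩ := corr_top L₁ L₂ h₁ h₂ F hF o
  have h1 := hcorr D α
  have h2 : |corr (D ++ [L₁, L₂]) F o α| = ‖((corr (D ++ [L₁, L₂]) F o α : ℝ) : ℂ)‖ := by
    rw [Complex.norm_real, Real.norm_eq_abs]
  rw [h2, h1]
  calc _ ≤ ∑ k, ‖w k * ((1 / 2 ^ n : ℂ) * ∑ x : Fin n → Bool, (-1 : ℂ) ^ ones x *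
            ⟪act (prodOp L₁.W) (vec (run D (start α x))),
              act (regOp L₁.ctrl (Θ k) Set.univ)
                (act (prodOp L₁.W) (vec (run D (start α x))))⟫_ℂ)‖ := norm_sum_le _ _
    _ ≤ ∑ k, ‖w k‖ * (9 ^ (Hv.card + 1) * (3 / 4) ^ J.card) := by
        apply Finset.sum_le_sum
        intro k _
        rw [norm_mul]
        apply mul_le_mul_of_nonneg_left _ (norm_nonneg _)
        exact two_bound D hD L₁ h₁ α hα (Θ k) o (hΘ k) (hΘo k) J Hv ho hO hreg
    _ = (∑ k, ‖w k‖) * (9 ^ (Hv.card + 1) * (3 / 4) ^ J.card) := by rw [Finset.sum_mul]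
    _ ≤ 9 * (9 ^ (Hv.card + 1) * (3 / 4) ^ J.card) :=
        mul_le_mul_of_nonneg_right hw (by positivity)
    _ = 81 * (9 ^ Hv.card * (3 / 4) ^ J.card) := by rw [pow_succ]; ring

theorem num_bound (m j : ℕ) (h : 10 * m ≤ j) :
    (9 : ℝ) ^ m * (3 / 4) ^ j ≤ Real.exp (-(j : ℝ) / 20) := by
  have h1 : (9 : ℝ) ^ m * (3 / 4) ^ j = Real.exp (m * Real.log 9 + j * Real.log (3 / 4)) := by
    rw [Real.exp_add, ← Real.log_pow, ← Real.log_pow, Real.exp_log (by positivity),
      Real.exp_log (by positivity)]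
  rw [h1, Real.exp_le_exp]
  have h2 : Real.log 9 + 10 * Real.log (3 / 4) ≤ -(1 / 2) := by
    have e1 : Real.log 9 + 10 * Real.log (3 / 4) = Real.log (9 * (3 / 4) ^ 10) := by
      rw [Real.log_mul (by norm_num) (by positivity), Real.log_pow]
      norm_num
    rw [e1, Real.log_le_iff_le_exp (by positivity), Real.exp_neg]
    have e2 : Real.exp (1 / 2) ^ 2 = Real.exp 1 := by
      rw [← Real.exp_nat_mul]; norm_num
    have e3 := Real.exp_one_lt_d9
    have e4 : Real.exp (1 / 2) ≤ 1.9 := by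
      have := Real.exp_pos (1 / 2)
      nlinarith
    have e5 := Real.exp_pos (1 / 2)
    rw [le_inv_comm₀ (by positivity) e5]
    refine e4.trans ?_
    norm_num
  have h3 : (10 : ℝ) * m ≤ j := by exact_mod_cast h
  have h4 : 0 ≤ Real.log 9 := Real.log_nonneg (by norm_num)
  have h5 : (m : ℝ) * Real.log 9 ≤ j / 10 * Real.log 9 := by
    apply mul_le_mul_of_nonneg_right _ h4
    linarith
  have h6 : (0 : ℝ) ≤ j := Nat.cast_nonneg j
  nlinarith

end Final

theorem two_top_layers : ∀ b c : ℕ, ∃ C : ℝ, 0 < C ∧ ∀ (n : ℕ) (A : Type) [Fintype A]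
    [DecidableEq A] (α : Ket A), nsq α = 1 → ∀ (D : List (Layer (Fin n ⊕ A)))
    (L₁ L₂ : Layer (Fin n ⊕ A)) (F : Fin n ⊕ A → Matrix Bool Bool ℂ) (o : Fin n ⊕ A),
    D.length ≤ c → (∀ L ∈ D, L.Valid ∧ ∀ v, (L.ctrl v).card ≤ b) → L₁.Valid → L₂.Valid →
    (∀ v, F v ∈ Matrix.unitaryGroup Bool ℂ) →
    |corr (D ++ [L₁, L₂]) F o α| ≤ C * Real.exp (-(n : ℝ) / C) := by
  intro b c
  obtain ⟨K, hK0, hsel⟩ := selection ((b + 1) ^ c)
  have hK1 : (1 : ℝ) ≤ K := by exact_mod_cast hK0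
  refine ⟨1620 * K, by positivity, ?_⟩
  intro n A _ _ α hα D L₁ L₂ F o hlen hD h₁ h₂ hF
  have hDv : ∀ L ∈ D, L.Valid := fun L hL => (hD L hL).1
  have hpow : (b + 1) ^ D.length ≤ (b + 1) ^ c := Nat.pow_le_pow_right (by omega) hlen
  rcases lt_or_ge n K with hn | hn
  · -- few inputs
    have h1 := corr_le D hDv L₁ L₂ h₁ h₂ α hα F hF o ∅ ∅ (by simp) (by simp) (by simp)
    simp only [Finset.card_empty, pow_zero, mul_one] at h1
    refine h1.trans ?_
    have h2 : (n : ℝ) ≤ K := by exact_mod_cast hn.le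
    have h3 : Real.exp (-1) ≤ Real.exp (-(n : ℝ) / (1620 * K)) := by
      rw [Real.exp_le_exp, neg_div, neg_le_neg_iff, div_le_one (by positivity)]
      linarith
    have h4 : 1 / 3 ≤ Real.exp (-1) := by
      rw [Real.exp_neg, one_div, inv_le_inv₀ (by norm_num) (Real.exp_pos _)]
      have := Real.exp_one_lt_d9
      linarith
    have h5 : 1 / 3 ≤ Real.exp (-(n : ℝ) / (1620 * K)) := h4.trans h3
    nlinarith
  · obtain ⟨J, Hv, hJ1, hJ2, ho, hO, hreg⟩ := hsel n hn (Fin n ⊕ A) (Fin n ⊕ A)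
      (fun h => fwd D {Sum.inl h}) (rep L₁.ctrl) o
      (fun h => by
        have := fwd_card b D hD {Sum.inl h}
        rw [Finset.card_singleton, mul_one] at this
        exact this.trans hpow)
      (fun v => by
        have h1 := bwd_card b D hD v
        have h2 : (Finset.univ.filter fun h : Fin n => v ∈ fwd D {Sum.inl h}).card ≤
            (Finset.univ.filter fun s : Fin n ⊕ A => v ∈ fwd D {s}).card := by
          apply Finset.card_le_card_of_injOn (fun h => Sum.inl h)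
          · intro h hh
            rw [Finset.mem_coe, Finset.mem_filter] at hh ⊢
            exact ⟨Finset.mem_univ _, hh.2⟩
          · intro h _ h' _ he
            exact Sum.inl_injective he
        exact h2.trans (h1.trans hpow))
    refine (corr_le D hDv L₁ L₂ h₁ h₂ α hα F hF o J Hv ho hO hreg).trans ?_
    have h1 := num_bound Hv.card J.card hJ2
    have h2 : Real.exp (-(J.card : ℝ) / 20) ≤ Real.exp (-(n : ℝ) / (1620 * K)) := by
      rw [Real.exp_le_exp, neg_div, neg_div, neg_le_neg_iff]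
      have h3 : (n : ℝ) ≤ K * J.card := by exact_mod_cast hJ1
      rw [div_le_div_iff₀ (by positivity) (by norm_num)]
      have h4 : (0 : ℝ) ≤ J.card := Nat.cast_nonneg _
      nlinarith
    have h5 := Real.exp_pos (-(n : ℝ) / (1620 * K))
    calc 81 * (9 ^ Hv.card * (3 / 4) ^ J.card) ≤ 81 * Real.exp (-(n : ℝ) / (1620 * K)) :=
          mul_le_mul_of_nonneg_left (h1.trans h2) (by norm_num)
      _ ≤ 1620 * K * Real.exp (-(n : ℝ) / (1620 * K)) := by
          apply mul_le_mul_of_nonneg_right _ h5.le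
          linarith

end P368.D3
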