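import Vale.Agent.P368.Top
import Vale.Agent.P368.Expand
import Vale.Agent.P368.NormCore
import Vale.Agent.P368.Select

/-!
Light cones of circuits with bounded fan-in.
-/

namespace P368.D3

open Matrix
open scoped BigOperators InnerProductSpace Matrix.Norms.L2Operator

section Cone

variable {V : Type} [Fintype V] [DecidableEq V]

open Classical in
/-- qubits sharing a gate with `q`, and `q` itself -/
noncomputable def nbr (c : V → Finset V) (q : V) : Finset V :=
  Finset.univ.filter (fun q' => q' = q ∨ ∃ v, q ∈ gate c v ∧ q' ∈ gate c v)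

theorem nbr_symm (c : V → Finset V) (q q' : V) : q' ∈ nbr c q ↔ q ∈ nbr c q' := by
  simp only [nbr, Finset.mem_filter, Finset.mem_univ, true_and]
  constructor
  · rintro (h | ⟨v, h1, h2⟩)
    · exact Or.inl h.symm
    · exact Or.inr ⟨v, h2, h1⟩
  · rintro (h | ⟨v, h1, h2⟩)
    · exact Or.inl h.symm
    · exact Or.inr ⟨v, h2, h1⟩

theorem nbr_self (c : V → Finset V) (q : V) : q ∈ nbr c q := by
  simp [nbr]

theorem nbr_card (c : V → Finset V) (hc : Good c) (b : ℕ) (hb : ∀ v, (c v).card ≤ b) (q : V) :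
    (nbr c q).card ≤ b + 1 := by
  by_cases h : ∃ v, q ∈ gate c v
  · obtain ⟨v, hv⟩ := h
    have hsub : nbr c q ⊆ gate c v := by
      intro q' hq'
      simp only [nbr, Finset.mem_filter, Finset.mem_univ, true_and] at hq'
      rcases hq' with h | ⟨w, h1, h2⟩
      · rw [h]; exact hv
      · rw [hc.gate_inj hv h1]; exact h2
    have hg : (gate c v).card ≤ b + 1 := by
      unfold gate
      split_ifs
      · exact (Finset.card_insert_le _ _).trans (by have := hb v; omega)
      · simp
    exact (Finset.card_le_card hsub).trans hg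
  · have hsub : nbr c q ⊆ {q} := by
      intro q' hq'
      simp only [nbr, Finset.mem_filter, Finset.mem_univ, true_and] at hq'
      rcases hq' with h' | ⟨w, h1, h2⟩
      · rw [h']; simp
      · exact absurd ⟨w, h1⟩ h
    exact (Finset.card_le_card hsub).trans (by simp)

theorem tof_split (c : V → Finset V) (hc : Good c) (R : Set V) :
    ∃ T1 T2 : Op V, tof c = T1 * T2 ∧ T1 ∈ locAlg {q | ∃ v ∈ R, q ∈ gate c v} ∧
      T2 ∈ locAlg {q | ∃ v ∈ Rᶜ, q ∈ gate c v} ∧ star T1 = T1 ∧ star T2 = T2 ∧ T2 * T2 = 1 := by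
  classical
  refine ⟨_, _, ?_, hc.tof_mem R, hc.tof_mem Rᶜ, ?_, ?_, ?_⟩
  · rw [← hc.tof_union R Rᶜ disjoint_compl_right]
    congr 1
    funext v
    simp [D3.res]
  · exact Good.star_tof (@Good.res V _ _ c hc R _)
  · exact Good.star_tof (@Good.res V _ _ c hc Rᶜ (fun a => Classical.propDecidable (a ∈ Rᶜ)))
  · exact Good.tof_mul_self (@Good.res V _ _ c hc Rᶜ (fun a => Classical.propDecidable (a ∈ Rᶜ)))

/-- conjugation by a layer of gates spreads the support to the neighbours -/
theorem tof_conj_mem (c : V → Finset V) (hc : Good c) (S : Finset V) (M : Op V)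
    (hM : M ∈ locAlg (S : Set V)) :
    tof c * M * star (tof c) ∈ locAlg ((S.biUnion (nbr c) : Finset V) : Set V) := by
  obtain ⟨T1, T2, h1, hT1, hT2, hs1, hs2, hR'⟩ := tof_split c hc {v | ∃ q ∈ S, q ∈ gate c v}
  have hd : Disjoint (S : Set V) {q | ∃ v ∈ {v | ∃ q ∈ S, q ∈ gate c v}ᶜ, q ∈ gate c v} := by
    rw [Set.disjoint_left]
    rintro q hq ⟨v, hv, hqv⟩
    exact hv ⟨q, hq, hqv⟩
  have hcomm : Commute M T2 := locAlg_commute hd hM hT2
  have h2 : tof c * M * star (tof c) = T1 * M * T1 := by
    rw [h1, star_mul, hs1, hs2]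
    calc T1 * T2 * M * (T2 * T1) = T1 * (T2 * (M * T2)) * T1 := by noncomm_ring
      _ = T1 * (T2 * T2 * M) * T1 := by rw [hcomm.eq]; noncomm_ring
      _ = _ := by rw [hR', one_mul]
  rw [h2]
  have hsub1 : (S : Set V) ⊆ ((S.biUnion (nbr c) : Finset V) : Set V) := by
    intro q hq
    rw [Finset.mem_coe, Finset.mem_biUnion]
    exact ⟨q, hq, nbr_self c q⟩
  have hsub2 : {q | ∃ v ∈ {v | ∃ q ∈ S, q ∈ gate c v}, q ∈ gate c v} ⊆
      ((S.biUnion (nbr c) : Finset V) : Set V) := by
    rintro q ⟨v, ⟨q', hq', hq'v⟩, hqv⟩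
    rw [Finset.mem_coe, Finset.mem_biUnion]
    refine ⟨q', hq', ?_⟩
    simp only [nbr, Finset.mem_filter, Finset.mem_univ, true_and]
    exact Or.inr ⟨v, hq'v, hqv⟩
  exact mul_mem (mul_mem (locAlg_mono hsub2 hT1) (locAlg_mono hsub1 hM)) (locAlg_mono hsub2 hT1)

/-- operator of a circuit -/
noncomputable def opD : List (Layer V) → Op V
  | [] => 1
  | L :: C => opD C * (tof L.ctrl * prodOp L.W)

theorem run_vec (D : List (Layer V)) (ψ : Ket V) : vec (run D ψ) = act (opD D) (vec ψ) := by
  induction D generalizing ψ with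
  | nil => simp [run, opD]
  | cons L C ih =>
    simp only [run, opD]
    rw [ih, act_layer, ← top_act_mul_apply]

theorem prodOp_unitary (W : V → M2) (hW : ∀ q, W q ∈ unitary M2) : prodOp W ∈ unitary (Op V) := by
  rw [Unitary.mem_iff, prodOp_star, prodOp_mul, prodOp_mul, ← prodOp_one]
  constructor
  · congr 1
    funext v
    exact Unitary.star_mul_self_of_mem (hW v)
  · congr 1
    funext v
    exact Unitary.mul_star_self_of_mem (hW v)

theorem tof_unitary (c : V → Finset V) (hc : Good c) : tof c ∈ unitary (Op V) := by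
  rw [Unitary.mem_iff, hc.star_tof]
  exact ⟨hc.tof_mul_self, hc.tof_mul_self⟩

theorem opD_unitary (D : List (Layer V)) (hD : ∀ L ∈ D, L.Valid) : opD D ∈ unitary (Op V) := by
  induction D with
  | nil => exact one_mem _
  | cons L C ih =>
    have h := hD L List.mem_cons_self
    exact mul_mem (ih fun L' hL' => hD L' (List.mem_cons_of_mem _ hL'))
      (mul_mem (tof_unitary _ (valid_good h)) (prodOp_unitary _ fun q => h.unitary q))

/-- forward light cone -/
noncomputable def fwd : List (Layer V) → Finset V → Finset V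
  | [], S => S
  | L :: C, S => fwd C (S.biUnion (nbr L.ctrl))

theorem opD_conj_mem (D : List (Layer V)) (hD : ∀ L ∈ D, L.Valid) (S : Finset V) (M : Op V)
    (hM : M ∈ locAlg (S : Set V)) :
    opD D * M * star (opD D) ∈ locAlg (fwd D S : Set V) := by
  induction D generalizing S M with
  | nil => simpa [opD, fwd] using hM
  | cons L C ih =>
    have h := hD L List.mem_cons_self
    have h1 : prodOp L.W * M * star (prodOp L.W) ∈ locAlg (S : Set V) :=
      locAlg_conj L.W (fun q => h.unitary q) hM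
    have h2 := tof_conj_mem L.ctrl (valid_good h) S _ h1
    have h3 := ih (fun L' hL' => hD L' (List.mem_cons_of_mem _ hL')) _ _ h2
    simp only [opD, fwd]
    have e : opD C * (tof L.ctrl * prodOp L.W) * M * star (opD C * (tof L.ctrl * prodOp L.W)) =
        opD C * (tof L.ctrl * (prodOp L.W * M * star (prodOp L.W)) * star (tof L.ctrl)) *
          star (opD C) := by
      simp only [star_mul, mul_assoc]
    rw [e]
    exact h3

theorem fwd_biUnion (D : List (Layer V)) (S : Finset V) :
    fwd D S = S.biUnion (fun s => fwd D {s}) := by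
  induction D generalizing S with
  | nil => simp [fwd]
  | cons L C ih =>
    simp only [fwd]
    rw [ih]
    ext v
    simp only [Finset.mem_biUnion]
    constructor
    · rintro ⟨q, ⟨s, hs, hq⟩, hv⟩
      refine ⟨s, hs, ?_⟩
      rw [Finset.singleton_biUnion, ih, Finset.mem_biUnion]
      exact ⟨q, hq, hv⟩
    · rintro ⟨s, hs, hv⟩
      rw [Finset.singleton_biUnion, ih, Finset.mem_biUnion] at hv
      obtain ⟨q, hq, hv⟩ := hv
      exact ⟨q, ⟨s, hs, hq⟩, hv⟩

theorem fwd_card (b : ℕ) (D : List (Layer V))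
    (hD : ∀ L ∈ D, L.Valid ∧ ∀ v, (L.ctrl v).card ≤ b) (S : Finset V) :
    (fwd D S).card ≤ (b + 1) ^ D.length * S.card := by
  induction D generalizing S with
  | nil => simp [fwd]
  | cons L C ih =>
    have h := hD L List.mem_cons_self
    have h1 : (S.biUnion (nbr L.ctrl)).card ≤ S.card * (b + 1) :=
      Finset.card_biUnion_le_card_mul _ _ _ fun q _ => nbr_card _ (valid_good h.1) b h.2 q
    simp only [fwd, List.length_cons]
    calc (fwd C (S.biUnion (nbr L.ctrl))).card
        ≤ (b + 1) ^ C.length * (S.biUnion (nbr L.ctrl)).card :=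
          ih (fun L' hL' => hD L' (List.mem_cons_of_mem _ hL')) _
      _ ≤ (b + 1) ^ C.length * (S.card * (b + 1)) := Nat.mul_le_mul_left _ h1
      _ = (b + 1) ^ (C.length + 1) * S.card := by ring

theorem bwd_card (b : ℕ) (D : List (Layer V))
    (hD : ∀ L ∈ D, L.Valid ∧ ∀ v, (L.ctrl v).card ≤ b) (v : V) :
    (Finset.univ.filter fun s => v ∈ fwd D {s}).card ≤ (b + 1) ^ D.length := by
  induction D with
  | nil =>
    simp only [fwd, Finset.mem_singleton, List.length_nil, pow_zero]
    rw [Finset.card_le_one]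
    intro x hx y hy
    rw [Finset.mem_filter] at hx hy
    rw [← hx.2, ← hy.2]
  | cons L C ih =>
    have h := hD L List.mem_cons_self
    have hsub : (Finset.univ.filter fun s => v ∈ fwd (L :: C) {s}) ⊆
        (Finset.univ.filter fun s => v ∈ fwd C {s}).biUnion (nbr L.ctrl) := by
      intro s hs
      rw [Finset.mem_filter] at hs
      have h1 := hs.2
      simp only [fwd] at h1
      rw [Finset.singleton_biUnion, fwd_biUnion, Finset.mem_biUnion] at h1
      obtain ⟨q, hq, hv⟩ := h1
      rw [Finset.mem_biUnion]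
      refine ⟨q, ?_, (nbr_symm _ _ _).mp hq⟩
      rw [Finset.mem_filter]
      exact ⟨Finset.mem_univ _, hv⟩
    calc _ ≤ _ := Finset.card_le_card hsub
      _ ≤ (Finset.univ.filter fun s => v ∈ fwd C {s}).card * (b + 1) :=
          Finset.card_biUnion_le_card_mul _ _ _ fun q _ => nbr_card _ (valid_good h.1) b h.2 q
      _ ≤ (b + 1) ^ C.length * (b + 1) :=
          Nat.mul_le_mul_right _ (ih fun L' hL' => hD L' (List.mem_cons_of_mem _ hL'))
      _ = (b + 1) ^ (L :: C).length := by rw [List.length_cons, pow_succ]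

end Cone

end P368.D3
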