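import Vale.Agent.P368.Two1

/-!
Factorisation of a region operator over well separated blocks.
-/

namespace P368.D3

open Matrix
open scoped BigOperators InnerProductSpace Matrix.Norms.L2Operator

section Blocks

variable {V : Type} [Fintype V] [DecidableEq V]

omit [DecidableEq V] in
theorem prodOp_smul_all (t : V → ℂ) (B : V → M2) :
    prodOp (fun q => t q • B q) = (∏ q, t q) • prodOp B := by
  ext x y
  simp only [prodOp, Matrix.of_apply, Matrix.smul_apply, smul_eq_mul]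
  rw [Finset.prod_mul_distrib]

/-- product of `E F` factors -/
theorem ef_prod (Ψ : V → M2) (T : Set V) (h1 : ∀ q, q ∉ T → Ψ q = 1) (h2 : ∀ q, EF (Ψ q)) :
    ∃ (t : ℝ) (E F : Op V), 0 ≤ t ∧ t ≤ 1 ∧ IsStarProjection E ∧ IsStarProjection F ∧
      prodOp Ψ = (t : ℂ) • (E * F) ∧ E ∈ locAlg T ∧ F ∈ locAlg T := by
  have h3 : ∀ q, ∃ (t : ℝ) (E F : M2), 0 ≤ t ∧ t ≤ 1 ∧ IsStarProjection E ∧ IsStarProjection F ∧
      Ψ q = (t : ℂ) • (E * F) ∧ (q ∉ T → E = 1 ∧ F = 1) := by
    intro q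
    by_cases hq : q ∈ T
    · obtain ⟨t, E, F, a1, a2, a3, a4, a5⟩ := h2 q
      exact ⟨t, E, F, a1, a2, a3, a4, a5, fun h => absurd hq h⟩
    · refine ⟨1, 1, 1, zero_le_one, le_rfl, .one _, .one _, ?_, fun _ => ⟨rfl, rfl⟩⟩
      rw [h1 q hq]; simp
  choose t E F a1 a2 a3 a4 a5 a6 using h3
  refine ⟨∏ q, t q, prodOp E, prodOp F, Finset.prod_nonneg fun q _ => a1 q,
    Finset.prod_le_one (fun q _ => a1 q) (fun q _ => a2 q), prodOp_proj _ a3, prodOp_proj _ a4,
    ?_, prodOp_mem _ fun q hq => (a6 q hq).1, prodOp_mem _ fun q hq => (a6 q hq).2⟩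
  rw [prodOp_mul]
  push_cast
  rw [← prodOp_smul_all]
  congr 1
  funext q
  exact a5 q

theorem proj_mul_of_commute {P Q : Op V} (hP : IsStarProjection P) (hQ : IsStarProjection Q)
    (h : Commute P Q) : IsStarProjection (P * Q) := by
  refine ⟨?_, ?_⟩
  · unfold IsIdempotentElem
    calc P * Q * (P * Q) = P * (Q * P) * Q := by noncomm_ring
      _ = P * (P * Q) * Q := by rw [h.eq]
      _ = P * P * (Q * Q) := by noncomm_ring
      _ = _ := by rw [hP.isIdempotentElem.eq, hQ.isIdempotentElem.eq]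
  · unfold IsSelfAdjoint
    rw [star_mul, hP.isSelfAdjoint.star_eq, hQ.isSelfAdjoint.star_eq, h.eq]

/-- one block -/
theorem block_ef (c : V → Finset V) (hc : Good c) (Θ : V → M2) (o : V) (R₀ : Finset V)
    (hΘ : ∀ q, q ≠ o → IsStarProjection (Θ q)) (ho : rep c o ∈ R₀) (Ψ : V → M2)
    (hΨ1 : ∀ q, rep c q ∉ R₀ → Ψ q = 1) (hΨ2 : ∀ q, q ≠ o → EF (Ψ q)) (O : Finset V)
    (hO : o ∉ O) (S : Set V) (hS : Disjoint S (R₀ : Set V)) :
    ∃ (t : ℝ) (E F : Op V), 0 ≤ t ∧ t ≤ 1 ∧ IsStarProjection E ∧ IsStarProjection F ∧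
      prodOp (fun q => if q ∈ O then Ψ q else 1) * regOp c Θ S = (t : ℂ) • (E * F) ∧
      E ∈ locAlg ({q | q ∈ O ∧ rep c q ∈ R₀} ∪ {q | rep c q ∈ S}) ∧
      F ∈ locAlg ({q | q ∈ O ∧ rep c q ∈ R₀} ∪ {q | rep c q ∈ S}) := by
  obtain ⟨t, E, F, a1, a2, a3, a4, a5, a6, a7⟩ := ef_prod
    (fun q => if q ∈ O then Ψ q else 1) {q | q ∈ O ∧ rep c q ∈ R₀}
    (by
      intro q hq
      simp only [Set.mem_ofPred_eq, not_and] at hq
      by_cases hqO : q ∈ O
      · simp only [hqO, if_true]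
        exact hΨ1 q (hq hqO)
      · simp only [hqO, if_false])
    (by
      intro q
      by_cases hqO : q ∈ O
      · simp only [hqO, if_true]
        exact hΨ2 q (fun h => hO (h ▸ hqO))
      · simp only [hqO, if_false]
        exact EF.one')
  have hR : IsStarProjection (regOp c Θ S) := by
    refine hc.regOp_proj Θ S fun q hq => hΘ q ?_
    rintro rfl
    exact Set.disjoint_left.mp hS hq ho
  have hd : Disjoint {q | q ∈ O ∧ rep c q ∈ R₀} {q | rep c q ∈ S} := by
    rw [Set.disjoint_left]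
    rintro q ⟨_, hq⟩ hq'
    exact Set.disjoint_left.mp hS hq' hq
  have hcomm : Commute F (regOp c Θ S) := locAlg_commute hd a7 (hc.regOp_mem Θ S)
  refine ⟨t, E, F * regOp c Θ S, a1, a2, a3, proj_mul_of_commute a4 hR hcomm, ?_,
    locAlg_mono Set.subset_union_left a6,
    mul_mem (locAlg_mono Set.subset_union_left a7)
      (locAlg_mono Set.subset_union_right (hc.regOp_mem Θ S))⟩
  rw [a5, smul_mul_assoc, mul_assoc]

variable {β : Type} [DecidableEq β]

/-- regions of a block that are not in `R₀` -/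
def bS (c : V → Finset V) (R₀ : Finset V) (O : Finset V) : Set V :=
  {r | r ∉ R₀ ∧ ∃ q ∈ O, rep c q = r}

/-- remaining regions -/
def rS (c : V → Finset V) (R₀ : Finset V) (O : β → Finset V) (J : Finset β) : Set V :=
  {r | r ∉ R₀ ∧ ∀ h ∈ J, ¬ ∃ q ∈ O h, rep c q = r}

open Classical in
/-- remaining one-qubit factors -/
noncomputable def rP (Ψ : V → M2) (O : β → Finset V) (J : Finset β) : V → M2 :=
  fun q => if ∃ h ∈ J, q ∈ O h then 1 else Ψ q

theorem fact_step (c : V → Finset V) (hc : Good c) (Θ : V → M2) (R₀ : Finset V) (Ψ : V → M2)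
    (hΨ1 : ∀ q, rep c q ∉ R₀ → Ψ q = 1) (O : β → Finset V) (J : Finset β) (h : β)
    (hO : ∀ h' ∈ J, Disjoint (O h) (O h'))
    (hreg : ∀ h' ∈ J, ∀ v ∈ O h, ∀ v' ∈ O h', rep c v = rep c v' → rep c v ∈ R₀) :
    prodOp (rP Ψ O J) * regOp c Θ (rS c R₀ O J) =
      (prodOp (fun q => if q ∈ O h then Ψ q else 1) * regOp c Θ (bS c R₀ (O h))) *
        (prodOp (rP Ψ O (insert h J)) * regOp c Θ (rS c R₀ O (insert h J))) := by
  have e1 : prodOp (rP Ψ O J) = prodOp (fun q => if q ∈ O h then Ψ q else 1) *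
      prodOp (rP Ψ O (insert h J)) := by
    rw [prodOp_mul]
    congr 1
    funext q
    unfold rP
    by_cases hq : q ∈ O h
    · have h1 : ¬ ∃ h' ∈ J, q ∈ O h' := by
        rintro ⟨h', hh', hq'⟩
        exact Finset.disjoint_left.mp (hO h' hh') hq hq'
      have h2 : ∃ h' ∈ insert h J, q ∈ O h' := ⟨h, Finset.mem_insert_self _ _, hq⟩
      rw [if_neg h1, if_pos hq, if_pos h2, mul_one]
    · rw [if_neg hq, one_mul]
      have h3 : (∃ h' ∈ insert h J, q ∈ O h') ↔ ∃ h' ∈ J, q ∈ O h' := by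
        constructor
        · rintro ⟨h', hh', hq'⟩
          rcases Finset.mem_insert.mp hh' with rfl | h4
          · exact absurd hq' hq
          · exact ⟨h', h4, hq'⟩
        · rintro ⟨h', hh', hq'⟩
          exact ⟨h', Finset.mem_insert_of_mem hh', hq'⟩
      simp only [h3]
  have e2 : rS c R₀ O J = bS c R₀ (O h) ∪ rS c R₀ O (insert h J) := by
    ext r
    simp only [rS, bS, Set.mem_ofPred_eq, Set.mem_union]
    constructor
    · rintro ⟨h1, h2⟩
      by_cases h3 : ∃ q ∈ O h, rep c q = r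
      · exact Or.inl ⟨h1, h3⟩
      · refine Or.inr ⟨h1, fun h' hh' => ?_⟩
        rcases Finset.mem_insert.mp hh' with rfl | h4
        · exact h3
        · exact h2 h' h4
    · rintro (⟨h1, q, hq, rfl⟩ | ⟨h1, h2⟩)
      · refine ⟨h1, ?_⟩
        rintro h' hh' ⟨q', hq', h3⟩
        exact h1 (hreg h' hh' q hq q' hq' h3.symm)
      · exact ⟨h1, fun h' hh' => h2 h' (Finset.mem_insert_of_mem hh')⟩
  have hd : Disjoint (bS c R₀ (O h)) (rS c R₀ O (insert h J)) := by
    rw [Set.disjoint_left]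
    rintro r ⟨_, h1⟩ ⟨_, h2⟩
    exact h2 h (Finset.mem_insert_self _ _) h1
  have hmem : prodOp (rP Ψ O (insert h J)) ∈ locAlg {q | rep c q ∈ R₀} := by
    refine prodOp_mem _ fun q hq => ?_
    unfold rP
    split_ifs
    · rfl
    · exact hΨ1 q hq
  have hd2 : Disjoint {q | rep c q ∈ R₀} {q | rep c q ∈ bS c R₀ (O h)} := by
    rw [Set.disjoint_left]
    intro q hq hq'
    exact hq'.1 hq
  have hcomm : Commute (prodOp (rP Ψ O (insert h J))) (regOp c Θ (bS c R₀ (O h))) :=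
    locAlg_commute hd2 hmem (hc.regOp_mem Θ _)
  rw [e1, e2, hc.regOp_union Θ _ _ hd]
  calc prodOp (fun q => if q ∈ O h then Ψ q else 1) * prodOp (rP Ψ O (insert h J)) *
        (regOp c Θ (bS c R₀ (O h)) * regOp c Θ (rS c R₀ O (insert h J)))
      = prodOp (fun q => if q ∈ O h then Ψ q else 1) * (prodOp (rP Ψ O (insert h J)) *
        regOp c Θ (bS c R₀ (O h))) * regOp c Θ (rS c R₀ O (insert h J)) := by noncomm_ring
    _ = _ := by rw [hcomm.eq]; noncomm_ring

theorem fact_all (c : V → Finset V) (hc : Good c) (Θ : V → M2) (R₀ : Finset V) (Ψ : V → M2)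
    (hΨ1 : ∀ q, rep c q ∉ R₀ → Ψ q = 1) (O : β → Finset V)
    (Y : β → HV V →L[ℂ] HV V) (hYY : ∀ h h', h ≠ h' → Commute (Y h) (Y h')) (J : Finset β)
    (hY : ∀ h ∈ J, Y h = act (prodOp (fun q => if q ∈ O h then Ψ q else 1) *
      regOp c Θ (bS c R₀ (O h))))
    (hO : ∀ h ∈ J, ∀ h' ∈ J, h ≠ h' → Disjoint (O h) (O h'))
    (hreg : ∀ h ∈ J, ∀ h' ∈ J, h ≠ h' → ∀ v ∈ O h, ∀ v' ∈ O h', rep c v = rep c v' →
      rep c v ∈ R₀) :
    act (prodOp Ψ * regOp c Θ ((R₀ : Set V)ᶜ)) =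
      prodC J Y hYY * act (prodOp (rP Ψ O J) * regOp c Θ (rS c R₀ O J)) := by
  induction J using Finset.induction_on with
  | empty =>
    have e1 : rP Ψ O (∅ : Finset β) = Ψ := by
      funext q
      simp [rP]
    have e2 : rS c R₀ O (∅ : Finset β) = (R₀ : Set V)ᶜ := by
      ext r
      simp [rS]
    have e3 : prodC ∅ Y hYY = 1 := Finset.noncommProd_empty _ _
    rw [e1, e2, e3, one_mul]
  | insert h J hh ih =>
    have ih' := ih (fun x hx => hY x (Finset.mem_insert_of_mem hx))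
      (fun x hx y hy => hO x (Finset.mem_insert_of_mem hx) y (Finset.mem_insert_of_mem hy))
      (fun x hx y hy => hreg x (Finset.mem_insert_of_mem hx) y (Finset.mem_insert_of_mem hy))
    have hne : ∀ h' ∈ J, h ≠ h' := fun h' hh' e => hh (e ▸ hh')
    have hstep := fact_step c hc Θ R₀ Ψ hΨ1 O J h
      (fun h' hh' => hO h (Finset.mem_insert_self _ _) h' (Finset.mem_insert_of_mem hh')
        (hne h' hh'))
      (fun h' hh' => hreg h (Finset.mem_insert_self _ _) h' (Finset.mem_insert_of_mem hh')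
        (hne h' hh'))
    have hcomm : Commute (Y h) (prodC J Y hYY) :=
      prodC_commute J Y hYY (Y h) fun h' hh' => hYY h h' (hne h' hh')
    rw [ih', hstep, map_mul act (prodOp _ * _) (prodOp _ * _),
      ← hY h (Finset.mem_insert_self _ _), prodC_insert J Y hYY h hh, ← mul_assoc, ← hcomm.eq]

end Blocks

end P368.D3
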