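import Vale.Agent.P368.Two2

/-!
Signed average of a region operator over the flips of well separated blocks.
-/

namespace P368.D3

open Matrix
open scoped BigOperators InnerProductSpace Matrix.Norms.L2Operator

section Avg

variable {𝔄 : Type*} [CStarAlgebra 𝔄] {β : Type*} [DecidableEq β]

/-- signed average over the subsets of `J` -/
noncomputable def avgOp (J : Finset β) (X : β → 𝔄)
    (hXX : ∀ h h', h ≠ h' → Commute (X h) (X h')) (M : 𝔄) : 𝔄 :=
  (1 / 2 ^ J.card : ℂ) • ∑ I ∈ J.powerset, (-1 : ℂ) ^ I.card •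
    (prodC I X hXX * M * prodC I X hXX)

theorem avgOp_sum (J : Finset β) (X : β → 𝔄) (hXX : ∀ h h', h ≠ h' → Commute (X h) (X h'))
    (N : ℕ) (w : Fin N → ℂ) (M : Fin N → 𝔄) :
    avgOp J X hXX (∑ i, w i • M i) = ∑ i, w i • avgOp J X hXX (M i) := by
  unfold avgOp
  have h1 : ∀ I : Finset β, prodC I X hXX * (∑ i, w i • M i) * prodC I X hXX =
      ∑ i, w i • (prodC I X hXX * M i * prodC I X hXX) := by
    intro I
    rw [Finset.mul_sum, Finset.sum_mul]
    apply Finset.sum_congr rfl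
    intro i _
    rw [mul_smul_comm, smul_mul_assoc]
  simp only [h1, Finset.smul_sum]
  rw [Finset.sum_comm]
  apply Finset.sum_congr rfl
  intro i _
  apply Finset.sum_congr rfl
  intro I _
  simp only [smul_smul]
  congr 1
  ring

end Avg

section Region

variable {V : Type} [Fintype V] [DecidableEq V] {β : Type} [DecidableEq β]

theorem EF.norm_le {A : M2} (h : EF A) : ‖A‖ ≤ 1 := by
  obtain ⟨t, E, F, h0, h1, hE, hF, rfl⟩ := h
  rw [norm_smul, Complex.norm_real, Real.norm_of_nonneg h0]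
  have h2 : ‖E * F‖ ≤ 1 := by
    refine (norm_mul_le _ _).trans ?_
    have a1 := ef_norm_proj hE
    have a2 := ef_norm_proj hF
    have a3 := norm_nonneg E
    have a4 := norm_nonneg F
    nlinarith
  have := norm_nonneg (E * F)
  nlinarith

theorem act_norm (M : Op V) : ‖act M‖ = ‖M‖ := (Matrix.cstar_norm_def M).symm

theorem act_commute {M N : Op V} (h : Commute M N) : Commute (act M) (act N) :=
  h.map (act : Op V ≃⋆ₐ[ℂ] (HV V →L[ℂ] HV V))

theorem act_proj {P : Op V} (h : IsStarProjection P) : IsStarProjection (act P) := by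
  refine ⟨?_, ?_⟩
  · unfold IsIdempotentElem
    rw [← map_mul, h.isIdempotentElem.eq]
  · unfold IsSelfAdjoint
    rw [← map_star, h.isSelfAdjoint.star_eq]

/-- one term of the expansion -/
theorem region_term (c : V → Finset V) (hc : Good c) (Θ : V → M2) (o : V)
    (hΘ : ∀ q, q ≠ o → IsStarProjection (Θ q)) (hΘo : ‖Θ o‖ ≤ 1) (R₀ : Finset V)
    (hoR : rep c o ∈ R₀) (Ψ : V → M2) (hΨ1 : ∀ q, rep c q ∉ R₀ → Ψ q = 1)
    (hΨ2 : ∀ q, q ≠ o → EF (Ψ q)) (hΨo : ‖Ψ o‖ ≤ 1) (J : Finset β) (O : β → Finset V)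
    (X : β → Op V) (hXm : ∀ h, X h ∈ locAlg (O h : Set V))
    (hXX : ∀ h h', h ≠ h' → Commute (act (X h)) (act (X h'))) (hXs : ∀ h, star (X h) = X h)
    (hX2 : ∀ h, X h * X h = 1) (ho : ∀ h ∈ J, o ∉ O h)
    (hO : ∀ h ∈ J, ∀ h' ∈ J, h ≠ h' → Disjoint (O h) (O h'))
    (hreg : ∀ h ∈ J, ∀ h' ∈ J, h ≠ h' → ∀ v ∈ O h, ∀ v' ∈ O h', rep c v = rep c v' →
      rep c v ∈ R₀) :
    ‖avgOp J (fun h => act (X h)) hXX (act (prodOp Ψ * regOp c Θ ((R₀ : Set V)ᶜ)))‖ ≤
      (3 / 4) ^ J.card := by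
  classical
  set zone : β → Set V := fun h => if h ∈ J then
    {q | q ∈ O h ∧ rep c q ∈ R₀} ∪ {q | rep c q ∈ bS c R₀ (O h)} else ∅ with hzone
  have hblk : ∀ h, ∃ (t : ℝ) (E F : Op V), 0 ≤ t ∧ t ≤ 1 ∧ IsStarProjection E ∧
      IsStarProjection F ∧ (h ∈ J → prodOp (fun q => if q ∈ O h then Ψ q else 1) *
        regOp c Θ (bS c R₀ (O h)) = (t : ℂ) • (E * F)) ∧
      E ∈ locAlg (zone h) ∧ F ∈ locAlg (zone h) := by
    intro h
    by_cases hJ : h ∈ J
    · have hS : Disjoint (bS c R₀ (O h)) (R₀ : Set V) := by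
        rw [Set.disjoint_left]
        rintro r ⟨h1, _⟩ h2
        exact h1 h2
      obtain ⟨t, E, F, a1, a2, a3, a4, a5, a6, a7⟩ :=
        block_ef c hc Θ o R₀ hΘ hoR Ψ hΨ1 hΨ2 (O h) (ho h hJ) (bS c R₀ (O h)) hS
      refine ⟨t, E, F, a1, a2, a3, a4, fun _ => a5, ?_, ?_⟩
      · simp only [hzone, if_pos hJ]; exact a6
      · simp only [hzone, if_pos hJ]; exact a7
    · exact ⟨1, 1, 1, zero_le_one, le_rfl, .one _, .one _, fun h' => absurd h' hJ, one_mem _,
        one_mem _⟩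
  choose lam E F b1 b2 b3 b4 b5 b6 b7 using hblk
  have hzd : ∀ h h', h ≠ h' → Disjoint (zone h) (zone h') := by
    intro h h' hne
    by_cases hJ : h ∈ J
    · by_cases hJ' : h' ∈ J
      · simp only [hzone, if_pos hJ, if_pos hJ']
        rw [Set.disjoint_left]
        rintro q (⟨h1, h2⟩ | ⟨h1, q1, hq1, h2⟩) (⟨h3, h4⟩ | ⟨h3, q2, hq2, h4⟩)
        · exact Finset.disjoint_left.mp (hO h hJ h' hJ' hne) h1 h3
        · exact h3 h2
        · exact h1 h4
        · apply h1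
          rw [← h2]
          exact hreg h hJ h' hJ' hne q1 hq1 q2 hq2 (h2.trans h4.symm)
      · simp only [hzone, if_neg hJ']
        exact Set.disjoint_empty _
    · simp only [hzone, if_neg hJ]
      exact Set.empty_disjoint _
  have hXz : ∀ h ∈ J, ∀ h' ∈ J, h ≠ h' → Disjoint (O h : Set V) (zone h') := by
    intro h hJ h' hJ' hne
    simp only [hzone, if_pos hJ']
    rw [Set.disjoint_left]
    rintro q hq (⟨h3, h4⟩ | ⟨h3, q2, hq2, h4⟩)
    · exact Finset.disjoint_left.mp (hO h hJ h' hJ' hne) hq h3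
    · exact h3 (hreg h hJ h' hJ' hne q hq q2 hq2 h4.symm)
  have hYY : ∀ h h', h ≠ h' → Commute ((lam h : ℂ) • (act (E h) * act (F h)))
      ((lam h' : ℂ) • (act (E h') * act (F h'))) := by
    intro h h' hne
    have h1 : Commute (E h * F h) (E h' * F h') :=
      locAlg_commute (hzd h h' hne) (mul_mem (b6 h) (b7 h)) (mul_mem (b6 h') (b7 h'))
    have h2 := act_commute h1
    rw [map_mul, map_mul] at h2
    exact (h2.smul_right _).smul_left _
  have hYact : ∀ h ∈ J, (lam h : ℂ) • (act (E h) * act (F h)) =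
      act (prodOp (fun q => if q ∈ O h then Ψ q else 1) * regOp c Θ (bS c R₀ (O h))) := by
    intro h hJ
    rw [b5 h hJ, map_smul, map_mul]
  have hfact := fact_all c hc Θ R₀ Ψ hΨ1 O (fun h => (lam h : ℂ) • (act (E h) * act (F h))) hYY J
    hYact hO hreg
  have hZn : ‖act (prodOp (rP Ψ O J) * regOp c Θ (rS c R₀ O J))‖ ≤ 1 := by
    rw [act_norm]
    have hone : ‖(1 : M2)‖ ≤ 1 := (CStarRing.norm_of_mem_unitary (one_mem _)).le
    have h1 : ‖prodOp (rP Ψ O J)‖ ≤ 1 := by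
      refine prodOp_norm_le _ fun q => ?_
      unfold rP
      split_ifs
      · exact hone
      · by_cases hq : q = o
        · rw [hq]; exact hΨo
        · exact (hΨ2 q hq).norm_le
    have h2 : ‖regOp c Θ (rS c R₀ O J)‖ ≤ 1 := by
      refine hc.regOp_norm Θ _ fun q _ => ?_
      by_cases hq : q = o
      · rw [hq]; exact hΘo
      · exact ef_norm_proj (hΘ q hq)
    refine (norm_mul_le _ _).trans ?_
    have := norm_nonneg (prodOp (rP Ψ O J))
    have := norm_nonneg (regOp c Θ (rS c R₀ O J))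
    nlinarith
  have hXZ : ∀ h ∈ J, Commute (act (X h)) (act (prodOp (rP Ψ O J) * regOp c Θ (rS c R₀ O J))) := by
    intro h hJ
    apply act_commute
    have h1 : prodOp (rP Ψ O J) ∈ locAlg {q | ¬ ∃ h ∈ J, q ∈ O h} := by
      refine prodOp_mem _ fun q hq => ?_
      simp only [Set.mem_ofPred_eq, not_not] at hq
      unfold rP
      rw [if_pos hq]
    have h2 : Disjoint (O h : Set V) {q | ¬ ∃ h ∈ J, q ∈ O h} := by
      rw [Set.disjoint_left]
      intro q hq hq'
      exact hq' ⟨h, hJ, hq⟩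
    have h3 : Disjoint (O h : Set V) {q | rep c q ∈ rS c R₀ O J} := by
      rw [Set.disjoint_left]
      intro q hq hq'
      exact hq'.2 h hJ ⟨q, hq, rfl⟩
    exact (locAlg_commute h2 (hXm h) h1).mul_right (locAlg_commute h3 (hXm h) (hc.regOp_mem Θ _))
  have hcore := norm_core J (fun h => act (X h)) (fun h => act (E h)) (fun h => act (F h)) lam
    (act (prodOp (rP Ψ O J) * regOp c Θ (rS c R₀ O J))) hXX hYY
    (fun h => by rw [← map_star, hXs]) (fun h => by rw [← map_mul, hX2, map_one])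
    (fun h => act_proj (b3 h)) (fun h => act_proj (b4 h)) b1 b2
    (fun h hJ h' hJ' hne => act_commute (locAlg_commute (hXz h hJ h' hJ' hne) (hXm h) (b6 h')))
    (fun h hJ h' hJ' hne => act_commute (locAlg_commute (hXz h hJ h' hJ' hne) (hXm h) (b7 h')))
    hXZ hZn
  unfold avgOp
  rw [hfact]
  exact hcore

theorem region_avg (c : V → Finset V) (hc : Good c) (Θ : V → M2) (o : V)
    (hΘ : ∀ q, q ≠ o → IsStarProjection (Θ q)) (hΘo : ‖Θ o‖ ≤ 1) (J : Finset β)
    (O : β → Finset V) (X : β → Op V) (hXm : ∀ h, X h ∈ locAlg (O h : Set V))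
    (hXX : ∀ h h', h ≠ h' → Commute (act (X h)) (act (X h'))) (hXs : ∀ h, star (X h) = X h)
    (hX2 : ∀ h, X h * X h = 1) (Hv : Finset V) (ho : ∀ h ∈ J, o ∉ O h)
    (hO : ∀ h ∈ J, ∀ h' ∈ J, h ≠ h' → Disjoint (O h) (O h'))
    (hreg : ∀ h ∈ J, ∀ h' ∈ J, h ≠ h' → ∀ v ∈ O h, ∀ v' ∈ O h', rep c v = rep c v' →
      rep c v ∈ Hv) :
    ‖avgOp J (fun h => act (X h)) hXX (act (regOp c Θ Set.univ))‖ ≤
      9 ^ (Hv.card + 1) * (3 / 4) ^ J.card := by
  set R₀ : Finset V := insert (rep c o) Hv with hR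
  obtain ⟨N, w, Ψ, h1, h2, h3, h4, h5⟩ := hc.regOp_expand Θ o hΘ hΘo R₀
  have hu : regOp c Θ Set.univ = ∑ i, w i • (prodOp (Ψ i) * regOp c Θ ((R₀ : Set V)ᶜ)) := by
    have e1 : (Set.univ : Set V) = (R₀ : Set V) ∪ (R₀ : Set V)ᶜ := (Set.union_compl_self _).symm
    rw [e1, hc.regOp_union Θ _ _ disjoint_compl_right, h5, Finset.sum_mul]
    apply Finset.sum_congr rfl
    intro i _
    rw [smul_mul_assoc]
  have hact : act (regOp c Θ Set.univ) =
      ∑ i, w i • act (prodOp (Ψ i) * regOp c Θ ((R₀ : Set V)ᶜ)) := by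
    rw [hu, map_sum]
    apply Finset.sum_congr rfl
    intro i _
    rw [map_smul]
  rw [hact, avgOp_sum]
  calc ‖∑ i, w i • avgOp J (fun h => act (X h)) hXX
        (act (prodOp (Ψ i) * regOp c Θ ((R₀ : Set V)ᶜ)))‖
      ≤ ∑ i, ‖w i • avgOp J (fun h => act (X h)) hXX
        (act (prodOp (Ψ i) * regOp c Θ ((R₀ : Set V)ᶜ)))‖ := norm_sum_le _ _
    _ ≤ ∑ i, ‖w i‖ * (3 / 4) ^ J.card := by
        apply Finset.sum_le_sum
        intro i _
        rw [norm_smul]
        apply mul_le_mul_of_nonneg_left _ (norm_nonneg _)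
        exact region_term c hc Θ o hΘ hΘo R₀ (Finset.mem_insert_self _ _) (Ψ i) (h2 i) (h3 i)
          (h4 i) J O X hXm hXX hXs hX2 ho hO
          (fun h hJ h' hJ' hne v hv v' hv' he => Finset.mem_insert_of_mem
            (hreg h hJ h' hJ' hne v hv v' hv' he))
    _ = (∑ i, ‖w i‖) * (3 / 4) ^ J.card := by rw [Finset.sum_mul]
    _ ≤ 9 ^ (Hv.card + 1) * (3 / 4) ^ J.card := by
        apply mul_le_mul_of_nonneg_right _ (by positivity)
        refine h1.trans ?_
        exact pow_le_pow_right₀ (by norm_num) (Finset.card_insert_le _ _)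

end Region

end P368.D3
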