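import Vale.Agent.P368.Two3
import Vale.Agent.P368.Fin0

/-!
From the signed sum over the inputs to the signed average over flips.
-/

namespace P368.D3

open Matrix
open scoped BigOperators InnerProductSpace Matrix.Norms.L2Operator

section Flip

variable {n : ℕ} {A : Type} [Fintype A] [DecidableEq A]

/-- Pauli X -/
noncomputable def xfl : M2 := Matrix.of fun a b => if a = b then 0 else 1

theorem xfl_star : star xfl = xfl := by
  ext a b
  simp only [Matrix.star_apply, xfl, Matrix.of_apply]
  cases a <;> cases b <;> simp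

theorem xfl_sq : xfl * xfl = 1 := by
  ext a b
  simp only [Matrix.mul_apply, xfl, Matrix.of_apply, Fintype.sum_bool]
  cases a <;> cases b <;> simp

/-- input with ones exactly on `K` -/
def xI (K : Finset (Fin n)) : Fin n → Bool := fun i => decide (i ∈ K)

theorem site_xfl_mulVec {V : Type} [Fintype V] [DecidableEq V] (v : V) (ψ : Ket V) :
    site v xfl *ᵥ ψ = fun z => ψ (Function.update z v (!z v)) := by
  funext z
  rw [Matrix.mulVec, dotProduct, Finset.sum_eq_single (Function.update z v (!z v))]
  · have h : site v xfl z (Function.update z v (!z v)) = 1 := by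
      unfold site prodOp
      rw [Matrix.of_apply]
      apply Finset.prod_eq_one
      intro q _
      by_cases hq : q = v
      · subst hq
        rw [Function.update_self, Function.update_self]
        simp [xfl]
      · rw [Function.update_of_ne hq, Function.update_of_ne hq, Matrix.one_apply_eq]
    rw [h, one_mul]
  · intro y _ hy
    have h : site v xfl z y = 0 := by
      unfold site prodOp
      rw [Matrix.of_apply]
      by_contra hne
      apply hy
      have hall : ∀ q, (Function.update (fun _ => (1 : M2)) v xfl) q (z q) (y q) ≠ 0 := by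
        intro q h0
        exact hne (Finset.prod_eq_zero (Finset.mem_univ q) h0)
      funext q
      have h1 := hall q
      by_cases hq : q = v
      · subst hq
        rw [Function.update_self] at h1 ⊢
        simp only [xfl, Matrix.of_apply] at h1
        revert h1
        cases z q <;> cases y q <;> simp
      · rw [Function.update_of_ne hq] at h1 ⊢
        by_contra h2
        exact h1 (Matrix.one_apply_ne (fun h => h2 h.symm))
    rw [h, zero_mul]
  · intro h
    exact absurd (Finset.mem_univ _) h

theorem start_flip (α : Ket A) (K : Finset (Fin n)) (h : Fin n) (hK : h ∉ K) :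
    act (site (Sum.inl h : Fin n ⊕ A) xfl) (vec (start α (xI K))) =
      vec (start α (xI (insert h K))) := by
  rw [top_act_vec, site_xfl_mulVec]
  congr 1
  funext z
  unfold start
  have h1 : (fun a => Function.update z (Sum.inl h) (!z (Sum.inl h)) (Sum.inr a)) =
      fun a => z (Sum.inr a : Fin n ⊕ A) := by
    funext a
    rw [Function.update_of_ne (by simp)]
  have h2 : ((fun i => Function.update z (Sum.inl h) (!z (Sum.inl h)) (Sum.inl i : Fin n ⊕ A)) =
      xI K) ↔ ((fun i => z (Sum.inl i : Fin n ⊕ A)) = xI (insert h K)) := by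
    constructor
    · intro he
      funext i
      have hi := congrFun he i
      by_cases hih : i = h
      · subst hih
        simp only [Function.update_self, xI, hK, decide_false] at hi
        simp only [xI, Finset.mem_insert_self, decide_true]
        revert hi
        cases z (Sum.inl i) <;> simp
      · simp only [xI] at hi ⊢
        rw [Function.update_of_ne (by simp [hih])] at hi
        rw [hi]
        simp [hih]
    · intro he
      funext i
      have hi := congrFun he i
      by_cases hih : i = h
      · subst hih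
        simp only [xI, Finset.mem_insert_self, decide_true] at hi
        simp only [Function.update_self, xI, hK, decide_false]
        rw [hi]; simp
      · simp only [xI] at hi ⊢
        rw [Function.update_of_ne (by simp [hih]), hi]
        simp [hih]
  rw [h1]
  by_cases h3 : (fun i => z (Sum.inl i : Fin n ⊕ A)) = xI (insert h K)
  · rw [if_pos h3, if_pos (h2.mpr h3)]
  · rw [if_neg h3, if_neg (fun h => h3 (h2.mp h))]

theorem norm_start (α : Ket A) (hα : nsq α = 1) (x : Fin n → Bool) :
    ‖(vec (start α x) : HV (Fin n ⊕ A))‖ = 1 := by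
  have h : ‖(vec (start α x) : HV (Fin n ⊕ A))‖ ^ 2 = 1 := by
    unfold vec
    rw [EuclideanSpace.norm_sq_eq]
    have e : ∑ z : Fin n ⊕ A → Bool, ‖start α x z‖ ^ 2 = ∑ w : A → Bool, ‖α w‖ ^ 2 := by
      have e1 : ∀ z : Fin n ⊕ A → Bool, ‖start α x z‖ ^ 2 =
          if (fun i => z (Sum.inl i)) = x then ‖α (fun a => z (Sum.inr a))‖ ^ 2 else 0 := by
        intro z
        unfold start
        split_ifs <;> simp
      rw [Finset.sum_congr rfl (fun z _ => e1 z), ← Finset.sum_filter]
      refine Finset.sum_nbij' (fun z => fun a => z (Sum.inr a)) (fun w => Sum.elim x w) ?_ ?_ ?_ ?_ ?_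
      · intro z _; exact Finset.mem_univ _
      · intro w _
        rw [Finset.mem_filter]
        exact ⟨Finset.mem_univ _, by funext i; rfl⟩
      · intro z hz
        rw [Finset.mem_filter] at hz
        funext q
        rcases q with i | a
        · exact (congrFun hz.2 i).symm
        · rfl
      · intro w _; rfl
      · intro z _; rfl
    have e2 : ∑ z : Fin n ⊕ A → Bool,
        ‖(WithLp.toLp 2 (start α x) : HV (Fin n ⊕ A)) z‖ ^ 2 = 1 := by
      rw [← hα]
      exact e
    exact e2
  have h0 := norm_nonneg (vec (start α x) : HV (Fin n ⊕ A))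
  nlinarith

theorem sum_bool_powerset (f : (Fin n → Bool) → ℂ) :
    ∑ x, f x = ∑ I ∈ (Finset.univ : Finset (Fin n)).powerset, f (xI I) := by
  refine Finset.sum_nbij' (fun x => Finset.univ.filter fun i => x i = true) (fun I => xI I)
    ?_ ?_ ?_ ?_ ?_
  · intro x _
    rw [Finset.mem_powerset]
    exact Finset.subset_univ _
  · intro I _; exact Finset.mem_univ _
  · intro x _
    funext i
    simp [xI]
  · intro I _
    ext i
    simp [xI]
  · intro x _
    congr 1
    funext i
    simp [xI]

theorem ones_xI (I : Finset (Fin n)) : ones (xI I) = I.card := by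
  unfold ones
  congr 1
  ext i
  simp [xI]

theorem prodC_star {𝔄 : Type*} [CStarAlgebra 𝔄] {β : Type*} [DecidableEq β] (I : Finset β)
    (X : β → 𝔄) (hXX : ∀ h h', h ≠ h' → Commute (X h) (X h')) (hs : ∀ h, star (X h) = X h) :
    star (prodC I X hXX) = prodC I X hXX := by
  induction I using Finset.induction_on with
  | empty =>
    have e : prodC ∅ X hXX = 1 := Finset.noncommProd_empty _ _
    rw [e, star_one]
  | insert h I hh ih =>
    rw [prodC_insert I X hXX h hh, star_mul, ih, hs]
    exact ((prodC_commute I X hXX (X h) fun h' hh' =>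
      hXX h h' (fun e => hh (e ▸ hh'))).eq).symm

/-- the signed sum over inputs is controlled by the signed average over flips -/
theorem sum_le_avg (U : Op (Fin n ⊕ A)) (hU : U ∈ unitary (Op (Fin n ⊕ A))) (α : Ket A)
    (hα : nsq α = 1) (M : HV (Fin n ⊕ A) →L[ℂ] HV (Fin n ⊕ A))
    (hXX : ∀ h h' : Fin n, h ≠ h' →
      Commute (act (U * site (Sum.inl h : Fin n ⊕ A) xfl * star U))
        (act (U * site (Sum.inl h' : Fin n ⊕ A) xfl * star U)))
    (hXs : ∀ h : Fin n, star (act (U * site (Sum.inl h : Fin n ⊕ A) xfl * star U)) =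
      act (U * site (Sum.inl h : Fin n ⊕ A) xfl * star U))
    (J : Finset (Fin n)) :
    ‖(1 / 2 ^ n : ℂ) * ∑ x : Fin n → Bool, (-1 : ℂ) ^ ones x *
      ⟪act U (vec (start α x)), M (act U (vec (start α x)))⟫_ℂ‖ ≤
    ‖avgOp J (fun h : Fin n => act (U * site (Sum.inl h : Fin n ⊕ A) xfl * star U)) hXX M‖ := by
  set X : Fin n → HV (Fin n ⊕ A) →L[ℂ] HV (Fin n ⊕ A) :=
    fun h => act (U * site (Sum.inl h : Fin n ⊕ A) xfl * star U) with hX
  set v : Finset (Fin n) → HV (Fin n ⊕ A) := fun K => act U (vec (start α (xI K))) with hv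
  have hUn : ∀ w : HV (Fin n ⊕ A), ‖act U w‖ ≤ ‖w‖ := by
    intro w
    have h1 : ‖act U‖ ≤ 1 := by
      rw [act_norm]
      exact (CStarRing.norm_of_mem_unitary hU).le
    calc ‖act U w‖ ≤ ‖act U‖ * ‖w‖ := (act U).le_opNorm w
      _ ≤ 1 * ‖w‖ := mul_le_mul_of_nonneg_right h1 (norm_nonneg _)
      _ = ‖w‖ := one_mul _
  have hvn : ∀ K, ‖v K‖ ≤ 1 := fun K => (hUn _).trans (norm_start α hα _).le
  have hUU : star U * U = 1 := Unitary.star_mul_self_of_mem hU
  have hstep : ∀ (h : Fin n) (K : Finset (Fin n)), h ∉ K → X h (v K) = v (insert h K) := by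
    intro h K hK
    simp only [hX, hv]
    rw [← top_act_mul_apply]
    have e : U * site (Sum.inl h : Fin n ⊕ A) xfl * star U * U =
        U * site (Sum.inl h : Fin n ⊕ A) xfl := by
      rw [mul_assoc, hUU, mul_one]
    rw [e, top_act_mul_apply, start_flip α K h hK]
  have hprod : ∀ (K L : Finset (Fin n)), Disjoint K L → prodC L X hXX (v K) = v (K ∪ L) := by
    intro K L
    induction L using Finset.induction_on with
    | empty =>
      intro _
      have e : prodC ∅ X hXX = 1 := Finset.noncommProd_empty _ _
      rw [e, Finset.union_empty]; rfl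
    | insert h L hh ih =>
      intro hd
      rw [Finset.disjoint_insert_right] at hd
      rw [prodC_insert L X hXX h hh]
      show X h (prodC L X hXX (v K)) = _
      rw [ih hd.2, hstep h (K ∪ L) (by
        rw [Finset.mem_union, not_or]
        exact ⟨hd.1, hh⟩), Finset.union_insert]
  have hsplit : (Finset.univ : Finset (Fin n)) = Jᶜ ∪ J := by
    rw [Finset.union_comm, Finset.union_compl]
  have hcard : Jᶜ.card + J.card = n := by
    rw [Finset.card_compl, Fintype.card_fin]
    have := Finset.card_le_univ J
    rw [Fintype.card_fin] at this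
    omega
  have hmain : (1 / 2 ^ n : ℂ) * ∑ x : Fin n → Bool, (-1 : ℂ) ^ ones x *
      ⟪act U (vec (start α x)), M (act U (vec (start α x)))⟫_ℂ =
      (1 / 2 ^ Jᶜ.card : ℂ) * ∑ K ∈ Jᶜ.powerset, (-1 : ℂ) ^ K.card *
        ⟪v K, avgOp J X hXX M (v K)⟫_ℂ := by
    rw [sum_bool_powerset (fun x => (-1 : ℂ) ^ ones x *
      ⟪act U (vec (start α x)), M (act U (vec (start α x)))⟫_ℂ), hsplit,
      sum_powerset_union Jᶜ J disjoint_compl_left]
    have hp : (1 / 2 ^ n : ℂ) = (1 / 2 ^ Jᶜ.card) * (1 / 2 ^ J.card) := by
      rw [one_div_mul_one_div, ← pow_add, hcard]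
    rw [hp, mul_assoc, Finset.mul_sum]
    congr 1
    apply Finset.sum_congr rfl
    intro K hK
    rw [Finset.mem_powerset] at hK
    have hterm : ∀ L ∈ J.powerset, (-1 : ℂ) ^ ones (xI (K ∪ L)) *
        ⟪act U (vec (start α (xI (K ∪ L)))), M (act U (vec (start α (xI (K ∪ L)))))⟫_ℂ =
        (-1 : ℂ) ^ K.card * ((-1 : ℂ) ^ L.card *
          ⟪v K, (prodC L X hXX * M * prodC L X hXX) (v K)⟫_ℂ) := by
      intro L hL
      rw [Finset.mem_powerset] at hL
      have hd : Disjoint K L := by
        rw [Finset.disjoint_left]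
        intro i hi hi'
        exact (Finset.mem_compl.mp (hK hi)) (hL hi')
      rw [ones_xI, Finset.card_union_of_disjoint hd, pow_add]
      have h1 : act U (vec (start α (xI (K ∪ L)))) = prodC L X hXX (v K) := (hprod K L hd).symm
      rw [h1, mul_assoc]
      congr 2
      have h2 : star (prodC L X hXX) = prodC L X hXX := prodC_star L X hXX hXs
      have h3 := ContinuousLinearMap.adjoint_inner_right (prodC L X hXX) (v K)
        (M (prodC L X hXX (v K)))
      rw [← ContinuousLinearMap.star_eq_adjoint, h2] at h3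
      rw [← h3]
      rfl
    rw [Finset.sum_congr rfl hterm, ← Finset.mul_sum, ← mul_assoc, mul_comm _ ((-1 : ℂ) ^ K.card),
      mul_assoc]
    congr 1
    unfold avgOp
    rw [_root_.smul_apply, inner_smul_right, _root_.sum_apply, inner_sum]
    congr 1
    apply Finset.sum_congr rfl
    intro L _
    rw [_root_.smul_apply, inner_smul_right]
  rw [hmain]
  apply avg_le
  intro K _
  rw [norm_mul, norm_pow, norm_neg, norm_one, one_pow, one_mul]
  have h1 := hvn K
  have h2 := norm_nonneg (v K)
  have h3 : ‖avgOp J X hXX M (v K)‖ ≤ ‖avgOp J X hXX M‖ := by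
    calc ‖avgOp J X hXX M (v K)‖ ≤ ‖avgOp J X hXX M‖ * ‖v K‖ := ContinuousLinearMap.le_opNorm _ _
      _ ≤ ‖avgOp J X hXX M‖ * 1 := mul_le_mul_of_nonneg_left h1 (norm_nonneg _)
      _ = _ := mul_one _
  calc ‖⟪v K, avgOp J X hXX M (v K)⟫_ℂ‖ ≤ ‖v K‖ * ‖avgOp J X hXX M (v K)‖ :=
        norm_inner_le_norm _ _
    _ ≤ 1 * ‖avgOp J X hXX M‖ := mul_le_mul h1 h3 (norm_nonneg _) zero_le_one
    _ = _ := one_mul _

end Flip

end P368.D3
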