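import Vale.Agent.P368.Upper6

/-! P368 upper bound: parity at entangling depth four. -/

open scoped BigOperators

namespace P368

theorem toffoli_of_pos {V : Type} {c : V → Finset V} {v : V} {z : V → Bool}
    (h : (c v).Nonempty ∧ ∀ w ∈ c v, z w = true) : toffoli c z v = !(z v) := by
  unfold toffoli
  rw [decide_eq_true h, Bool.xor_true]

theorem toffoli_of_neg {V : Type} {c : V → Finset V} {v : V} {z : V → Bool}
    (h : ¬ ((c v).Nonempty ∧ ∀ w ∈ c v, z w = true)) : toffoli c z v = z v := by
  unfold toffoli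
  rw [decide_eq_false h, Bool.xor_false]

section Circ

variable {n m : ℕ}

/-- output probabilities of the last gate. -/
theorem prob_eq {x : Fin n → Bool} {φ : Ket (QQ n m)} (hφ : Supp x φ) (hn : 1 ≤ n) (hm : 1 ≤ m)
    (r : Bool) :
    (∑ z : QQ n m → Bool, if z (Sum.inr (Sum.inr ())) = r then
      ‖oneQubit (fun _ => 1) (tofP c4 (oneQubit (fun v => Xk (κO v)) φ)) z‖ ^ 2 else 0) =
    ∑ a : Fin m × Fin n → Bool, if (decide (a ≠ fun _ => false)) = r then
      ‖φ (mk x a false)‖ ^ 2 else 0 := by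
  rw [oneQubit_one]
  have h1 : ∀ z, tofP c4 (oneQubit (fun v => Xk (κO v)) φ) z =
      φ (fun v => xor (toffoli c4 z v) (κO v)) := by
    intro z
    rw [good_c4.tofP_apply, oneQubit_Xk]
  simp only [h1]
  let e : (QQ n m → Bool) ≃ (QQ n m → Bool) :=
    { toFun := fun z v => xor (toffoli c4 z v) (κO v)
      invFun := fun z => toffoli c4 (fun v => xor (z v) (κO v))
      left_inv := by
        intro z
        have : (fun v => xor (xor (toffoli c4 z v) (κO v)) (κO v)) = toffoli c4 z := by
          funext v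
          simp
        show toffoli c4 (fun v => xor (xor (toffoli c4 z v) (κO v)) (κO v)) = z
        rw [this, good_c4.invol]
      right_inv := by
        intro z
        show (fun v => xor (toffoli c4 (toffoli c4 (fun v => xor (z v) (κO v))) v) (κO v)) = z
        rw [good_c4.invol]
        funext v
        simp }
  have h2 : (∑ z : QQ n m → Bool, if z (Sum.inr (Sum.inr ())) = r then
      ‖φ (fun v => xor (toffoli c4 z v) (κO v))‖ ^ 2 else 0) =
      ∑ z' : QQ n m → Bool, if (e.symm z') (Sum.inr (Sum.inr ())) = r then ‖φ z'‖ ^ 2 else 0 := by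
    rw [← Equiv.sum_comp e (fun z' : QQ n m → Bool =>
      if (e.symm z') (Sum.inr (Sum.inr ())) = r then ‖φ z'‖ ^ 2 else 0)]
    refine Finset.sum_congr rfl fun z _ => ?_
    rw [Equiv.symm_apply_apply]
    rfl
  rw [h2, sum_supp x]
  · refine Finset.sum_congr rfl fun a _ => ?_
    have h3 : (e.symm (mk x a false)) (Sum.inr (Sum.inr ())) = decide (a ≠ fun _ => false) := by
      show toffoli c4 (fun v => xor (mk x a false v) (κO v)) (Sum.inr (Sum.inr ())) = _
      have k1 : ∀ p, xor (mk x a false (Sum.inr (Sum.inl p))) (κO (Sum.inr (Sum.inl p) : QQ n m)) =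
          !(a p) := fun p => Bool.xor_true _
      have k0 : xor (mk x a false (Sum.inr (Sum.inr ()))) (κO (Sum.inr (Sum.inr ()) : QQ n m)) =
          true := rfl
      have hne : (c4 (Sum.inr (Sum.inr ()) : QQ n m)).Nonempty :=
        ⟨_, mem_c4.2 ⟨rfl, (⟨0, by omega⟩, ⟨0, by omega⟩), rfl⟩⟩
      by_cases ha : a = fun _ => false
      · have hall : (c4 (Sum.inr (Sum.inr ()) : QQ n m)).Nonempty ∧
            ∀ w ∈ c4 (Sum.inr (Sum.inr ()) : QQ n m), xor (mk x a false w) (κO w) = true := by
          refine ⟨hne, fun w hw => ?_⟩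
          obtain ⟨-, p, hp⟩ := mem_c4.1 hw
          rw [hp, k1, ha]
          rfl
        rw [toffoli_of_pos hall, decide_eq_false (fun h => h ha)]
        rfl
      · have hall : ¬ ((c4 (Sum.inr (Sum.inr ()) : QQ n m)).Nonempty ∧
            ∀ w ∈ c4 (Sum.inr (Sum.inr ()) : QQ n m), xor (mk x a false w) (κO w) = true) := by
          rintro ⟨-, h⟩
          apply ha
          funext p
          have := h _ (mem_c4.2 ⟨rfl, p, rfl⟩)
          rw [k1] at this
          simpa using this
        rw [toffoli_of_neg hall, decide_eq_true ha]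
        rfl
    rw [h3]
  · intro z hz
    rw [hφ z hz, norm_zero]
    split_ifs <;> norm_num

theorem prob_false {x : Fin n → Bool} {φ : Ket (QQ n m)} :
    (∑ a : Fin m × Fin n → Bool, if (decide (a ≠ fun _ => false)) = false then
      ‖φ (mk x a false)‖ ^ 2 else 0) = ‖φ (mk x (fun _ => false) false)‖ ^ 2 := by
  rw [Finset.sum_eq_single (fun _ => false)]
  · rw [if_pos]
    simp
  · intro a _ ha
    rw [if_neg]
    simp [ha]
  · intro h
    exact absurd (Finset.mem_univ _) h

theorem prob_true {x : Fin n → Bool} {φ : Ket (QQ n m)} (hφ : Supp x φ) (h1 : nsq φ = 1) :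
    (∑ a : Fin m × Fin n → Bool, if (decide (a ≠ fun _ => false)) = true then
      ‖φ (mk x a false)‖ ^ 2 else 0) = 1 - ‖φ (mk x (fun _ => false) false)‖ ^ 2 := by
  have h2 : nsq φ = ∑ a : Fin m × Fin n → Bool, ‖φ (mk x a false)‖ ^ 2 := by
    unfold nsq
    rw [sum_supp x]
    intro z hz
    rw [hφ z hz, norm_zero]
    norm_num
  rw [h1] at h2
  rw [h2, ← prob_false (x := x) (φ := φ), ← Finset.sum_sub_distrib]
  refine Finset.sum_congr rfl fun a _ => ?_
  by_cases ha : a = fun _ => false
  · simp [ha]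
  · simp [ha]

end Circ

/-- Parity is computed at entangling depth four with any prescribed worst-case error `δ`. -/
theorem depth_four : ∃ C : ℝ, 0 < C ∧ ∀ n : ℕ, 2 ≤ n → ∀ δ : ℝ, 0 < δ → δ ≤ 1 →
    ∃ m : ℕ, (m : ℝ) ≤ (C * n / δ) ^ n ∧
    ∃ (L : List (Layer (Fin n ⊕ (Fin m × Fin n ⊕ Unit))))
      (F : (Fin n ⊕ (Fin m × Fin n ⊕ Unit)) → Matrix Bool Bool ℂ),
      L.length = 4 ∧ (∀ l ∈ L, l.Valid) ∧ (∀ v, F v ∈ Matrix.unitaryGroup Bool ℂ) ∧
      ∀ x : Fin n → Bool, 1 - δ ≤ prob L F (Sum.inr (Sum.inr ())) (zeros _) x (par x) := by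
  refine ⟨32, by norm_num, ?_⟩
  intro n hn δ hδ hδ1
  obtain ⟨m, ε, s, hm, hmb, h, hamp⟩ := choose_params hn hδ hδ1
  have i0 : Fin n := ⟨0, by omega⟩
  refine ⟨m, hmb, [La i0 ε s, Lb i0 ε s, Lc i0 ε s, Ld i0 ε s], fun _ => 1, rfl, ?_,
    fun v => one_mem _, ?_⟩
  · intro l hl
    simp only [List.mem_cons, List.not_mem_nil, or_false] at hl
    rcases hl with rfl | rfl | rfl | rfl
    · exact valid_La i0 h
    · exact valid_Lb i0 h
    · exact valid_Lc i0 h
    · exact valid_Ld i0 h
  · intro x
    have hsupp : Supp x (opR i0 ε s (opG (opR i0 ε s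
        (start (zeros (Fin m × Fin n ⊕ Unit)) x : Ket (QQ n m))))) :=
      supp_opR i0 ε s (supp_opG (supp_opR i0 ε s (supp_start x)))
    have hnorm : nsq (opR i0 ε s (opG (opR i0 ε s
        (start (zeros (Fin m × Fin n ⊕ Unit)) x : Ket (QQ n m))))) = 1 := by
      rw [nsq_opR i0 h, nsq_opG, nsq_opR i0 h, nsq_start]
    have hprob : prob [La i0 ε s, Lb i0 ε s, Lc i0 ε s, Ld i0 ε s] (fun _ => 1)
        (Sum.inr (Sum.inr ())) (zeros (Fin m × Fin n ⊕ Unit)) x (par x) =
        ∑ a : Fin m × Fin n → Bool, if (decide (a ≠ fun _ => false)) = par x then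
          ‖opR i0 ε s (opG (opR i0 ε s
            (start (zeros (Fin m × Fin n ⊕ Unit)) x : Ket (QQ n m)))) (mk x a false)‖ ^ 2 else 0 := by
      unfold prob
      rw [run_eq]
      exact prob_eq hsupp (by omega) hm (par x)
    rw [hprob]
    have ha := hamp x
    set A := amp n m ε s x with hA
    have hAn : ‖opR i0 ε s (opG (opR i0 ε s
            (start (zeros (Fin m × Fin n ⊕ Unit)) x : Ket (QQ n m))))
            (mk x (fun _ => false) false)‖ ^ 2 = A ^ 2 := by
      rw [amp_final hn hm i0 h x, Complex.norm_real, Real.norm_eq_abs, sq_abs]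
    rcases Nat.even_or_odd (Finset.univ.filter fun i => x i = true).card with hpar | hpar
    · have hp : par x = false := by
        unfold par
        rw [decide_eq_false_iff_not, Nat.not_odd_iff_even]
        exact hpar
      rw [hp, prob_false, hAn]
      rw [hpar.neg_one_pow] at ha
      have h2 := (abs_le.1 ha).1
      nlinarith
    · have hp : par x = true := by
        unfold par
        exact decide_eq_true hpar
      rw [hp, prob_true hsupp hnorm, hAn]
      rw [hpar.neg_one_pow] at ha
      have h2 := abs_le.1 ha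
      nlinarith [h2.1, h2.2]

end P368
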