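import Vale.Agent.P368.Defs

/-! P368 upper bound: calculus of the circuit model. -/

open scoped BigOperators

namespace P368

section Calculus

variable {V : Type} [Fintype V] [DecidableEq V]

theorem sum_prod_pi (f : V → Bool → ℂ) : ∑ y : V → Bool, ∏ v, f v (y v) = ∏ v, ∑ b, f v b := by
  rw [Finset.prod_univ_sum, Fintype.piFinset_univ]

theorem oneQubit_comp (W W' : V → Matrix Bool Bool ℂ) (ψ : Ket V) :
    oneQubit W (oneQubit W' ψ) = oneQubit (fun v => W v * W' v) ψ := by
  funext z
  unfold oneQubit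
  simp only [Finset.mul_sum]
  rw [Finset.sum_comm]
  refine Finset.sum_congr rfl fun y' _ => ?_
  have h : ∏ v, (W v * W' v) (z v) (y' v) = ∑ y : V → Bool, ∏ v, (W v (z v) (y v) * W' v (y v) (y' v)) := by
    rw [sum_prod_pi (fun v b => W v (z v) b * W' v b (y' v))]
    refine Finset.prod_congr rfl fun v _ => ?_
    rw [Matrix.mul_apply]
  rw [h, Finset.sum_mul]
  refine Finset.sum_congr rfl fun y _ => ?_
  rw [Finset.prod_mul_distrib]
  ring

theorem oneQubit_monomial (σ : V → Bool → Bool) (d : V → Bool → ℂ) (W : V → Matrix Bool Bool ℂ)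
    (hW : ∀ v a b, W v a b = if b = σ v a then d v a else 0) (ψ : Ket V) (z : V → Bool) :
    oneQubit W ψ z = (∏ v, d v (z v)) * ψ (fun v => σ v (z v)) := by
  unfold oneQubit
  rw [Finset.sum_eq_single (fun v => σ v (z v))]
  · congr 1
    refine Finset.prod_congr rfl fun v _ => ?_
    rw [hW, if_pos rfl]
  · intro y _ hy
    have : ∃ v, y v ≠ σ v (z v) := by
      by_contra h
      push Not at h
      exact hy (funext h)
    obtain ⟨v, hv⟩ := this
    rw [Finset.prod_eq_zero (Finset.mem_univ v), zero_mul]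
    rw [hW, if_neg hv]
  · intro h
    exact absurd (Finset.mem_univ _) h

theorem oneQubit_one (ψ : Ket V) : oneQubit (fun _ => 1) ψ = ψ := by
  funext z
  rw [oneQubit_monomial (fun _ b => b) (fun _ _ => 1) _ ?_]
  · simp
  · intro v a b
    rw [Matrix.one_apply]
    simp [eq_comm]

/-- the permutation part of a layer. -/
noncomputable def tofP (c : V → Finset V) (ψ : Ket V) : Ket V :=
  fun z => ∑ y : V → Bool, if toffoli c y = z then ψ y else 0

theorem act_eq (L : Layer V) (ψ : Ket V) : L.act ψ = tofP L.ctrl (oneQubit L.W ψ) := rfl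

/-- validity of the gate pattern. -/
structure GoodC (c : V → Finset V) : Prop where
  nt : ∀ v, v ∉ c v
  dj : ∀ v w, v ≠ w → (c v).Nonempty → (c w).Nonempty → Disjoint (insert v (c v)) (insert w (c w))

omit [Fintype V] in
theorem GoodC.empty {c : V → Finset V} (hc : GoodC c) {v w : V} (h : w ∈ c v) : ¬ (c w).Nonempty := by
  intro hw
  have hvw : v ≠ w := by
    rintro rfl
    exact hc.nt v h
  have := hc.dj v w hvw ⟨w, h⟩ hw
  rw [Finset.disjoint_left] at this
  exact this (Finset.mem_insert_of_mem h) (Finset.mem_insert_self _ _)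

omit [Fintype V] [DecidableEq V] in
theorem toffoli_of_empty {c : V → Finset V} {v : V} (h : ¬ (c v).Nonempty) (z : V → Bool) :
    toffoli c z v = z v := by
  unfold toffoli
  simp [h]

omit [Fintype V] in
theorem GoodC.invol {c : V → Finset V} (hc : GoodC c) (z : V → Bool) :
    toffoli c (toffoli c z) = z := by
  funext v
  have h1 : ∀ w ∈ c v, toffoli c z w = z w := fun w hw => toffoli_of_empty (hc.empty hw) z
  have h2 : ((c v).Nonempty ∧ ∀ w ∈ c v, toffoli c z w = true) ↔
      ((c v).Nonempty ∧ ∀ w ∈ c v, z w = true) := by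
    constructor
    · rintro ⟨h, h'⟩
      exact ⟨h, fun w hw => by rw [← h1 w hw]; exact h' w hw⟩
    · rintro ⟨h, h'⟩
      exact ⟨h, fun w hw => by rw [h1 w hw]; exact h' w hw⟩
  have h4 : ∀ y : V → Bool, toffoli c y v = xor (y v)
      (decide ((c v).Nonempty ∧ ∀ w ∈ c v, y w = true)) := fun y => rfl
  have h5 : decide ((c v).Nonempty ∧ ∀ w ∈ c v, toffoli c z w = true) =
      decide ((c v).Nonempty ∧ ∀ w ∈ c v, z w = true) := decide_eq_decide.2 h2
  rw [h4 (toffoli c z), h5, h4 z]
  simp

theorem GoodC.tofP_apply {c : V → Finset V} (hc : GoodC c) (ψ : Ket V) (z : V → Bool) :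
    tofP c ψ z = ψ (toffoli c z) := by
  unfold tofP
  rw [Finset.sum_eq_single (toffoli c z)]
  · rw [if_pos (hc.invol z)]
  · intro y _ hy
    rw [if_neg]
    rintro rfl
    exact hy (hc.invol y).symm
  · intro h
    exact absurd (Finset.mem_univ _) h

/-- the Hadamard matrix. -/
noncomputable def Hd : Matrix Bool Bool ℂ :=
  fun a b => ((Real.sqrt 2)⁻¹ : ℝ) * (if a && b then -1 else 1)

theorem inv_sqrt_two_sq : (((Real.sqrt 2)⁻¹ : ℝ) : ℂ) * (((Real.sqrt 2)⁻¹ : ℝ) : ℂ) = 1 / 2 := by
  rw [← Complex.ofReal_mul, ← mul_inv, Real.mul_self_sqrt (by norm_num)]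
  norm_num

theorem Hd_conj (κ : Bool) (a b : Bool) :
    ∑ x : Bool, Hd a x * Hd (xor x κ) b =
      if b = a then (if κ && a then -1 else 1) else 0 := by
  have h := inv_sqrt_two_sq
  unfold Hd
  rw [Fintype.sum_bool]
  cases κ <;> cases a <;> cases b <;>
    simp only [Bool.and_true, Bool.and_false, Bool.not_true, Bool.not_false, if_true, if_false,
      Bool.false_eq_true, reduceCtorEq, mul_one, Bool.xor_false, Bool.xor_true] <;>
    first
      | linear_combination 2 * h
      | linear_combination (-2) * h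
      | ring

/-- Hadamard on the targets. -/
noncomputable def Hs (c : V → Finset V) (v : V) : Matrix Bool Bool ℂ :=
  if (c v).Nonempty then Hd else 1

/-- sign of the multi-controlled phase gates. -/
noncomputable def sgn (c : V → Finset V) (z : V → Bool) : ℂ :=
  ∏ v, if (c v).Nonempty ∧ z v = true ∧ ∀ w ∈ c v, z w = true then -1 else 1

/-- bit flips. -/
noncomputable def Xk (κ : Bool) : Matrix Bool Bool ℂ := fun a b => if b = xor a κ then 1 else 0

theorem oneQubit_Xk (κ : V → Bool) (φ : Ket V) :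
    oneQubit (fun v => Xk (κ v)) φ = fun y => φ (fun v => xor (y v) (κ v)) := by
  funext y
  rw [oneQubit_monomial (fun v a => xor a (κ v)) (fun _ _ => 1) (fun v => Xk (κ v))
    (fun v a b => rfl)]
  simp

theorem conj_toffoli {c : V → Finset V} (hc : GoodC c) (ψ : Ket V) :
    oneQubit (Hs c) (tofP c (oneQubit (Hs c) ψ)) = fun z => sgn c z * ψ z := by
  funext z
  set κ : V → Bool := fun v => decide ((c v).Nonempty ∧ ∀ w ∈ c v, z w = true) with hκ
  set φ := oneQubit (Hs c) ψ with hφ
  have h1 : oneQubit (Hs c) (tofP c φ) z =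
      oneQubit (Hs c) (fun y => φ (fun v => xor (y v) (κ v))) z := by
    unfold oneQubit
    refine Finset.sum_congr rfl fun y _ => ?_
    by_cases hy : ∀ v, ¬ (c v).Nonempty → y v = z v
    · congr 1
      rw [hc.tofP_apply]
      congr 1
      funext v
      unfold toffoli
      rw [hκ]
      congr 1
      refine decide_eq_decide.2 ?_
      constructor
      · rintro ⟨h, h'⟩
        exact ⟨h, fun w hw => by rw [← hy w (hc.empty hw)]; exact h' w hw⟩
      · rintro ⟨h, h'⟩
        exact ⟨h, fun w hw => by rw [hy w (hc.empty hw)]; exact h' w hw⟩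
    · push Not at hy
      obtain ⟨v, hv, hyv⟩ := hy
      have h0 : ∏ v, Hs c v (z v) (y v) = 0 := by
        refine Finset.prod_eq_zero (Finset.mem_univ v) ?_
        unfold Hs
        rw [if_neg (by rw [hv]; exact Finset.not_nonempty_empty), Matrix.one_apply,
          if_neg (fun h => hyv h.symm)]
      rw [h0, zero_mul, zero_mul]
  rw [h1, ← oneQubit_Xk, hφ, oneQubit_comp, oneQubit_comp,
    oneQubit_monomial (fun _ a => a) (fun v a => if κ v && a then -1 else 1)]
  · congr 1
    unfold sgn
    refine Finset.prod_congr rfl fun v _ => ?_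
    have : (κ v && z v) = true ↔ ((c v).Nonempty ∧ z v = true ∧ ∀ w ∈ c v, z w = true) := by
      rw [Bool.and_eq_true, hκ]
      simp only [decide_eq_true_eq]
      tauto
    by_cases h : (κ v && z v) = true
    · rw [if_pos h, if_pos (this.1 h)]
    · rw [if_neg h, if_neg (fun h' => h (this.2 h'))]
  · intro v a b
    by_cases h : (c v).Nonempty
    · have hH : Hs c v = Hd := if_pos h
      have hX : ∀ x y, Xk (κ v) x y = if y = xor x (κ v) then 1 else 0 := fun x y => rfl
      rw [hH, mul_assoc, Matrix.mul_apply, ← Hd_conj (κ v) a b]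
      refine Finset.sum_congr rfl fun x _ => ?_
      congr 1
      rw [Matrix.mul_apply, Finset.sum_eq_single (xor x (κ v))]
      · rw [hX, if_pos rfl, one_mul]
      · intro y _ hy
        rw [hX, if_neg hy, zero_mul]
      · intro h'
        exact absurd (Finset.mem_univ _) h'
    · have hH : Hs c v = 1 := if_neg h
      have hκv : κ v = false := by
        rw [hκ]
        simp [h]
      have hX : ∀ x y, Xk false x y = if y = xor x false then 1 else 0 := fun x y => rfl
      rw [hH, hκv, one_mul, mul_one, hX]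
      simp

/-- the inner product. -/
noncomputable def ip (f g : Ket V) : ℂ := ∑ z, star (f z) * g z

theorem ip_oneQubit (W : V → Matrix Bool Bool ℂ) (f g : Ket V) :
    ip f (oneQubit W g) = ip (oneQubit (fun v => star (W v)) f) g := by
  unfold ip oneQubit
  simp only [Finset.mul_sum]
  rw [Finset.sum_comm]
  refine Finset.sum_congr rfl fun y _ => ?_
  rw [star_sum, Finset.sum_mul]
  refine Finset.sum_congr rfl fun z _ => ?_
  rw [star_mul', star_prod]
  have : ∏ v, star (star (W v) (y v) (z v)) = ∏ v, W v (z v) (y v) := by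
    refine Finset.prod_congr rfl fun v _ => ?_
    rw [Matrix.star_apply, star_star]
  rw [this]
  ring

theorem ip_diag (d : (V → Bool) → ℂ) (hd : ∀ z, star (d z) = d z) (f g : Ket V) :
    ip f (fun z => d z * g z) = ip (fun z => d z * f z) g := by
  unfold ip
  refine Finset.sum_congr rfl fun z _ => ?_
  rw [star_mul', hd]
  ring

theorem nsq_eq_ip (ψ : Ket V) : (nsq ψ : ℂ) = ip ψ ψ := by
  unfold nsq ip
  push_cast
  refine Finset.sum_congr rfl fun z _ => ?_
  have := Complex.conj_mul' (ψ z)
  rw [← this]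
  rfl

theorem nsq_oneQubit {W : V → Matrix Bool Bool ℂ} (hW : ∀ v, W v ∈ Matrix.unitaryGroup Bool ℂ)
    (ψ : Ket V) : nsq (oneQubit W ψ) = nsq ψ := by
  have h : (nsq (oneQubit W ψ) : ℂ) = nsq ψ := by
    rw [nsq_eq_ip, nsq_eq_ip, ip_oneQubit, oneQubit_comp]
    have : (fun v => star (W v) * W v) = fun _ => 1 := by
      funext v
      exact Matrix.mem_unitaryGroup_iff'.1 (hW v)
    rw [this, oneQubit_one]
  exact_mod_cast h

theorem nsq_diag (d : (V → Bool) → ℂ) (hd : ∀ z, ‖d z‖ = 1) (ψ : Ket V) :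
    nsq (fun z => d z * ψ z) = nsq ψ := by
  unfold nsq
  refine Finset.sum_congr rfl fun z _ => ?_
  rw [norm_mul, hd, one_mul]

theorem sgn_star (c : V → Finset V) (z : V → Bool) : star (sgn c z) = sgn c z := by
  unfold sgn
  rw [star_prod]
  refine Finset.prod_congr rfl fun v _ => ?_
  split_ifs <;> simp

theorem sgn_norm (c : V → Finset V) (z : V → Bool) : ‖sgn c z‖ = 1 := by
  unfold sgn
  rw [norm_prod]
  refine Finset.prod_eq_one fun v _ => ?_
  split_ifs <;> simp

theorem Hd_star : star Hd = Hd := by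
  ext a b
  rw [Matrix.star_apply]
  unfold Hd
  cases a <;> cases b <;> simp

theorem Hd_mul : Hd * Hd = 1 := by
  ext a b
  rw [Matrix.mul_apply, Matrix.one_apply]
  have := Hd_conj false a b
  simp only [Bool.xor_false, Bool.false_and, Bool.false_eq_true, if_false] at this
  rw [this]
  simp [eq_comm]

theorem Hd_mem : Hd ∈ Matrix.unitaryGroup Bool ℂ := by
  rw [Matrix.mem_unitaryGroup_iff, Hd_star, Hd_mul]

omit [Fintype V] [DecidableEq V] in
theorem Hs_mem (c : V → Finset V) (v : V) : Hs c v ∈ Matrix.unitaryGroup Bool ℂ := by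
  unfold Hs
  split_ifs
  · exact Hd_mem
  · exact one_mem _

theorem Xk_star (κ : Bool) : star (Xk κ) = Xk κ := by
  ext a b
  rw [Matrix.star_apply]
  unfold Xk
  cases a <;> cases b <;> cases κ <;> simp

theorem Xk_mul (κ : Bool) : Xk κ * Xk κ = 1 := by
  ext a b
  rw [Matrix.mul_apply, Matrix.one_apply, Fintype.sum_bool]
  unfold Xk
  cases a <;> cases b <;> cases κ <;> simp

theorem Xk_mem (κ : Bool) : Xk κ ∈ Matrix.unitaryGroup Bool ℂ := by
  rw [Matrix.mem_unitaryGroup_iff, Xk_star, Xk_mul]

/-- the reflection sending `1` to `(ε, s)`. -/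
noncomputable def Vm (ε s : ℝ) : Matrix Bool Bool ℂ :=
  fun a b => if b then (if a then (s : ℂ) else ε) else (if a then (ε : ℂ) else -s)

theorem Vm_star (ε s : ℝ) : star (Vm ε s) = Vm ε s := by
  ext a b
  rw [Matrix.star_apply]
  unfold Vm
  cases a <;> cases b <;> simp

theorem Vm_mul {ε s : ℝ} (h : ε ^ 2 + s ^ 2 = 1) : Vm ε s * Vm ε s = 1 := by
  have h' : (ε : ℂ) ^ 2 + (s : ℂ) ^ 2 = 1 := by exact_mod_cast h
  ext a b
  rw [Matrix.mul_apply, Matrix.one_apply, Fintype.sum_bool]
  unfold Vm
  cases a <;> cases b <;> simp <;> first | linear_combination h' | ring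

theorem Vm_mem {ε s : ℝ} (h : ε ^ 2 + s ^ 2 = 1) : Vm ε s ∈ Matrix.unitaryGroup Bool ℂ := by
  rw [Matrix.mem_unitaryGroup_iff, Vm_star, Vm_mul h]

end Calculus

end P368
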