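import Vale.Agent.P368.Upper1

/-! P368 upper bound: the amplitude sums. -/

open scoped BigOperators

namespace P368

theorem sum_blocks {R : Type} [CommSemiring R] {m n : ℕ} (f : Fin m → (Fin n → Bool) → R) :
    ∑ a : Fin m × Fin n → Bool, ∏ b, f b (fun i => a (b, i)) = ∏ b, ∑ y, f b y := by
  rw [Finset.prod_univ_sum, Fintype.piFinset_univ]
  exact Fintype.sum_equiv (Equiv.curry (Fin m) (Fin n) Bool) _ _ (fun a => rfl)

/-- amplitudes of a row after the first reflection. -/
noncomputable def rho {n : ℕ} (ε s : ℝ) (y : Fin n → Bool) : ℝ :=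
  (if ∀ i, y i = false then 1 else 0) - 2 * ε ^ n * ∏ i, (if y i then s else ε)

theorem row_sum {n : ℕ} {ε s : ℝ} (h : ε ^ 2 + s ^ 2 = 1) (z : Fin n → Bool) :
    ∑ y : Fin n → Bool, (∏ i, Vm ε s (z i) (y i)) * ((if ∀ i, y i = true then (-1 : ℂ) else 1) *
      ∏ i, Vm ε s (y i) false) = (rho ε s z : ℂ) := by
  have h1 : ∀ y : Fin n → Bool, (∏ i, Vm ε s (z i) (y i)) *
      ((if ∀ i, y i = true then (-1 : ℂ) else 1) * ∏ i, Vm ε s (y i) false) =
      (∏ i, (Vm ε s (z i) (y i) * Vm ε s (y i) false)) -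
      (if y = (fun _ => true) then 2 * (∏ i, (Vm ε s (z i) (y i) * Vm ε s (y i) false)) else 0) := by
    intro y
    rw [Finset.prod_mul_distrib]
    by_cases hy : ∀ i, y i = true
    · rw [if_pos hy, if_pos (funext hy)]
      ring
    · rw [if_neg hy, if_neg (fun h' => hy (fun i => congrFun h' i))]
      ring
  rw [Finset.sum_congr rfl (fun y _ => h1 y), Finset.sum_sub_distrib, Finset.sum_ite_eq' Finset.univ,
    if_pos (Finset.mem_univ _), sum_prod_pi (fun i b => Vm ε s (z i) b * Vm ε s b false)]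
  have h2 : ∀ i, ∑ b, Vm ε s (z i) b * Vm ε s b false = if z i = false then 1 else 0 := by
    intro i
    rw [← Matrix.mul_apply, Vm_mul h, Matrix.one_apply]
  rw [Finset.prod_congr rfl (fun i _ => h2 i)]
  have h3 : ∏ i, (if z i = false then (1 : ℂ) else 0) = if ∀ i, z i = false then 1 else 0 := by
    by_cases hz : ∀ i, z i = false
    · rw [if_pos hz]
      exact Finset.prod_eq_one fun i _ => if_pos (hz i)
    · rw [if_neg hz]
      push Not at hz
      obtain ⟨i, hi⟩ := hz
      exact Finset.prod_eq_zero (Finset.mem_univ i) (if_neg hi)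
  have h4 : ∏ i, (Vm ε s (z i) true * Vm ε s true false) =
      (ε : ℂ) ^ n * ∏ i, (if z i then (s : ℂ) else ε) := by
    rw [Finset.prod_mul_distrib]
    have : ∏ i : Fin n, Vm ε s true false = (ε : ℂ) ^ n := by
      rw [Finset.prod_const, Finset.card_univ, Fintype.card_fin]
      rfl
    rw [this, mul_comm]
    congr 1
  rw [h3, h4]
  unfold rho
  push_cast
  have h5 : ∏ i, (((if z i then s else ε : ℝ)) : ℂ) = ∏ i, (if z i then (s : ℂ) else ε) := by
    refine Finset.prod_congr rfl fun i _ => ?_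
    split_ifs <;> rfl
  rw [← h5]
  split_ifs
  · push_cast
    ring
  · push_cast
    ring

theorem sum_prod_pi_real {n : ℕ} (f : Fin n → Bool → ℝ) :
    ∑ y : Fin n → Bool, ∏ v, f v (y v) = ∏ v, ∑ b, f v b := by
  rw [Finset.prod_univ_sum, Fintype.piFinset_univ]

theorem rho_sq_sum {n : ℕ} {ε s : ℝ} (h : ε ^ 2 + s ^ 2 = 1) (I : Finset (Fin n)) :
    ∑ y : Fin n → Bool, (rho ε s y) ^ 2 * (if ∀ i ∈ I, y i = false then 1 else 0) =
      1 - 4 * ε ^ (2 * n) * (1 - ε ^ (2 * I.card)) := by
  have h1 : ∀ y : Fin n → Bool, (rho ε s y) ^ 2 * (if ∀ i ∈ I, y i = false then 1 else 0) =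
      (if y = (fun _ => false) then 1 - 4 * ε ^ (2 * n) else 0) +
      4 * ε ^ (2 * n) * ∏ i, ((if y i then s else ε) ^ 2 *
        (if i ∈ I then (if y i then 0 else 1) else 1)) := by
    intro y
    have hI : (if ∀ i ∈ I, y i = false then (1 : ℝ) else 0) =
        ∏ i, (if i ∈ I then (if y i then (0 : ℝ) else 1) else 1) := by
      by_cases hy : ∀ i ∈ I, y i = false
      · rw [if_pos hy]
        symm
        refine Finset.prod_eq_one fun i _ => ?_
        by_cases hi : i ∈ I
        · rw [if_pos hi, hy i hi]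
          simp
        · rw [if_neg hi]
      · rw [if_neg hy]
        push Not at hy
        obtain ⟨i, hi, hy⟩ := hy
        symm
        refine Finset.prod_eq_zero (Finset.mem_univ i) ?_
        rw [if_pos hi]
        simp [hy]
    rw [Finset.prod_mul_distrib, ← hI, Finset.prod_pow]
    unfold rho
    by_cases h0 : ∀ i, y i = false
    · have hI' : ∀ i ∈ I, y i = false := fun i _ => h0 i
      rw [if_pos h0, if_pos hI', if_pos (funext h0)]
      have hp : ∏ i, (if y i then s else ε) = ε ^ n := by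
        rw [Finset.prod_congr rfl (g := fun _ => ε) (fun i _ => by simp [h0 i]),
          Finset.prod_const, Finset.card_univ, Fintype.card_fin]
      rw [hp]
      ring
    · rw [if_neg h0, if_neg (fun h' => h0 (fun i => congrFun h' i))]
      ring
  rw [Finset.sum_congr rfl (fun y _ => h1 y), Finset.sum_add_distrib, Finset.sum_ite_eq' Finset.univ,
    if_pos (Finset.mem_univ _), ← Finset.mul_sum,
    sum_prod_pi_real (fun i b => (if b then s else ε) ^ 2 *
        (if i ∈ I then (if b then 0 else 1) else 1))]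
  have h2 : ∀ i, ∑ b : Bool, ((if b then s else ε) ^ 2 *
        (if i ∈ I then (if b then (0 : ℝ) else 1) else 1)) = if i ∈ I then ε ^ 2 else 1 := by
    intro i
    rw [Fintype.sum_bool]
    by_cases hi : i ∈ I
    · simp [hi]
    · simp [hi]
      linarith
  rw [Finset.prod_congr rfl (fun i _ => h2 i), Finset.prod_ite, Finset.prod_const, Finset.prod_const,
    one_pow, mul_one]
  have h3 : (Finset.univ.filter fun i => i ∈ I) = I := by simp
  rw [h3, ← pow_mul]
  ring

/-- the amplitude of the zero string -/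
noncomputable def amp (n m : ℕ) (ε s : ℝ) (x : Fin n → Bool) : ℝ :=
  ∑ a : Fin m × Fin n → Bool, (∏ b, rho ε s (fun i => a (b, i))) ^ 2 *
    ∏ i, (if x i = true ∧ ∀ b, a (b, i) = false then -1 else 1)

theorem amp_eq {n m : ℕ} {ε s : ℝ} (h : ε ^ 2 + s ^ 2 = 1) (x : Fin n → Bool) :
    amp n m ε s x = ∑ I ∈ (Finset.univ.filter fun i => x i = true).powerset,
      (-2 : ℝ) ^ I.card * (1 - 4 * ε ^ (2 * n) * (1 - ε ^ (2 * I.card))) ^ m := by
  set S := Finset.univ.filter fun i => x i = true with hS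
  have h1 : ∀ a : Fin m × Fin n → Bool,
      ∏ i, (if x i = true ∧ ∀ b, a (b, i) = false then (-1 : ℝ) else 1) =
      ∑ I ∈ S.powerset, (-2 : ℝ) ^ I.card * ∏ b : Fin m, (if ∀ i ∈ I, a (b, i) = false then 1 else 0) := by
    intro a
    have e1 : ∏ i, (if x i = true ∧ ∀ b, a (b, i) = false then (-1 : ℝ) else 1) =
        ∏ i ∈ S, (1 + (-2) * (if ∀ b, a (b, i) = false then (1 : ℝ) else 0)) := by
      rw [hS, Finset.prod_filter]
      refine Finset.prod_congr rfl fun i _ => ?_
      by_cases hx : x i = true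
      · by_cases hb : ∀ b, a (b, i) = false
        · rw [if_pos ⟨hx, hb⟩, if_pos hx, if_pos hb]
          norm_num
        · rw [if_neg (fun h' => hb h'.2), if_pos hx, if_neg hb]
          norm_num
      · rw [if_neg (fun h' => hx h'.1), if_neg hx]
    rw [e1, Finset.prod_one_add]
    refine Finset.sum_congr rfl fun I _ => ?_
    rw [Finset.prod_mul_distrib, Finset.prod_const]
    congr 1
    by_cases hI : ∀ b, ∀ i ∈ I, a (b, i) = false
    · rw [Finset.prod_eq_one (fun i hi => if_pos (fun b => hI b i hi)),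
        Finset.prod_eq_one (fun b _ => if_pos (hI b))]
    · push Not at hI
      obtain ⟨b, i, hi, hne⟩ := hI
      rw [Finset.prod_eq_zero hi (if_neg (fun h' => hne (h' b))),
        Finset.prod_eq_zero (Finset.mem_univ b) (if_neg (fun h' => hne (h' i hi)))]
  unfold amp
  simp only [h1, Finset.mul_sum]
  rw [Finset.sum_comm]
  refine Finset.sum_congr rfl fun I _ => ?_
  have h2 : ∀ a : Fin m × Fin n → Bool, (∏ b, rho ε s (fun i => a (b, i))) ^ 2 *
      ((-2 : ℝ) ^ I.card * ∏ b : Fin m, (if ∀ i ∈ I, a (b, i) = false then 1 else 0)) =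
      (-2 : ℝ) ^ I.card * ∏ b : Fin m, ((rho ε s (fun i => a (b, i))) ^ 2 *
        (if ∀ i ∈ I, a (b, i) = false then 1 else 0)) := by
    intro a
    rw [Finset.prod_mul_distrib, Finset.prod_pow]
    ring
  rw [Finset.sum_congr rfl (fun a _ => h2 a), ← Finset.mul_sum]
  congr 1
  have h3 := sum_blocks (R := ℝ) (m := m) (n := n) (fun _ y => (rho ε s y) ^ 2 *
    (if ∀ i ∈ I, y i = false then 1 else 0))
  rw [h3, Finset.prod_const, Finset.card_univ, Fintype.card_fin, rho_sq_sum h]

end P368
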