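import Vale.Agent.P368.Upper2

/-! P368 upper bound: numerical estimates. -/

open scoped BigOperators

namespace P368

theorem pow_sub_pow_le_mul {a b : ℝ} (hb : 0 ≤ b) (hab : b ≤ a) (ha : a ≤ 1) (m : ℕ) :
    a ^ m - b ^ m ≤ m * (a - b) := by
  induction m with
  | zero => simp
  | succ m ih =>
    have h1 : a ^ (m + 1) - b ^ (m + 1) = a * (a ^ m - b ^ m) + (a - b) * b ^ m := by
      rw [pow_succ, pow_succ]; ring
    have h2 : 0 ≤ a ^ m - b ^ m := sub_nonneg.2 (pow_le_pow_left₀ hb hab m)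
    have h3 : b ^ m ≤ 1 := pow_le_one₀ hb (hab.trans ha)
    have h4 : a * (a ^ m - b ^ m) ≤ 1 * (a ^ m - b ^ m) := mul_le_mul_of_nonneg_right ha h2
    have h5 : (a - b) * b ^ m ≤ (a - b) * 1 := mul_le_mul_of_nonneg_left h3 (by linarith)
    rw [h1]
    push_cast
    linarith

theorem exists_m {t : ℝ} (ht : 0 < t) (ht1 : t ≤ 1 / 2) :
    ∃ m : ℕ, 1 ≤ m ∧ (m : ℝ) * t ≤ 1 + t ∧ |(1 - t) ^ m - 1 / 2| ≤ t / 2 := by
  have hex : ∃ m : ℕ, (1 - t) ^ m ≤ 1 / 2 :=
    (exists_pow_lt_of_lt_one (by norm_num) (by linarith)).imp fun m h => h.le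
  obtain ⟨m, hm, hmin⟩ : ∃ m, (1 - t) ^ m ≤ 1 / 2 ∧ ∀ k < m, ¬ (1 - t) ^ k ≤ 1 / 2 :=
    ⟨Nat.find hex, Nat.find_spec hex, fun k hk => Nat.find_min hex hk⟩
  have hm1 : 1 ≤ m := by
    rcases Nat.eq_zero_or_pos m with h | h
    · rw [h, pow_zero] at hm
      norm_num at hm
    · exact h
  obtain ⟨k, rfl⟩ : ∃ k, m = k + 1 := ⟨m - 1, by omega⟩
  have hk := hmin k (Nat.lt_succ_self k)
  push Not at hk
  refine ⟨k + 1, hm1, ?_, ?_⟩
  · have h1 : 1 + (k : ℝ) * t ≤ (1 + t) ^ k := one_add_mul_le_pow (by linarith) k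
    have h2 : (1 - t) ^ k * (1 + t) ^ k ≤ 1 := by
      rw [← mul_pow]
      refine pow_le_one₀ ?_ ?_
      · nlinarith
      · nlinarith
    have h3 : 0 ≤ (1 - t) ^ k := pow_nonneg (by linarith) k
    have h4 : (1 - t) ^ k * (1 + k * t) ≤ 1 := (mul_le_mul_of_nonneg_left h1 h3).trans h2
    have h5 : 0 ≤ (k : ℝ) * t := by positivity
    have h6 : (k : ℝ) * t ≤ 1 := by nlinarith
    push_cast
    linarith
  · rw [pow_succ] at hm ⊢
    rw [abs_le]
    constructor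
    · nlinarith
    · linarith

theorem amp_near {n m : ℕ} {w t ε s : ℝ} (hε : ε ^ 2 = w) (h : ε ^ 2 + s ^ 2 = 1) (hw : 0 < w)
    (hw1 : w ≤ 1 / 2) (ht : t = 4 * w ^ n) (ht1 : t ≤ 1 / 2) (hmt : (m : ℝ) * t ≤ 1 + t)
    (hm : |(1 - t) ^ m - 1 / 2| ≤ t / 2) (hnw : 2 * n * w ≤ 1) (x : Fin n → Bool) :
    |amp n m ε s x - (1 + (-1) ^ (Finset.univ.filter fun i => x i = true).card) / 2| ≤
      16 * n * w := by
  rw [amp_eq h]
  set S := Finset.univ.filter fun i => x i = true with hS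
  have hpow : ∀ k, ε ^ (2 * k) = w ^ k := fun k => by rw [pow_mul, hε]
  simp only [hpow]
  rw [← ht]
  have ht0 : 0 < t := by rw [ht]; positivity
  have hSn : S.card ≤ n := by
    have := Finset.card_le_univ S
    simpa using this
  -- the sum of signs
  have hsign : ∑ I ∈ S.powerset, (-2 : ℝ) ^ I.card = (-1) ^ S.card := by
    have h1 := Finset.prod_one_add (R := ℝ) (f := fun _ : Fin n => (-2 : ℝ)) (s := S)
    rw [Finset.prod_const] at h1
    have h2 : (1 + (-2 : ℝ)) = -1 := by norm_num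
    rw [h2] at h1
    rw [h1]
    exact Finset.sum_congr rfl fun I _ => by rw [Finset.prod_const]
  have hpos : ∑ I ∈ S.powerset, (2 * w) ^ I.card = (1 + 2 * w) ^ S.card := by
    have h1 := Finset.prod_one_add (R := ℝ) (f := fun _ : Fin n => (2 * w)) (s := S)
    rw [Finset.prod_const] at h1
    rw [h1]
    exact Finset.sum_congr rfl fun I _ => by rw [Finset.prod_const]
  have hmem : ∅ ∈ S.powerset := Finset.empty_mem_powerset S
  have hdec : ∑ I ∈ S.powerset, (-2 : ℝ) ^ I.card * (1 - t * (1 - w ^ I.card)) ^ m -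
      (1 + (-1) ^ S.card) / 2 =
      ∑ I ∈ S.powerset.erase ∅, (-2 : ℝ) ^ I.card * ((1 - t * (1 - w ^ I.card)) ^ m - 1 / 2) := by
    have h1 : ∑ I ∈ S.powerset, (-2 : ℝ) ^ I.card * ((1 - t * (1 - w ^ I.card)) ^ m - 1 / 2) =
        ∑ I ∈ S.powerset, (-2 : ℝ) ^ I.card * (1 - t * (1 - w ^ I.card)) ^ m -
          1 / 2 * (-1) ^ S.card := by
      rw [← hsign, Finset.mul_sum, ← Finset.sum_sub_distrib]
      refine Finset.sum_congr rfl fun I _ => ?_
      ring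
    rw [← Finset.add_sum_erase _ _ hmem] at h1
    have h2 : (-2 : ℝ) ^ (∅ : Finset (Fin n)).card *
        ((1 - t * (1 - w ^ (∅ : Finset (Fin n)).card)) ^ m - 1 / 2) = 1 / 2 := by
      rw [Finset.card_empty]
      norm_num
    rw [h2] at h1
    linarith
  rw [hdec]
  have hterm : ∀ I ∈ S.powerset.erase ∅,
      |(-2 : ℝ) ^ I.card * ((1 - t * (1 - w ^ I.card)) ^ m - 1 / 2)| ≤ 4 * (2 * w) ^ I.card := by
    intro I hI
    have hIS : I ⊆ S := Finset.mem_powerset.1 (Finset.mem_of_mem_erase hI)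
    have hIn : I.card ≤ n := (Finset.card_le_card hIS).trans hSn
    set k := I.card with hk
    have hwk : 0 < w ^ k := pow_pos hw k
    have hwk1 : w ^ k ≤ 1 := pow_le_one₀ hw.le (by linarith)
    have hwn : w ^ n ≤ w ^ k := pow_le_pow_of_le_one hw.le (by linarith) hIn
    have h1 := pow_sub_pow_le_mul (a := 1 - t * (1 - w ^ k)) (b := 1 - t) (by linarith)
      (by nlinarith) (by nlinarith) m
    have h2 : (1 - t) ^ m ≤ (1 - t * (1 - w ^ k)) ^ m :=
      pow_le_pow_left₀ (by linarith) (by nlinarith) m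
    have h3 : (m : ℝ) * ((1 - t * (1 - w ^ k)) - (1 - t)) = (m * t) * w ^ k := by ring
    rw [h3] at h1
    have h4 : (m * t) * w ^ k ≤ 2 * w ^ k := mul_le_mul_of_nonneg_right (by linarith) hwk.le
    have h5 : |(1 - t * (1 - w ^ k)) ^ m - 1 / 2| ≤ 4 * w ^ k := by
      rw [abs_le] at hm ⊢
      constructor
      · have : t / 2 ≤ 2 * w ^ k := by rw [ht]; linarith
        linarith [hm.1]
      · have : t / 2 ≤ 2 * w ^ k := by rw [ht]; linarith
        linarith [hm.2]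
    rw [abs_mul, abs_pow, abs_neg, abs_two]
    calc (2 : ℝ) ^ k * |(1 - t * (1 - w ^ k)) ^ m - 1 / 2| ≤ 2 ^ k * (4 * w ^ k) :=
          mul_le_mul_of_nonneg_left h5 (by positivity)
      _ = 4 * (2 * w) ^ k := by rw [mul_pow]; ring
  refine (Finset.abs_sum_le_sum_abs _ _).trans ?_
  refine (Finset.sum_le_sum hterm).trans ?_
  rw [← Finset.mul_sum]
  have h6 : ∑ I ∈ S.powerset.erase ∅, (2 * w) ^ I.card = (1 + 2 * w) ^ S.card - 1 := by
    rw [← hpos, ← Finset.add_sum_erase _ _ hmem]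
    simp
  rw [h6]
  have h7 : (1 + 2 * w) ^ S.card ≤ (1 + 2 * w) ^ n := pow_le_pow_right₀ (by linarith) hSn
  have h8 : (1 + 2 * w) ^ n ≤ Real.exp (2 * n * w) := by
    have := Real.add_one_le_exp (2 * w)
    calc (1 + 2 * w) ^ n ≤ (Real.exp (2 * w)) ^ n :=
          pow_le_pow_left₀ (by linarith) (by linarith) n
      _ = Real.exp (2 * n * w) := by rw [← Real.exp_nat_mul]; ring_nf
  have h9 : Real.exp (2 * n * w) - 1 ≤ 2 * (2 * n * w) := by
    have hx0 : 0 ≤ 2 * n * w := by positivity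
    have := Real.abs_exp_sub_one_le (x := 2 * n * w) (by rw [abs_of_nonneg hx0]; exact hnw)
    rw [abs_of_nonneg hx0] at this
    exact (le_abs_self _).trans this
  linarith

theorem choose_params {n : ℕ} (hn : 2 ≤ n) {δ : ℝ} (hδ : 0 < δ) (hδ1 : δ ≤ 1) :
    ∃ (m : ℕ) (ε s : ℝ), 1 ≤ m ∧ (m : ℝ) ≤ (32 * n / δ) ^ n ∧ ε ^ 2 + s ^ 2 = 1 ∧
      ∀ x : Fin n → Bool,
        |amp n m ε s x - (1 + (-1) ^ (Finset.univ.filter fun i => x i = true).card) / 2| ≤ δ / 2 := by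
  have hn0 : (2 : ℝ) ≤ n := by exact_mod_cast hn
  set w : ℝ := δ / (32 * n) with hw
  have hw0 : 0 < w := by positivity
  have hwn : 32 * (n * w) = δ := by rw [hw]; field_simp
  have hw1 : w ≤ 1 / 64 := by
    rw [hw, div_le_div_iff₀ (by positivity) (by norm_num)]
    linarith
  set t : ℝ := 4 * w ^ n with ht
  have hwn1 : w ^ n ≤ 1 / 4096 := by
    calc w ^ n ≤ w ^ 2 := pow_le_pow_of_le_one hw0.le (by linarith) hn
      _ ≤ (1 / 64) ^ 2 := pow_le_pow_left₀ hw0.le hw1 2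
      _ = 1 / 4096 := by norm_num
  have hwn0 : 0 < w ^ n := pow_pos hw0 n
  have ht0 : 0 < t := by rw [ht]; positivity
  have ht1 : t ≤ 1 / 2 := by rw [ht]; linarith
  obtain ⟨m, hm1, hmt, hm⟩ := exists_m ht0 ht1
  refine ⟨m, Real.sqrt w, Real.sqrt (1 - w), hm1, ?_, ?_, ?_⟩
  · have h1 : (32 * n / δ) ^ n = 1 / w ^ n := by
      rw [hw, ← one_div_pow]
      congr 1
      rw [one_div_div]
    rw [h1, le_div_iff₀ hwn0]
    have h2 : (m : ℝ) * t = 4 * (m * w ^ n) := by rw [ht]; ring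
    rw [h2] at hmt
    linarith
  · rw [Real.sq_sqrt hw0.le, Real.sq_sqrt (by linarith)]
    ring
  · intro x
    have h := amp_near (n := n) (m := m) (w := w) (t := t) (ε := Real.sqrt w) (s := Real.sqrt (1 - w))
      (Real.sq_sqrt hw0.le) (by rw [Real.sq_sqrt hw0.le, Real.sq_sqrt (by linarith)]; ring) hw0
      (by linarith) ht ht1 hmt hm (by linarith) x
    refine h.trans ?_
    linarith

end P368
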