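import Vale.Agent.P368.Upper3

/-! P368 upper bound: the circuit. -/

open scoped BigOperators

namespace P368

/-- the qubits -/
abbrev QQ (n m : ℕ) : Type := Fin n ⊕ (Fin m × Fin n ⊕ Unit)

section Circ

variable {n m : ℕ}

/-- row gates -/
def c1 (i0 : Fin n) : QQ n m → Finset (QQ n m)
  | Sum.inr (Sum.inl (b, i)) =>
      if i = i0 then (Finset.univ.filter fun i' => i' ≠ i0).image fun i' => Sum.inr (Sum.inl (b, i'))
      else ∅
  | _ => ∅

/-- column gates -/
def c2 : QQ n m → Finset (QQ n m)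
  | Sum.inl i => Finset.univ.image fun b => Sum.inr (Sum.inl (b, i))
  | _ => ∅

/-- the last gate -/
def c4 : QQ n m → Finset (QQ n m)
  | Sum.inr (Sum.inr _) => Finset.univ.image fun p => Sum.inr (Sum.inl p)
  | _ => ∅

theorem mem_c1 {i0 : Fin n} {v w : QQ n m} :
    w ∈ c1 i0 v ↔ ∃ b i', i' ≠ i0 ∧ v = Sum.inr (Sum.inl (b, i0)) ∧ w = Sum.inr (Sum.inl (b, i')) := by
  rcases v with i | ⟨b, i⟩ | u
  · simp [c1]
  · have hc : c1 i0 (Sum.inr (Sum.inl (b, i)) : QQ n m) = if i = i0 then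
      (Finset.univ.filter fun i' => i' ≠ i0).image fun i' => Sum.inr (Sum.inl (b, i')) else ∅ := rfl
    rw [hc]
    by_cases h : i = i0
    · subst h
      simp only [if_true, Finset.mem_image, Finset.mem_filter, Finset.mem_univ, true_and]
      constructor
      · rintro ⟨i', h1, h2⟩
        exact ⟨b, i', h1, rfl, h2.symm⟩
      · rintro ⟨b', i', h1, h2, h3⟩
        have : b = b' := by
          simpa using h2
        subst this
        exact ⟨i', h1, h3.symm⟩
    · rw [if_neg h]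
      constructor
      · intro h'
        exact absurd h' (Finset.notMem_empty _)
      · rintro ⟨b', i', h1, h2, h3⟩
        exfalso
        simp at h2
        exact h h2.2
  · simp [c1]

theorem mem_c2 {v w : QQ n m} :
    w ∈ c2 v ↔ ∃ b i, v = Sum.inl i ∧ w = Sum.inr (Sum.inl (b, i)) := by
  rcases v with i | ⟨b, i⟩ | u
  · unfold c2
    simp only [Finset.mem_image, Finset.mem_univ, true_and]
    constructor
    · rintro ⟨b, h⟩
      exact ⟨b, i, rfl, h.symm⟩
    · rintro ⟨b, i', h1, h2⟩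
      have : i = i' := by simpa using h1
      subst this
      exact ⟨b, h2.symm⟩
  · simp [c2]
  · simp [c2]

theorem mem_c4 {v w : QQ n m} :
    w ∈ c4 v ↔ v = Sum.inr (Sum.inr ()) ∧ ∃ p, w = Sum.inr (Sum.inl p) := by
  rcases v with i | ⟨b, i⟩ | u
  · simp [c4]
  · simp [c4]
  · have hc : c4 (Sum.inr (Sum.inr u) : QQ n m) =
      Finset.univ.image fun p => Sum.inr (Sum.inl p) := rfl
    rw [hc, Finset.mem_image]
    constructor
    · rintro ⟨p, _, h⟩
      exact ⟨rfl, p, h.symm⟩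
    · rintro ⟨_, p, h⟩
      exact ⟨p, Finset.mem_univ _, h.symm⟩

theorem good_c1 (i0 : Fin n) : GoodC (c1 (m := m) i0) := by
  refine ⟨?_, ?_⟩
  · intro v hv
    obtain ⟨b, i', h1, h2, h3⟩ := mem_c1.1 hv
    rw [h2] at h3
    simp at h3
    exact h1 h3.symm
  · intro v w hvw ⟨v', hv'⟩ ⟨w', hw'⟩
    obtain ⟨b, i1, h1, h2, h3⟩ := mem_c1.1 hv'
    obtain ⟨b', i1', h1', h2', h3'⟩ := mem_c1.1 hw'
    have hbb : b ≠ b' := by
      rintro rfl
      exact hvw (h2.trans h2'.symm)
    have key : ∀ (b : Fin m) (v : QQ n m), v = Sum.inr (Sum.inl (b, i0)) → ∀ u ∈ insert v (c1 i0 v),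
        ∃ i, u = Sum.inr (Sum.inl (b, i)) := by
      intro b v hv u hu
      rcases Finset.mem_insert.1 hu with h | h
      · exact ⟨i0, h.trans hv⟩
      · obtain ⟨b2, i2, k1, k2, k3⟩ := mem_c1.1 h
        rw [hv] at k2
        have : b = b2 := by simpa using k2
        exact ⟨i2, by rw [this]; exact k3⟩
    rw [Finset.disjoint_left]
    intro u hu hu'
    obtain ⟨j, hj⟩ := key b v h2 u hu
    obtain ⟨j', hj'⟩ := key b' w h2' u hu'
    rw [hj] at hj'
    simp at hj'
    exact hbb hj'.1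

theorem good_c2 : GoodC (c2 (n := n) (m := m)) := by
  refine ⟨?_, ?_⟩
  · intro v hv
    obtain ⟨b, i, h1, h2⟩ := mem_c2.1 hv
    rw [h1] at h2
    simp at h2
  · intro v w hvw ⟨v', hv'⟩ ⟨w', hw'⟩
    obtain ⟨b, i, h2, h3⟩ := mem_c2.1 hv'
    obtain ⟨b', i', h2', h3'⟩ := mem_c2.1 hw'
    have hii : i ≠ i' := by
      rintro rfl
      exact hvw (h2.trans h2'.symm)
    have key : ∀ (i : Fin n) (v : QQ n m), v = Sum.inl i → ∀ u ∈ insert v (c2 v),
        u = Sum.inl i ∨ ∃ b, u = Sum.inr (Sum.inl (b, i)) := by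
      intro i v hv u hu
      rcases Finset.mem_insert.1 hu with h | h
      · exact Or.inl (h.trans hv)
      · obtain ⟨b2, i2, k2, k3⟩ := mem_c2.1 h
        rw [hv] at k2
        have : i = i2 := by simpa using k2
        exact Or.inr ⟨b2, by rw [this]; exact k3⟩
    rw [Finset.disjoint_left]
    intro u hu hu'
    rcases key i v h2 u hu with hj | ⟨j, hj⟩ <;> rcases key i' w h2' u hu' with hj' | ⟨j', hj'⟩ <;>
      rw [hj] at hj' <;> simp at hj'
    · exact hii hj'
    · exact hii hj'.2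

theorem good_c4 : GoodC (c4 (n := n) (m := m)) := by
  refine ⟨?_, ?_⟩
  · intro v hv
    obtain ⟨h1, p, h2⟩ := mem_c4.1 hv
    rw [h1] at h2
    simp at h2
  · intro v w hvw ⟨v', hv'⟩ ⟨w', hw'⟩
    exact absurd ((mem_c4.1 hv').1.trans (mem_c4.1 hw').1.symm) hvw

/-- assembling a basis state -/
def mk (x : Fin n → Bool) (a : Fin m × Fin n → Bool) (o : Bool) : QQ n m → Bool :=
  Sum.elim x (Sum.elim a (fun _ => o))

theorem mk_inj (x : Fin n → Bool) (o : Bool) :
    Function.Injective fun a : Fin m × Fin n → Bool => mk x a o := by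
  intro a a' h
  funext p
  exact congrFun h (Sum.inr (Sum.inl p))

/-- support on the basis states with inputs `x` and output qubit `0`. -/
def Supp (x : Fin n → Bool) (ψ : Ket (QQ n m)) : Prop :=
  ∀ z, (¬ ((∀ i, z (Sum.inl i) = x i) ∧ z (Sum.inr (Sum.inr ())) = false)) → ψ z = 0

theorem eq_mk {x : Fin n → Bool} {z : QQ n m → Bool} (h : ∀ i, z (Sum.inl i) = x i) {o : Bool}
    (ho : z (Sum.inr (Sum.inr ())) = o) : z = mk x (fun p => z (Sum.inr (Sum.inl p))) o := by
  funext v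
  rcases v with i | p | u
  · exact h i
  · rfl
  · exact ho

theorem sum_supp {M : Type} [AddCommMonoid M] (x : Fin n → Bool) (f : (QQ n m → Bool) → M)
    (hf : ∀ z, (¬ ((∀ i, z (Sum.inl i) = x i) ∧ z (Sum.inr (Sum.inr ())) = false)) → f z = 0) :
    ∑ z, f z = ∑ a : Fin m × Fin n → Bool, f (mk x a false) := by
  symm
  refine Fintype.sum_of_injective (fun a => mk x a false) (mk_inj x false) _ _ ?_ (fun a => rfl)
  intro z hz
  refine hf z fun h => hz ?_
  exact ⟨fun p => z (Sum.inr (Sum.inl p)), (eq_mk h.1 h.2).symm⟩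

end Circ

end P368
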