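import Vale.Agent.P368.Upper4

/-! P368 upper bound: the run of the circuit. -/

open scoped BigOperators

namespace P368

section Circ

variable {n m : ℕ}

theorem sgn_c1 (hn : 2 ≤ n) (i0 : Fin n) (z : QQ n m → Bool) :
    sgn (c1 i0) z = ∏ b, (if ∀ i, z (Sum.inr (Sum.inl (b, i))) = true then (-1 : ℂ) else 1) := by
  unfold sgn
  rw [Fintype.prod_sum_type, Fintype.prod_sum_type]
  have h1 : ∏ i : Fin n, (if (c1 i0 (Sum.inl i : QQ n m)).Nonempty ∧ z (Sum.inl i) = true ∧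
      ∀ w ∈ c1 i0 (Sum.inl i : QQ n m), z w = true then (-1 : ℂ) else 1) = 1 := by
    refine Finset.prod_eq_one fun i _ => if_neg ?_
    rintro ⟨⟨w, hw⟩, -⟩
    obtain ⟨b, i', -, h, -⟩ := mem_c1.1 hw
    simp at h
  have h2 : ∏ u : Unit, (if (c1 i0 (Sum.inr (Sum.inr u) : QQ n m)).Nonempty ∧
      z (Sum.inr (Sum.inr u)) = true ∧
      ∀ w ∈ c1 i0 (Sum.inr (Sum.inr u) : QQ n m), z w = true then (-1 : ℂ) else 1) = 1 := by
    refine Finset.prod_eq_one fun i _ => if_neg ?_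
    rintro ⟨⟨w, hw⟩, -⟩
    obtain ⟨b, i', -, h, -⟩ := mem_c1.1 hw
    simp at h
  rw [h1, h2, one_mul, mul_one, Fintype.prod_prod_type]
  refine Finset.prod_congr rfl fun b _ => ?_
  rw [Finset.prod_eq_single i0]
  · have hiff : ((c1 i0 (Sum.inr (Sum.inl (b, i0)) : QQ n m)).Nonempty ∧
        z (Sum.inr (Sum.inl (b, i0))) = true ∧
        ∀ w ∈ c1 i0 (Sum.inr (Sum.inl (b, i0)) : QQ n m), z w = true) ↔
        ∀ i, z (Sum.inr (Sum.inl (b, i))) = true := by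
      constructor
      · rintro ⟨-, h1, h2⟩ i
        by_cases hi : i = i0
        · rw [hi]; exact h1
        · exact h2 _ (mem_c1.2 ⟨b, i, hi, rfl, rfl⟩)
      · intro h
        refine ⟨?_, h i0, ?_⟩
        · have : Nontrivial (Fin n) := Fin.nontrivial_iff_two_le.2 hn
          obtain ⟨i', hi'⟩ := exists_ne i0
          exact ⟨_, mem_c1.2 ⟨b, i', hi', rfl, rfl⟩⟩
        · intro w hw
          obtain ⟨b', i', -, k1, k2⟩ := mem_c1.1 hw
          rw [k2]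
          exact h i' |> fun h' => by
            have : b = b' := by simpa using k1
            rw [← this]; exact h'
    by_cases hh : ∀ i, z (Sum.inr (Sum.inl (b, i))) = true
    · rw [if_pos (hiff.2 hh), if_pos hh]
    · rw [if_neg (fun h' => hh (hiff.1 h')), if_neg hh]
  · intro i _ hi
    refine if_neg ?_
    rintro ⟨⟨w, hw⟩, -⟩
    obtain ⟨b', i', -, h, -⟩ := mem_c1.1 hw
    simp at h
    exact hi h.2
  · intro h
    exact absurd (Finset.mem_univ _) h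

theorem sgn_c2 (hm : 1 ≤ m) (z : QQ n m → Bool) :
    sgn c2 z = ∏ i, (if z (Sum.inl i) = true ∧ ∀ b, z (Sum.inr (Sum.inl (b, i))) = true
      then (-1 : ℂ) else 1) := by
  unfold sgn
  rw [Fintype.prod_sum_type]
  have h1 : ∏ v : Fin m × Fin n ⊕ Unit, (if (c2 (Sum.inr v : QQ n m)).Nonempty ∧
      z (Sum.inr v) = true ∧
      ∀ w ∈ c2 (Sum.inr v : QQ n m), z w = true then (-1 : ℂ) else 1) = 1 := by
    refine Finset.prod_eq_one fun i _ => if_neg ?_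
    rintro ⟨⟨w, hw⟩, -⟩
    obtain ⟨b, i', h, -⟩ := mem_c2.1 hw
    simp at h
  rw [h1, mul_one]
  refine Finset.prod_congr rfl fun i _ => ?_
  have hiff : ((c2 (Sum.inl i : QQ n m)).Nonempty ∧
        z (Sum.inl i) = true ∧ ∀ w ∈ c2 (Sum.inl i : QQ n m), z w = true) ↔
        (z (Sum.inl i) = true ∧ ∀ b, z (Sum.inr (Sum.inl (b, i))) = true) := by
    constructor
    · rintro ⟨-, h1, h2⟩
      exact ⟨h1, fun b => h2 _ (mem_c2.2 ⟨b, i, rfl, rfl⟩)⟩
    · rintro ⟨h1, h2⟩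
      refine ⟨⟨_, mem_c2.2 ⟨⟨0, by omega⟩, i, rfl, rfl⟩⟩, h1, ?_⟩
      intro w hw
      obtain ⟨b', i', k1, k2⟩ := mem_c2.1 hw
      have : i = i' := by simpa using k1
      rw [k2, ← this]
      exact h2 b'
  by_cases hh : z (Sum.inl i) = true ∧ ∀ b, z (Sum.inr (Sum.inl (b, i))) = true
  · rw [if_pos (hiff.2 hh), if_pos hh]
  · rw [if_neg (fun h' => hh (hiff.1 h')), if_neg hh]

/-- ancilla flips -/
def κA : QQ n m → Bool
  | Sum.inr (Sum.inl _) => true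
  | _ => false

/-- ancilla and output flips -/
def κO : QQ n m → Bool
  | Sum.inr _ => true
  | _ => false

/-- reflections on the ancillas -/
noncomputable def AV (ε s : ℝ) : QQ n m → Matrix Bool Bool ℂ
  | Sum.inr (Sum.inl _) => Vm ε s
  | _ => 1

noncomputable def opR (i0 : Fin n) (ε s : ℝ) (ψ : Ket (QQ n m)) : Ket (QQ n m) :=
  oneQubit (AV ε s) (fun z => sgn (c1 i0) z * oneQubit (AV ε s) ψ z)

noncomputable def opG (ψ : Ket (QQ n m)) : Ket (QQ n m) :=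
  oneQubit (fun v => Xk (κA v)) (fun z => sgn c2 z * oneQubit (fun v => Xk (κA v)) ψ z)

noncomputable def La (i0 : Fin n) (ε s : ℝ) : Layer (QQ n m) :=
  ⟨fun v => Hs (c1 i0) v * AV ε s v, c1 i0⟩

noncomputable def Lb (i0 : Fin n) (ε s : ℝ) : Layer (QQ n m) :=
  ⟨fun v => Hs c2 v * (Xk (κA v) * (AV ε s v * Hs (c1 i0) v)), c2⟩

noncomputable def Lc (i0 : Fin n) (ε s : ℝ) : Layer (QQ n m) :=
  ⟨fun v => Hs (c1 i0) v * (AV ε s v * (Xk (κA v) * Hs c2 v)), c1 i0⟩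

noncomputable def Ld (i0 : Fin n) (ε s : ℝ) : Layer (QQ n m) :=
  ⟨fun v => Xk (κO v) * (AV ε s v * Hs (c1 i0) v), c4⟩

theorem run_eq (i0 : Fin n) (ε s : ℝ) (ψ : Ket (QQ n m)) :
    run [La i0 ε s, Lb i0 ε s, Lc i0 ε s, Ld i0 ε s] ψ =
      tofP c4 (oneQubit (fun v => Xk (κO v)) (opR i0 ε s (opG (opR i0 ε s ψ)))) := by
  have h1 : ∀ φ : Ket (QQ n m), (La i0 ε s).act φ =
      tofP (c1 i0) (oneQubit (Hs (c1 i0)) (oneQubit (AV ε s) φ)) := by
    intro φ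
    rw [act_eq, oneQubit_comp]
    rfl
  have h2 : ∀ φ : Ket (QQ n m), (Lb i0 ε s).act φ =
      tofP c2 (oneQubit (Hs c2) (oneQubit (fun v => Xk (κA v)) (oneQubit (AV ε s)
        (oneQubit (Hs (c1 i0)) φ)))) := by
    intro φ
    rw [act_eq, oneQubit_comp, oneQubit_comp, oneQubit_comp]
    simp only [Lb, mul_assoc]
  have h3 : ∀ φ : Ket (QQ n m), (Lc i0 ε s).act φ =
      tofP (c1 i0) (oneQubit (Hs (c1 i0)) (oneQubit (AV ε s) (oneQubit (fun v => Xk (κA v))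
        (oneQubit (Hs c2) φ)))) := by
    intro φ
    rw [act_eq, oneQubit_comp, oneQubit_comp, oneQubit_comp]
    simp only [Lc, mul_assoc]
  have h4 : ∀ φ : Ket (QQ n m), (Ld i0 ε s).act φ =
      tofP c4 (oneQubit (fun v => Xk (κO v)) (oneQubit (AV ε s) (oneQubit (Hs (c1 i0)) φ))) := by
    intro φ
    rw [act_eq, oneQubit_comp, oneQubit_comp]
    simp only [Ld, mul_assoc]
  show (Ld i0 ε s).act ((Lc i0 ε s).act ((Lb i0 ε s).act ((La i0 ε s).act ψ))) = _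
  rw [h1, h2, h3, h4, conj_toffoli (good_c1 i0), conj_toffoli good_c2, conj_toffoli (good_c1 i0)]
  rfl

theorem AV_mem {ε s : ℝ} (h : ε ^ 2 + s ^ 2 = 1) (v : QQ n m) :
    AV ε s v ∈ Matrix.unitaryGroup Bool ℂ := by
  rcases v with i | p | u
  · exact one_mem _
  · exact Vm_mem h
  · exact one_mem _

theorem AV_star (ε s : ℝ) : (fun v : QQ n m => star (AV ε s v)) = AV ε s := by
  funext v
  rcases v with i | p | u
  · exact star_one _
  · exact Vm_star ε s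
  · exact star_one _

theorem valid_La (i0 : Fin n) {ε s : ℝ} (h : ε ^ 2 + s ^ 2 = 1) : (La (m := m) i0 ε s).Valid :=
  ⟨fun v => mul_mem (Hs_mem _ v) (AV_mem h v), (good_c1 i0).nt, (good_c1 i0).dj⟩

theorem valid_Lb (i0 : Fin n) {ε s : ℝ} (h : ε ^ 2 + s ^ 2 = 1) : (Lb (m := m) i0 ε s).Valid :=
  ⟨fun v => mul_mem (Hs_mem _ v) (mul_mem (Xk_mem _) (mul_mem (AV_mem h v) (Hs_mem _ v))),
    good_c2.nt, good_c2.dj⟩

theorem valid_Lc (i0 : Fin n) {ε s : ℝ} (h : ε ^ 2 + s ^ 2 = 1) : (Lc (m := m) i0 ε s).Valid :=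
  ⟨fun v => mul_mem (Hs_mem _ v) (mul_mem (AV_mem h v) (mul_mem (Xk_mem _) (Hs_mem _ v))),
    (good_c1 i0).nt, (good_c1 i0).dj⟩

theorem valid_Ld (i0 : Fin n) {ε s : ℝ} (h : ε ^ 2 + s ^ 2 = 1) : (Ld (m := m) i0 ε s).Valid :=
  ⟨fun v => mul_mem (Xk_mem _) (mul_mem (AV_mem h v) (Hs_mem _ v)), good_c4.nt, good_c4.dj⟩

end Circ

end P368
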