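import Vale.Agent.P368.Upper5

/-! P368 upper bound: amplitude and output probability. -/

open scoped BigOperators

namespace P368

section Circ

variable {n m : ℕ}

theorem supp_oneQubit {x : Fin n → Bool} {W : QQ n m → Matrix Bool Bool ℂ}
    (h1 : ∀ i, W (Sum.inl i) = 1) (h2 : W (Sum.inr (Sum.inr ())) = 1) {ψ : Ket (QQ n m)}
    (hψ : Supp x ψ) : Supp x (oneQubit W ψ) := by
  intro z hz
  unfold oneQubit
  refine Finset.sum_eq_zero fun y _ => ?_
  by_cases hy : (∀ i, y (Sum.inl i) = x i) ∧ y (Sum.inr (Sum.inr ())) = false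
  · have : ∃ v, W v = 1 ∧ z v ≠ y v := by
      by_contra hcon
      push Not at hcon
      exact hz ⟨fun i => (hcon _ (h1 i)).trans (hy.1 i), (hcon _ h2).trans hy.2⟩
    obtain ⟨v, hv, hne⟩ := this
    rw [Finset.prod_eq_zero (Finset.mem_univ v), zero_mul]
    rw [hv, Matrix.one_apply, if_neg hne]
  · rw [hψ y hy, mul_zero]

theorem supp_diag {x : Fin n → Bool} (d : (QQ n m → Bool) → ℂ) {ψ : Ket (QQ n m)}
    (hψ : Supp x ψ) : Supp x (fun z => d z * ψ z) := fun z hz => by
  show d z * ψ z = 0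
  rw [hψ z hz, mul_zero]

theorem Xk_false : Xk false = 1 := by
  ext a b
  rw [Matrix.one_apply]
  unfold Xk
  simp [eq_comm]

theorem supp_opR {x : Fin n → Bool} (i0 : Fin n) (ε s : ℝ) {ψ : Ket (QQ n m)} (hψ : Supp x ψ) :
    Supp x (opR i0 ε s ψ) :=
  supp_oneQubit (fun _ => rfl) rfl (supp_diag _ (supp_oneQubit (fun _ => rfl) rfl hψ))

theorem supp_opG {x : Fin n → Bool} {ψ : Ket (QQ n m)} (hψ : Supp x ψ) :
    Supp x (opG ψ) :=
  supp_oneQubit (fun _ => Xk_false) Xk_false
    (supp_diag _ (supp_oneQubit (fun _ => Xk_false) Xk_false hψ))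

/-- the initial state -/
theorem start_eq (x : Fin n → Bool) (z : QQ n m → Bool) :
    (start (zeros (Fin m × Fin n ⊕ Unit)) x : Ket (QQ n m)) z =
      if z = mk x (fun _ => false) false then 1 else 0 := by
  unfold start zeros
  by_cases h : z = mk x (fun _ => false) false
  · rw [if_pos h, h]
    have e1 : (fun i => mk (m := m) x (fun _ => false) false (Sum.inl i)) = x := rfl
    rw [if_pos e1, if_pos]
    funext v
    rcases v with p | u
    · rfl
    · rfl
  · rw [if_neg h]
    by_cases h1 : (fun i => z (Sum.inl i)) = x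
    · rw [if_pos h1, if_neg]
      intro h2
      apply h
      funext v
      rcases v with i | p | u
      · exact congrFun h1 i
      · exact congrFun h2 (Sum.inl p)
      · exact congrFun h2 (Sum.inr u)
    · rw [if_neg h1]

theorem supp_start (x : Fin n → Bool) :
    Supp x (start (zeros (Fin m × Fin n ⊕ Unit)) x : Ket (QQ n m)) := by
  intro z hz
  rw [start_eq, if_neg]
  rintro rfl
  exact hz ⟨fun i => rfl, rfl⟩

theorem nsq_start (x : Fin n → Bool) :
    nsq (start (zeros (Fin m × Fin n ⊕ Unit)) x : Ket (QQ n m)) = 1 := by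
  unfold nsq
  rw [Finset.sum_eq_single (mk x (fun _ => false) false)]
  · rw [start_eq, if_pos rfl, norm_one, one_pow]
  · intro z _ hz
    rw [start_eq, if_neg hz, norm_zero]
    norm_num
  · intro h
    exact absurd (Finset.mem_univ _) h

theorem opR_start (hn : 2 ≤ n) (i0 : Fin n) {ε s : ℝ} (h : ε ^ 2 + s ^ 2 = 1) (x : Fin n → Bool)
    (a : Fin m × Fin n → Bool) :
    opR i0 ε s (start (zeros (Fin m × Fin n ⊕ Unit)) x : Ket (QQ n m)) (mk x a false) =
      ((∏ b, rho ε s (fun i => a (b, i)) : ℝ) : ℂ) := by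
  have h0 : ∀ y : QQ n m → Bool, oneQubit (AV ε s)
      (start (zeros (Fin m × Fin n ⊕ Unit)) x : Ket (QQ n m)) y =
      ∏ v, AV ε s v (y v) (mk x (fun _ => false) false v) := by
    intro y
    unfold oneQubit
    rw [Finset.sum_eq_single (mk x (fun _ => false) false)]
    · rw [start_eq, if_pos rfl, mul_one]
    · intro z _ hz
      rw [start_eq, if_neg hz, mul_zero]
    · intro h
      exact absurd (Finset.mem_univ _) h
  have hprod : ∀ a a' : Fin m × Fin n → Bool,
      ∏ v, AV ε s v (mk x a false v) (mk x a' false v) = ∏ b, ∏ i, Vm ε s (a (b, i)) (a' (b, i)) := by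
    intro a a'
    rw [Fintype.prod_sum_type, Fintype.prod_sum_type, Fintype.prod_prod_type]
    have e1 : ∏ i : Fin n, AV (m := m) ε s (Sum.inl i) (mk x a false (Sum.inl i))
        (mk x a' false (Sum.inl i)) = 1 :=
      Finset.prod_eq_one fun i _ => Matrix.one_apply_eq (x i)
    have e2 : ∏ u : Unit, AV (n := n) (m := m) ε s (Sum.inr (Sum.inr u))
        (mk x a false (Sum.inr (Sum.inr u))) (mk x a' false (Sum.inr (Sum.inr u))) = 1 :=
      Finset.prod_eq_one fun i _ => Matrix.one_apply_eq false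
    rw [e1, e2, one_mul, mul_one]
    rfl
  unfold opR
  have hsum : oneQubit (AV ε s) (fun z => sgn (c1 i0) z * oneQubit (AV ε s)
      (start (zeros (Fin m × Fin n ⊕ Unit)) x : Ket (QQ n m)) z) (mk x a false) =
      ∑ a' : Fin m × Fin n → Bool, ∏ b, ((∏ i, Vm ε s (a (b, i)) (a' (b, i))) *
        ((if ∀ i, a' (b, i) = true then (-1 : ℂ) else 1) * ∏ i, Vm ε s (a' (b, i)) false)) := by
    have hz' := supp_oneQubit (W := AV ε s) (fun _ => rfl) rfl (supp_start (m := m) x)
    set φ := oneQubit (AV ε s) (start (zeros (Fin m × Fin n ⊕ Unit)) x : Ket (QQ n m)) with hφ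
    show ∑ y : QQ n m → Bool, (∏ v, AV ε s v (mk x a false v) (y v)) * (sgn (c1 i0) y * φ y) = _
    rw [sum_supp x]
    · refine Finset.sum_congr rfl fun a' _ => ?_
      rw [h0 (mk x a' false), hprod, hprod, sgn_c1 hn i0, ← Finset.prod_mul_distrib,
        ← Finset.prod_mul_distrib]
      rfl
    · intro z hz
      rw [hz' z hz, mul_zero, mul_zero]
  rw [hsum]
  have h3 := sum_blocks (R := ℂ) (m := m) (n := n) (fun b y => (∏ i, Vm ε s (a (b, i)) (y i)) *
        ((if ∀ i, y i = true then (-1 : ℂ) else 1) * ∏ i, Vm ε s (y i) false))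
  rw [h3]
  push_cast
  exact Finset.prod_congr rfl fun b _ => row_sum h (fun i => a (b, i))

theorem opG_eq (ψ : Ket (QQ n m)) (z : QQ n m → Bool) :
    opG ψ z = sgn c2 (fun v => xor (z v) (κA v)) * ψ z := by
  unfold opG
  rw [oneQubit_Xk]
  show sgn c2 (fun v => xor (z v) (κA v)) *
    oneQubit (fun v => Xk (κA v)) ψ (fun v => xor (z v) (κA v)) = _
  rw [oneQubit_Xk]
  show _ * ψ (fun v => xor (xor (z v) (κA v)) (κA v)) = _
  congr 2
  funext v
  simp

theorem ip_opR (i0 : Fin n) (ε s : ℝ) (f g : Ket (QQ n m)) :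
    ip f (opR i0 ε s g) = ip (opR i0 ε s f) g := by
  unfold opR
  rw [ip_oneQubit, AV_star, ip_diag _ (sgn_star _), ip_oneQubit, AV_star]

theorem amp_final (hn : 2 ≤ n) (hm : 1 ≤ m) (i0 : Fin n) {ε s : ℝ} (h : ε ^ 2 + s ^ 2 = 1)
    (x : Fin n → Bool) :
    opR i0 ε s (opG (opR i0 ε s (start (zeros (Fin m × Fin n ⊕ Unit)) x : Ket (QQ n m))))
      (mk x (fun _ => false) false) = (amp n m ε s x : ℂ) := by
  set e : Ket (QQ n m) := start (zeros (Fin m × Fin n ⊕ Unit)) x with he
  have h1 : ∀ φ : Ket (QQ n m), ip e φ = φ (mk x (fun _ => false) false) := by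
    intro φ
    unfold ip
    rw [Finset.sum_eq_single (mk x (fun _ => false) false)]
    · rw [he, start_eq, if_pos rfl, star_one, one_mul]
    · intro z _ hz
      rw [he, start_eq, if_neg hz, star_zero, zero_mul]
    · intro h
      exact absurd (Finset.mem_univ _) h
  rw [← h1 (opR i0 ε s (opG (opR i0 ε s e))), ip_opR]
  unfold ip
  rw [sum_supp x]
  · unfold amp
    push_cast
    refine Finset.sum_congr rfl fun a _ => ?_
    rw [opG_eq, he, opR_start hn i0 h x a, sgn_c2 hm]
    have e1 : star (((∏ b, rho ε s (fun i => a (b, i)) : ℝ) : ℂ)) =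
        ((∏ b, rho ε s (fun i => a (b, i)) : ℝ) : ℂ) := Complex.conj_ofReal _
    rw [e1]
    have e2 : ∀ i, ((xor (mk x a false (Sum.inl i)) (κA (Sum.inl i : QQ n m))) = true ∧
        ∀ b, (xor (mk x a false (Sum.inr (Sum.inl (b, i)))) (κA (Sum.inr (Sum.inl (b, i)) : QQ n m)))
          = true) ↔ (x i = true ∧ ∀ b, a (b, i) = false) := by
      intro i
      have k1 : xor (mk x a false (Sum.inl i)) (κA (Sum.inl i : QQ n m)) = x i := Bool.xor_false _
      have k2 : ∀ b, xor (mk x a false (Sum.inr (Sum.inl (b, i))))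
          (κA (Sum.inr (Sum.inl (b, i)) : QQ n m)) = !(a (b, i)) := fun b => Bool.xor_true _
      rw [k1]
      constructor
      · rintro ⟨h1, h2⟩
        refine ⟨h1, fun b => ?_⟩
        have := h2 b
        rw [k2] at this
        simpa using this
      · rintro ⟨h1, h2⟩
        refine ⟨h1, fun b => ?_⟩
        rw [k2, h2 b]
        rfl
    have e3 : ∏ i, (if (xor (mk x a false (Sum.inl i)) (κA (Sum.inl i : QQ n m))) = true ∧
        ∀ b, (xor (mk x a false (Sum.inr (Sum.inl (b, i)))) (κA (Sum.inr (Sum.inl (b, i)) : QQ n m)))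
          = true then (-1 : ℂ) else 1) =
        ∏ i, (((if x i = true ∧ ∀ b, a (b, i) = false then (-1 : ℝ) else 1) : ℝ) : ℂ) := by
      refine Finset.prod_congr rfl fun i _ => ?_
      by_cases hh : x i = true ∧ ∀ b, a (b, i) = false
      · rw [if_pos ((e2 i).2 hh), if_pos hh]
        push_cast
        rfl
      · rw [if_neg (fun h' => hh ((e2 i).1 h')), if_neg hh]
        push_cast
        rfl
    rw [e3]
    push_cast
    ring
  · intro z hz
    rw [supp_opR i0 ε s (supp_start (m := m) x) z hz, star_zero, zero_mul]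

theorem nsq_opR (i0 : Fin n) {ε s : ℝ} (h : ε ^ 2 + s ^ 2 = 1) (ψ : Ket (QQ n m)) :
    nsq (opR i0 ε s ψ) = nsq ψ := by
  unfold opR
  rw [nsq_oneQubit (AV_mem h), nsq_diag _ (sgn_norm _), nsq_oneQubit (AV_mem h)]

theorem nsq_opG (ψ : Ket (QQ n m)) : nsq (opG ψ) = nsq ψ := by
  unfold opG
  rw [nsq_oneQubit (fun v => Xk_mem _), nsq_diag _ (sgn_norm _), nsq_oneQubit (fun v => Xk_mem _)]

end Circ

end P368
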