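import Vale.Agent.P368.Upper

/-! P368 upper bound: three layers with a suitable ancilla state. -/

open scoped BigOperators

namespace P368

section Anc

variable {n : ℕ} {A : Type} [Fintype A] [DecidableEq A]

theorem sum_split {M : Type} [AddCommMonoid M] (f : (Fin n ⊕ A → Bool) → M) :
    ∑ y, f y = ∑ y1 : Fin n → Bool, ∑ y2 : A → Bool, f (Sum.elim y1 y2) := by
  rw [← Fintype.sum_prod_type (f := fun p : (Fin n → Bool) × (A → Bool) => f (Sum.elim p.1 p.2))]
  refine Fintype.sum_equiv (Equiv.sumArrowEquivProdArrow (Fin n) A Bool) _ _ fun y => ?_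
  congr 1
  funext v
  rcases v with i | a <;> rfl

omit [Fintype A] [DecidableEq A] in
theorem start_elim (α : Ket A) (x y1 : Fin n → Bool) (y2 : A → Bool) :
    start α x (Sum.elim y1 y2) = if y1 = x then α y2 else 0 := rfl

theorem oneQubit_anc (W : Fin n ⊕ A → Matrix Bool Bool ℂ) (h1 : ∀ i, W (Sum.inl i) = 1)
    (α : Ket A) (x : Fin n → Bool) :
    oneQubit W (start α x) = start (oneQubit (fun a => W (Sum.inr a)) α) x := by
  funext z
  unfold oneQubit
  rw [sum_split]
  rw [Finset.sum_eq_single x]
  · simp only [start_elim, if_true]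
    have hz : start (fun z : A → Bool => ∑ y : A → Bool, (∏ v, W (Sum.inr v) (z v) (y v)) * α y) x z
        = if (fun i => z (Sum.inl i)) = x then
          ∑ y : A → Bool, (∏ v, W (Sum.inr v) (z (Sum.inr v)) (y v)) * α y else 0 := rfl
    rw [hz]
    by_cases hx : (fun i => z (Sum.inl i)) = x
    · rw [if_pos hx]
      refine Finset.sum_congr rfl fun y _ => ?_
      rw [Fintype.prod_sum_type]
      have e1 : ∏ i : Fin n, W (Sum.inl i) (z (Sum.inl i)) (Sum.elim x y (Sum.inl i)) = 1 := by
        refine Finset.prod_eq_one fun i _ => ?_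
        rw [h1]
        show (1 : Matrix Bool Bool ℂ) (z (Sum.inl i)) (x i) = 1
        rw [← hx]
        exact Matrix.one_apply_eq _
      rw [e1, one_mul]
      rfl
    · rw [if_neg hx]
      refine Finset.sum_eq_zero fun y _ => ?_
      obtain ⟨i, hi⟩ : ∃ i, z (Sum.inl i) ≠ x i := by
        by_contra hcon
        push Not at hcon
        exact hx (funext hcon)
      rw [Finset.prod_eq_zero (Finset.mem_univ (Sum.inl i)), zero_mul]
      rw [h1]
      show (1 : Matrix Bool Bool ℂ) (z (Sum.inl i)) (x i) = 0
      exact Matrix.one_apply_ne hi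
  · intro y1 _ hy1
    refine Finset.sum_eq_zero fun y2 _ => ?_
    rw [start_elim, if_neg hy1, mul_zero]
  · intro h
    exact absurd (Finset.mem_univ _) h

/-- A layer acting on ancillas only maps `start α x` to `start β x`. -/
theorem act_anc (L : Layer (Fin n ⊕ A)) (h1 : ∀ i, L.W (Sum.inl i) = 1)
    (h2 : ∀ i, L.ctrl (Sum.inl i) = ∅) (h3 : ∀ a i, Sum.inl i ∉ L.ctrl (Sum.inr a)) (α : Ket A) :
    ∃ β : Ket A, ∀ x : Fin n → Bool, L.act (start α x) = start β x := by
  refine ⟨fun a => ∑ y2 : A → Bool,
    if (fun a' => toffoli L.ctrl (Sum.elim (fun _ => false) y2) (Sum.inr a')) = a then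
      oneQubit (fun a => L.W (Sum.inr a)) α y2 else 0, fun x => ?_⟩
  funext z
  unfold Layer.act
  rw [oneQubit_anc L.W h1, sum_split, Finset.sum_eq_single x]
  · simp only [start_elim, if_true]
    have hz : start (fun a : A → Bool => ∑ y2 : A → Bool,
        if (fun a' => toffoli L.ctrl (Sum.elim (fun _ => false) y2) (Sum.inr a')) = a then
          oneQubit (fun a => L.W (Sum.inr a)) α y2 else 0) x z
        = if (fun i => z (Sum.inl i)) = x then ∑ y2 : A → Bool,
        if (fun a' => toffoli L.ctrl (Sum.elim (fun _ => false) y2) (Sum.inr a')) =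
          (fun a => z (Sum.inr a)) then
          oneQubit (fun a => L.W (Sum.inr a)) α y2 else 0 else 0 := rfl
    rw [hz]
    have key : ∀ y2 : A → Bool, toffoli L.ctrl (Sum.elim x y2) = z ↔
        ((fun i => z (Sum.inl i)) = x ∧
          (fun a' => toffoli L.ctrl (Sum.elim (fun _ => false) y2) (Sum.inr a')) =
          (fun a => z (Sum.inr a))) := by
      intro y2
      have k1 : ∀ i, toffoli L.ctrl (Sum.elim x y2) (Sum.inl i) = x i := by
        intro i
        rw [toffoli_of_empty]
        · rfl
        · rw [h2]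
          exact Finset.not_nonempty_empty
      have k2 : ∀ a, toffoli L.ctrl (Sum.elim x y2) (Sum.inr a) =
          toffoli L.ctrl (Sum.elim (fun _ => false) y2) (Sum.inr a) := by
        intro a
        unfold toffoli
        have e : ((L.ctrl (Sum.inr a)).Nonempty ∧ ∀ w ∈ L.ctrl (Sum.inr a),
            (Sum.elim x y2 : Fin n ⊕ A → Bool) w = true) ↔
            ((L.ctrl (Sum.inr a)).Nonempty ∧ ∀ w ∈ L.ctrl (Sum.inr a),
            (Sum.elim (fun _ => false) y2 : Fin n ⊕ A → Bool) w = true) := by
          refine and_congr Iff.rfl (forall_congr' fun w => ?_)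
          constructor
          · intro h hw
            have := h hw
            rcases w with i | a'
            · exact absurd hw (h3 a i)
            · exact this
          · intro h hw
            have := h hw
            rcases w with i | a'
            · exact absurd hw (h3 a i)
            · exact this
        rw [decide_eq_decide.2 e]
        rfl
      constructor
      · intro h
        subst h
        exact ⟨funext fun i => k1 i, funext fun a => (k2 a).symm⟩
      · rintro ⟨h, h'⟩
        funext v
        rcases v with i | a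
        · rw [k1]
          exact (congrFun h i).symm
        · rw [k2]
          exact congrFun h' a
    by_cases hx : (fun i => z (Sum.inl i)) = x
    · rw [if_pos hx]
      refine Finset.sum_congr rfl fun y2 _ => ?_
      by_cases h : (fun a' => toffoli L.ctrl (Sum.elim (fun _ => false) y2) (Sum.inr a')) =
          (fun a => z (Sum.inr a))
      · rw [if_pos h, if_pos ((key y2).2 ⟨hx, h⟩)]
      · rw [if_neg h, if_neg (fun h' => h ((key y2).1 h').2)]
    · rw [if_neg hx]
      refine Finset.sum_eq_zero fun y2 _ => ?_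
      rw [if_neg (fun h' => hx ((key y2).1 h').1)]
  · intro y1 _ hy1
    refine Finset.sum_eq_zero fun y2 _ => ?_
    rw [start_elim, if_neg hy1, ite_self]
  · intro h
    exact absurd (Finset.mem_univ _) h

theorem nsq_start_eq (α : Ket A) (x : Fin n → Bool) : nsq (start α x) = nsq α := by
  unfold nsq
  rw [sum_split, Finset.sum_eq_single x]
  · simp only [start_elim, if_true]
  · intro y1 _ hy1
    refine Finset.sum_eq_zero fun y2 _ => ?_
    rw [start_elim, if_neg hy1, norm_zero]
    norm_num
  · intro h
    exact absurd (Finset.mem_univ _) h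

end Anc

section Nrm

variable {V : Type} [Fintype V] [DecidableEq V]

theorem nsq_tofP {c : V → Finset V} (hc : GoodC c) (ψ : Ket V) : nsq (tofP c ψ) = nsq ψ := by
  unfold nsq
  let e : (V → Bool) ≃ (V → Bool) :=
    { toFun := toffoli c
      invFun := toffoli c
      left_inv := hc.invol
      right_inv := hc.invol }
  refine Fintype.sum_equiv e _ _ fun z => ?_
  rw [hc.tofP_apply]
  rfl

theorem nsq_act {L : Layer V} (hL : L.Valid) (ψ : Ket V) : nsq (L.act ψ) = nsq ψ := by
  rw [act_eq, nsq_tofP ⟨hL.target_notMem, hL.disjoint⟩, nsq_oneQubit hL.unitary]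

end Nrm

/-- With a suitable ancilla state parity is computed at entangling depth three with any prescribed
worst-case error `δ`. -/
theorem depth_three_state : ∃ C : ℝ, 0 < C ∧ ∀ n : ℕ, 2 ≤ n → ∀ δ : ℝ, 0 < δ → δ ≤ 1 →
    ∃ m : ℕ, (m : ℝ) ≤ (C * n / δ) ^ n ∧
    ∃ (α : Ket (Fin m × Fin n ⊕ Unit)) (L : List (Layer (Fin n ⊕ (Fin m × Fin n ⊕ Unit))))
      (F : (Fin n ⊕ (Fin m × Fin n ⊕ Unit)) → Matrix Bool Bool ℂ),
      nsq α = 1 ∧ L.length = 3 ∧ (∀ l ∈ L, l.Valid) ∧
      (∀ v, F v ∈ Matrix.unitaryGroup Bool ℂ) ∧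
      ∀ x : Fin n → Bool, 1 - δ ≤ prob L F (Sum.inr (Sum.inr ())) α x (par x) := by
  refine ⟨32, by norm_num, ?_⟩
  intro n hn δ hδ hδ1
  obtain ⟨m, ε, s, hm, hmb, h, hamp⟩ := choose_params hn hδ hδ1
  have i0 : Fin n := ⟨0, by omega⟩
  obtain ⟨β, hβ⟩ := act_anc (La (m := m) i0 ε s) (fun i => by
      show Hs (c1 i0) (Sum.inl i) * (1 : Matrix Bool Bool ℂ) = 1
      rw [mul_one]
      exact if_neg Finset.not_nonempty_empty) (fun i => rfl) (fun a i hai => by
      obtain ⟨b, i', -, -, h⟩ := mem_c1.1 hai
      simp at h) (zeros (Fin m × Fin n ⊕ Unit))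
  have hβ1 : nsq β = 1 := by
    rw [← nsq_start_eq β (fun _ => false), ← hβ, nsq_act (valid_La i0 h)]
    exact nsq_start _
  refine ⟨m, hmb, β, [Lb i0 ε s, Lc i0 ε s, Ld i0 ε s], fun _ => 1, hβ1, rfl, ?_,
    fun v => one_mem _, ?_⟩
  · intro l hl
    simp only [List.mem_cons, List.not_mem_nil, or_false] at hl
    rcases hl with rfl | rfl | rfl
    · exact valid_Lb i0 h
    · exact valid_Lc i0 h
    · exact valid_Ld i0 h
  · intro x
    have hsupp : Supp x (opR i0 ε s (opG (opR i0 ε s
        (start (zeros (Fin m × Fin n ⊕ Unit)) x : Ket (QQ n m))))) :=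
      supp_opR i0 ε s (supp_opG (supp_opR i0 ε s (supp_start x)))
    have hnorm : nsq (opR i0 ε s (opG (opR i0 ε s
        (start (zeros (Fin m × Fin n ⊕ Unit)) x : Ket (QQ n m))))) = 1 := by
      rw [nsq_opR i0 h, nsq_opG, nsq_opR i0 h, nsq_start]
    have hrun : run [Lb i0 ε s, Lc i0 ε s, Ld i0 ε s] (start β x) =
        run [La i0 ε s, Lb i0 ε s, Lc i0 ε s, Ld i0 ε s]
          (start (zeros (Fin m × Fin n ⊕ Unit)) x) := by
      rw [← hβ]
      rfl
    have hprob : prob [Lb i0 ε s, Lc i0 ε s, Ld i0 ε s] (fun _ => 1)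
        (Sum.inr (Sum.inr ())) β x (par x) =
        ∑ a : Fin m × Fin n → Bool, if (decide (a ≠ fun _ => false)) = par x then
          ‖opR i0 ε s (opG (opR i0 ε s
            (start (zeros (Fin m × Fin n ⊕ Unit)) x : Ket (QQ n m)))) (mk x a false)‖ ^ 2 else 0 := by
      unfold prob
      rw [hrun, run_eq]
      exact prob_eq hsupp (by omega) hm (par x)
    rw [hprob]
    have ha := hamp x
    set A := amp n m ε s x with hA
    have hAn : ‖opR i0 ε s (opG (opR i0 ε s
            (start (zeros (Fin m × Fin n ⊕ Unit)) x : Ket (QQ n m))))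
            (mk x (fun _ => false) false)‖ ^ 2 = A ^ 2 := by
      rw [amp_final hn hm i0 h x, Complex.norm_real, Real.norm_eq_abs, sq_abs]
    rcases Nat.even_or_odd (Finset.univ.filter fun i => x i = true).card with hpar | hpar
    · have hp : par x = false := by
        unfold par
        rw [decide_eq_false_iff_not, Nat.not_odd_iff_even]
        exact hpar
      rw [hp, prob_false, hAn]
      rw [hpar.neg_one_pow] at ha
      have h2 := (abs_le.1 ha).1
      nlinarith
    · have hp : par x = true := by
        unfold par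
        exact decide_eq_true hpar
      rw [hp, prob_true hsupp hnorm, hAn]
      rw [hpar.neg_one_pow] at ha
      have h2 := abs_le.1 ha
      nlinarith [h2.1, h2.2]

end P368
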