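import Mathlib

namespace P368

open scoped BigOperators InnerProductSpace

section Weak1

variable {H : Type*} [NormedAddCommGroup H] [InnerProductSpace ℂ H] [CompleteSpace H]

noncomputable def pre (f : ℕ → (H →L[ℂ] H)) : ℕ → (H →L[ℂ] H)
  | 0 => 1
  | k + 1 => f k * pre f k

structure Chain (H : Type*) [NormedAddCommGroup H] [InnerProductSpace ℂ H] [CompleteSpace H] where
  m : ℕ
  τ : ℝ
  W : ℝ
  Q : ℕ → (H →L[ℂ] H)
  P : ℕ → (H →L[ℂ] H)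
  O : ℕ → (H →L[ℂ] H)
  Φ : ℕ → (H →L[ℂ] H)
  D : ℕ → (H →L[ℂ] H)
  c : ℕ → ℝ
  w : ℕ → ℝ
  hτ0 : 0 ≤ τ
  hτ : τ ≤ 1 / 4
  hc : ∀ j, 0 ≤ c j
  hw : ∀ j, 0 ≤ w j
  hcw : ∀ j, c j ^ 2 + w j = 1
  hwτ : ∀ j, w j ≤ τ
  hW : ∑ j ∈ Finset.range m, w j ≤ W
  hQ : ∀ j, IsStarProjection (Q j)
  hP : ∀ j, IsStarProjection (P j)
  hO : ∀ j, IsStarProjection (O j)
  hΦ : ∀ j, star (Φ j) * Φ j = 1
  hD : ∀ j, star (D j) = D j
  hD1 : ∀ j, ‖D j‖ ≤ 1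
  hD2 : ∀ j, ‖1 - D j‖ ≤ 1
  comm : ∀ i j, i ≠ j → ∀ A ∈ ({Q i, P i, O i, Φ i, D i} : Set (H →L[ℂ] H)),
    ∀ B ∈ ({Q j, P j, O j, Φ j, D j} : Set (H →L[ℂ] H)), Commute A B
  commPO : ∀ j, Commute (P j) (O j)
  commPD : ∀ j, Commute (P j) (D j)
  commOΦ : ∀ j, Commute (O j) (Φ j)
  commOD : ∀ j, Commute (O j) (D j)
  commΦD : ∀ j, Commute (Φ j) (D j)
  hPΦ : ∀ j, P j * Φ j * P j = (c j : ℂ) • P j
  key : ∀ j x y, P j x = x → O j x = x → P j y = y → O j y = y →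
    ⟪Φ j x - (c j : ℂ) • x, Q j (Φ j y - (c j : ℂ) • y)⟫_ℂ = (w j : ℂ) * ⟪x, D j y⟫_ℂ

namespace Chain

variable (S : Chain H)

noncomputable def ν (j : ℕ) : H →L[ℂ] H := S.Q j + ((Real.sqrt S.τ : ℝ) : ℂ) • (1 - S.Q j)

noncomputable def Λ (j : ℕ) : H →L[ℂ] H :=
  ((S.c j ^ 2 : ℝ) : ℂ) • (1 : H →L[ℂ] H) + (S.w j : ℂ) • S.D j

noncomputable def Cr (η : H) : ℝ :=
  ∑ j ∈ Finset.range S.m, ‖S.O j ((1 - S.P j) (S.Q j (pre S.ν j η)))‖ ^ 2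

noncomputable def Ka (η : H) : ℝ :=
  ∑ j ∈ Finset.range S.m, ‖(1 - S.O j) η‖ ^ 2

noncomputable def K : ℝ := 4 * (1 + S.W) * Real.exp S.W

noncomputable def Err (η' η : H) : ℝ :=
  S.K * (Real.sqrt (S.Cr η') * ‖η‖ + Real.sqrt (S.Cr η) * ‖η'‖ +
    Real.sqrt S.τ * (Real.sqrt (S.Ka η) * ‖η'‖ + Real.sqrt (S.Ka η') * ‖η‖ + ‖η‖ * ‖η'‖))

end Chain

/-! ### general operator facts -/

theorem inner_sa {A : H →L[ℂ] H} (hA : star A = A) (x y : H) : ⟪A x, y⟫_ℂ = ⟪x, A y⟫_ℂ := by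
  have h := ContinuousLinearMap.adjoint_inner_right A x y
  rw [← ContinuousLinearMap.star_eq_adjoint, hA] at h
  exact h.symm

theorem proj_norm_sq {Q : H →L[ℂ] H} (hQ : IsStarProjection Q) (x : H) :
    ‖x‖ ^ 2 = ‖Q x‖ ^ 2 + ‖(1 - Q) x‖ ^ 2 := by
  have hsa : star Q = Q := hQ.isSelfAdjoint
  have hid : Q * Q = Q := hQ.isIdempotentElem
  have h0 : ⟪Q x, (1 - Q) x⟫_ℂ = 0 := by
    rw [inner_sa hsa]
    have : Q ((1 - Q) x) = 0 := by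
      have h1 : (Q * (1 - Q)) x = 0 := by
        rw [mul_sub, mul_one, hid, sub_self]
        rfl
      exact h1
    rw [this, inner_zero_right]
  have h1 : x = Q x + (1 - Q) x := by
    simp
  have h2 := norm_add_sq_eq_norm_sq_add_norm_sq_of_inner_eq_zero (𝕜 := ℂ) (Q x) ((1 - Q) x) h0
  rw [← h1] at h2
  nlinarith [h2]

theorem proj_norm_le {Q : H →L[ℂ] H} (hQ : IsStarProjection Q) (x : H) : ‖Q x‖ ≤ ‖x‖ := by
  have h := proj_norm_sq hQ x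
  refine le_of_sq_le_sq ?_ (norm_nonneg _) 
  nlinarith [sq_nonneg ‖(1 - Q) x‖]

theorem proj_one_sub {Q : H →L[ℂ] H} (hQ : IsStarProjection Q) : IsStarProjection (1 - Q) :=
  hQ.one_sub

omit [CompleteSpace H] in
theorem pre_contr {f : ℕ → (H →L[ℂ] H)} (hf : ∀ i, ∀ x, ‖f i x‖ ≤ ‖x‖) (k : ℕ) (x : H) :
    ‖pre f k x‖ ≤ ‖x‖ := by
  induction k with
  | zero => exact le_rfl
  | succ k ih => exact (hf k (pre f k x)).trans ih

omit [CompleteSpace H] in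
theorem pre_iso {f : ℕ → (H →L[ℂ] H)} (hf : ∀ i, ∀ x, ‖f i x‖ = ‖x‖) (k : ℕ) (x : H) :
    ‖pre f k x‖ = ‖x‖ := by
  induction k with
  | zero => rfl
  | succ k ih => exact (hf k (pre f k x)).trans ih

omit [CompleteSpace H] in
theorem pre_add (f : ℕ → (H →L[ℂ] H)) (a b : ℕ) :
    pre f (a + b) = pre (fun i => f (a + i)) b * pre f a := by
  induction b with
  | zero => show pre f a = 1 * pre f a; rw [one_mul]
  | succ b ih =>
    show f (a + b) * pre f (a + b) = f (a + b) * pre (fun i => f (a + i)) b * pre f a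
    rw [ih, mul_assoc]

omit [CompleteSpace H] in
/-- splitting at `j`. -/
theorem pre_split (f : ℕ → (H →L[ℂ] H)) {j m : ℕ} (hj : j < m) :
    pre f m = pre (fun i => f (j + 1 + i)) (m - (j + 1)) * (f j * pre f j) := by
  have h : m = j + 1 + (m - (j + 1)) := by omega
  conv_lhs => rw [h]
  rw [pre_add]
  rfl

namespace Chain

variable (S : Chain H)

def base (i : ℕ) : Set (H →L[ℂ] H) := {S.Q i, S.P i, S.O i, S.Φ i, S.D i}

/-- the algebra of the gates with index in `s`. -/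
def LA (s : Set ℕ) : Subalgebra ℂ (H →L[ℂ] H) :=
  Algebra.adjoin ℂ {A | ∃ i ∈ s, A ∈ S.base i}

theorem LA_comm {s t : Set ℕ} (hst : ∀ i ∈ s, ∀ j ∈ t, i ≠ j) {A B : H →L[ℂ] H}
    (hA : A ∈ S.LA s) (hB : B ∈ S.LA t) : Commute A B := by
  have h1 : S.LA t ≤ Subalgebra.centralizer ℂ {A | ∃ i ∈ s, A ∈ S.base i} := by
    refine Algebra.adjoin_le ?_
    rintro B ⟨j, hj, hB⟩
    refine (Subalgebra.mem_centralizer_iff ℂ).2 ?_
    rintro A ⟨i, hi, hA⟩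
    exact S.comm i j (hst i hi j hj) A hA B hB
  have h2 : S.LA s ≤ Subalgebra.centralizer ℂ (S.LA t : Set (H →L[ℂ] H)) := by
    refine Algebra.adjoin_le ?_
    rintro A ⟨i, hi, hA⟩
    refine (Subalgebra.mem_centralizer_iff ℂ).2 ?_
    intro B hB
    exact ((Subalgebra.mem_centralizer_iff ℂ).1 (h1 hB) A ⟨i, hi, hA⟩).symm
  exact ((Subalgebra.mem_centralizer_iff ℂ).1 (h2 hA) B hB).symm

theorem LA_mono {s t : Set ℕ} (hst : s ⊆ t) : S.LA s ≤ S.LA t := by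
  refine Algebra.adjoin_mono ?_
  rintro A ⟨i, hi, hA⟩
  exact ⟨i, hst hi, hA⟩

theorem base_mem {i : ℕ} {s : Set ℕ} (hi : i ∈ s) {A : H →L[ℂ] H} (hA : A ∈ S.base i) :
    A ∈ S.LA s := Algebra.subset_adjoin ⟨i, hi, hA⟩

theorem Q_mem {i : ℕ} {s : Set ℕ} (hi : i ∈ s) : S.Q i ∈ S.LA s :=
  S.base_mem hi (by simp [base])
theorem P_mem {i : ℕ} {s : Set ℕ} (hi : i ∈ s) : S.P i ∈ S.LA s :=
  S.base_mem hi (by simp [base])
theorem O_mem {i : ℕ} {s : Set ℕ} (hi : i ∈ s) : S.O i ∈ S.LA s :=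
  S.base_mem hi (by simp [base])
theorem Φ_mem {i : ℕ} {s : Set ℕ} (hi : i ∈ s) : S.Φ i ∈ S.LA s :=
  S.base_mem hi (by simp [base])
theorem D_mem {i : ℕ} {s : Set ℕ} (hi : i ∈ s) : S.D i ∈ S.LA s :=
  S.base_mem hi (by simp [base])

theorem ν_mem {i : ℕ} {s : Set ℕ} (hi : i ∈ s) : S.ν i ∈ S.LA s :=
  add_mem (S.Q_mem hi) (Subalgebra.smul_mem _ (sub_mem (one_mem _) (S.Q_mem hi)) _)

theorem Λ_mem {i : ℕ} {s : Set ℕ} (hi : i ∈ s) : S.Λ i ∈ S.LA s :=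
  add_mem (Subalgebra.smul_mem _ (one_mem _) _) (Subalgebra.smul_mem _ (S.D_mem hi) _)

theorem pre_mem {f : ℕ → (H →L[ℂ] H)} {s : Set ℕ} {k : ℕ} (hf : ∀ i < k, f i ∈ S.LA s) :
    pre f k ∈ S.LA s := by
  induction k with
  | zero => exact one_mem _
  | succ k ih => exact mul_mem (hf k (Nat.lt_succ_self k)) (ih fun i hi => hf i (Nat.lt_succ_of_lt hi))

theorem norm_Q (i : ℕ) (x : H) : ‖S.Q i x‖ ≤ ‖x‖ := proj_norm_le (S.hQ i) x
theorem norm_P (i : ℕ) (x : H) : ‖S.P i x‖ ≤ ‖x‖ := proj_norm_le (S.hP i) x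
theorem norm_O (i : ℕ) (x : H) : ‖S.O i x‖ ≤ ‖x‖ := proj_norm_le (S.hO i) x
theorem norm_Q' (i : ℕ) (x : H) : ‖(1 - S.Q i) x‖ ≤ ‖x‖ := proj_norm_le (S.hQ i).one_sub x
theorem norm_P' (i : ℕ) (x : H) : ‖(1 - S.P i) x‖ ≤ ‖x‖ := proj_norm_le (S.hP i).one_sub x
theorem norm_O' (i : ℕ) (x : H) : ‖(1 - S.O i) x‖ ≤ ‖x‖ := proj_norm_le (S.hO i).one_sub x

theorem norm_Φ (i : ℕ) (x : H) : ‖S.Φ i x‖ = ‖x‖ := by
  have h : ⟪S.Φ i x, S.Φ i x⟫_ℂ = ⟪x, x⟫_ℂ := by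
    have h1 := ContinuousLinearMap.adjoint_inner_right (S.Φ i) x (S.Φ i x)
    rw [← ContinuousLinearMap.star_eq_adjoint] at h1
    rw [← h1]
    have h2 : star (S.Φ i) (S.Φ i x) = x := by
      have := congrArg (fun A : H →L[ℂ] H => A x) (S.hΦ i)
      exact this
    rw [h2]
  have h3 : ‖S.Φ i x‖ ^ 2 = ‖x‖ ^ 2 := by
    rw [← inner_self_eq_norm_sq (𝕜 := ℂ), ← inner_self_eq_norm_sq (𝕜 := ℂ) x, h]
  exact (pow_left_inj₀ (norm_nonneg _) (norm_nonneg _) two_ne_zero).1 h3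

theorem norm_D (i : ℕ) (x : H) : ‖S.D i x‖ ≤ ‖x‖ :=
  (ContinuousLinearMap.le_opNorm _ _).trans (mul_le_of_le_one_left (norm_nonneg _) (S.hD1 i))

theorem norm_D' (i : ℕ) (x : H) : ‖(1 - S.D i) x‖ ≤ ‖x‖ :=
  (ContinuousLinearMap.le_opNorm _ _).trans (mul_le_of_le_one_left (norm_nonneg _) (S.hD2 i))

theorem c_le_one (i : ℕ) : S.c i ≤ 1 := by
  have h1 := S.hcw i
  have h2 := S.hw i
  have h3 := S.hc i
  nlinarith

theorem norm_Λ (i : ℕ) (x : H) : ‖S.Λ i x‖ ≤ ‖x‖ := by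
  have h1 : S.Λ i x = ((S.c i ^ 2 : ℝ) : ℂ) • x + (S.w i : ℂ) • S.D i x := rfl
  rw [h1]
  refine (norm_add_le _ _).trans ?_
  rw [norm_smul, norm_smul, Complex.norm_real, Complex.norm_real, Real.norm_of_nonneg (sq_nonneg _),
    Real.norm_of_nonneg (S.hw i)]
  have h2 := mul_le_mul_of_nonneg_left (S.norm_D i x) (S.hw i)
  have h3 := S.hcw i
  calc S.c i ^ 2 * ‖x‖ + S.w i * ‖S.D i x‖ ≤ S.c i ^ 2 * ‖x‖ + S.w i * ‖x‖ := by linarith
    _ = (S.c i ^ 2 + S.w i) * ‖x‖ := by ring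
    _ = ‖x‖ := by rw [h3, one_mul]

theorem star_Λ (i : ℕ) : star (S.Λ i) = S.Λ i := by
  unfold Λ
  rw [star_add, star_smul, star_smul, star_one, S.hD]
  congr 1
  · congr 1
    exact Complex.conj_ofReal _
  · congr 1
    exact Complex.conj_ofReal _

theorem ν_norm_sq (i : ℕ) (x : H) : ‖S.ν i x‖ ^ 2 = ‖S.Q i x‖ ^ 2 + S.τ * ‖(1 - S.Q i) x‖ ^ 2 := by
  have hid : S.Q i * S.Q i = S.Q i := (S.hQ i).isIdempotentElem
  have h1 := proj_norm_sq (S.hQ i) (S.ν i x)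
  have h2 : S.Q i (S.ν i x) = S.Q i x := by
    have h : S.Q i * S.ν i = S.Q i := by
      unfold ν
      rw [mul_add, hid, mul_smul_comm, mul_sub, mul_one, hid, sub_self, smul_zero, add_zero]
    exact congrArg (fun A : H →L[ℂ] H => A x) h
  have h3 : (1 - S.Q i) (S.ν i x) = ((Real.sqrt S.τ : ℝ) : ℂ) • (1 - S.Q i) x := by
    have h : (1 - S.Q i) * S.ν i = ((Real.sqrt S.τ : ℝ) : ℂ) • (1 - S.Q i) := by
      unfold ν
      have h4 : (1 - S.Q i) * (1 - S.Q i) = 1 - S.Q i := (S.hQ i).one_sub.isIdempotentElem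
      have h5 : (1 - S.Q i) * S.Q i = 0 := by rw [sub_mul, one_mul, hid, sub_self]
      rw [mul_add, h5, mul_smul_comm, h4, zero_add]
    exact congrArg (fun A : H →L[ℂ] H => A x) h
  rw [h1, h2, h3, norm_smul, Complex.norm_real, Real.norm_of_nonneg (Real.sqrt_nonneg _), mul_pow,
    Real.sq_sqrt S.hτ0]

/-- one gate inequality -/
theorem one_gate (i : ℕ) (z : H) : ‖S.Q i (S.Λ i z)‖ ≤ (1 + S.w i) * ‖S.ν i z‖ := by
  have h1 : S.Q i (S.Λ i z) = S.Q i z - (S.w i : ℂ) • S.Q i ((1 - S.D i) z) := by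
    have h2 : S.Λ i z = z - (S.w i : ℂ) • ((1 - S.D i) z) := by
      have h3 : S.Λ i z = ((S.c i ^ 2 : ℝ) : ℂ) • z + (S.w i : ℂ) • S.D i z := rfl
      have h4 : S.c i ^ 2 = 1 - S.w i := by linarith [S.hcw i]
      have h5 : (1 - S.D i) z = z - S.D i z := rfl
      rw [h3, h4, h5]
      push_cast
      rw [sub_smul, one_smul, smul_sub]
      abel
    rw [h2, map_sub, map_smul]
  have h2 : ‖S.Q i (S.Λ i z)‖ ≤ ‖S.Q i z‖ + S.w i * ‖z‖ := by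
    rw [h1]
    refine (norm_sub_le _ _).trans ?_
    rw [norm_smul, Complex.norm_real, Real.norm_of_nonneg (S.hw i)]
    have := mul_le_mul_of_nonneg_left ((S.norm_Q i _).trans (S.norm_D' i z)) (S.hw i)
    linarith
  refine h2.trans ?_
  have hw0 := S.hw i
  have hwτ := S.hwτ i
  have hA := norm_nonneg (S.Q i z)
  have hB := norm_nonneg ((1 - S.Q i) z)
  have hz := norm_nonneg z
  have hν := norm_nonneg (S.ν i z)
  have e1 := S.ν_norm_sq i z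
  have e2 := proj_norm_sq (S.hQ i) z
  set A := ‖S.Q i z‖
  set B := ‖(1 - S.Q i) z‖
  set N := ‖z‖
  set n := ‖S.ν i z‖
  set w := S.w i
  have hAN : A ≤ N := S.norm_Q i z
  -- compare squares
  refine le_of_sq_le_sq ?_ (by positivity)
  have h3 : (1 + w) ^ 2 * n ^ 2 = (1 + w) ^ 2 * (A ^ 2 + S.τ * B ^ 2) := by rw [e1]
  have h4 : 2 * w * A * N ≤ 2 * w * A ^ 2 + w * B ^ 2 := by
    -- A * (N - A) ≤ B^2 / 2
    have h5 : 2 * (A * (N - A)) ≤ B ^ 2 := by nlinarith [mul_nonneg (sub_nonneg.2 hAN) (sub_nonneg.2 hAN)]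
    nlinarith
  have h6 : w * B ^ 2 ≤ S.τ * B ^ 2 := mul_le_mul_of_nonneg_right hwτ (sq_nonneg _)
  have h7 : 0 ≤ w ^ 2 * B ^ 2 := by positivity
  have h8 : 0 ≤ w ^ 3 * B ^ 2 := by positivity
  calc (A + w * N) ^ 2 = A ^ 2 + 2 * w * A * N + w ^ 2 * N ^ 2 := by ring
    _ ≤ A ^ 2 + (2 * w * A ^ 2 + w * B ^ 2) + w ^ 2 * (A ^ 2 + B ^ 2) := by rw [← e2]; linarith
    _ ≤ (1 + w) ^ 2 * (A ^ 2 + w * B ^ 2) := by nlinarith
    _ ≤ (1 + w) ^ 2 * (A ^ 2 + S.τ * B ^ 2) := by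
        refine mul_le_mul_of_nonneg_left (by linarith) (sq_nonneg _)
    _ = ((1 + w) * n) ^ 2 := by rw [← h3]; ring

theorem prod_le_exp (j : ℕ) (hj : j ≤ S.m) :
    ∏ i ∈ Finset.range j, (1 + S.w i) ≤ Real.exp S.W := by
  calc ∏ i ∈ Finset.range j, (1 + S.w i) ≤ ∏ i ∈ Finset.range j, Real.exp (S.w i) :=
        Finset.prod_le_prod (fun i _ => by linarith [S.hw i])
          (fun i _ => by linarith [Real.add_one_le_exp (S.w i)])
    _ = Real.exp (∑ i ∈ Finset.range j, S.w i) := (Real.exp_sum _ _).symm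
    _ ≤ Real.exp S.W := Real.exp_le_exp.2 ((Finset.sum_le_sum_of_subset_of_nonneg
        (Finset.range_mono hj) (fun i _ _ => S.hw i)).trans S.hW)

theorem QΛ_le (j : ℕ) (z : H) : ‖pre S.Q j (pre S.Λ j z)‖ ≤
    (∏ i ∈ Finset.range j, (1 + S.w i)) * ‖pre S.ν j z‖ := by
  induction j generalizing z with
  | zero => simp [pre]
  | succ j ih =>
    have hc : Commute (pre S.Q j) (S.Λ j) := S.LA_comm (s := Set.Iio j) (t := {j})
      (fun i hi k hk => by rw [Set.mem_singleton_iff.1 hk]; exact ne_of_lt hi)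
      (S.pre_mem fun i hi => S.Q_mem hi) (S.Λ_mem rfl)
    have hν : Commute (pre S.ν j) (S.ν j) := S.LA_comm (s := Set.Iio j) (t := {j})
      (fun i hi k hk => by rw [Set.mem_singleton_iff.1 hk]; exact ne_of_lt hi)
      (S.pre_mem fun i hi => S.ν_mem hi) (S.ν_mem rfl)
    have hQν : Commute (S.ν j) (pre S.Q j * pre S.Λ j) := S.LA_comm (s := {j}) (t := Set.Iio j)
      (fun i hi k hk => by rw [Set.mem_singleton_iff.1 hi]; exact (ne_of_lt hk).symm)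
      (S.ν_mem rfl) (mul_mem (S.pre_mem fun i hi => S.Q_mem hi) (S.pre_mem fun i hi => S.Λ_mem hi))
    have h1 : pre S.Q (j + 1) (pre S.Λ (j + 1) z) = S.Q j (S.Λ j (pre S.Q j (pre S.Λ j z))) := by
      have h2 : pre S.Q (j + 1) * pre S.Λ (j + 1) = S.Q j * (S.Λ j * (pre S.Q j * pre S.Λ j)) := by
        show (S.Q j * pre S.Q j) * (S.Λ j * pre S.Λ j) = _
        calc (S.Q j * pre S.Q j) * (S.Λ j * pre S.Λ j)
            = S.Q j * ((pre S.Q j * S.Λ j) * pre S.Λ j) := by simp only [mul_assoc]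
          _ = S.Q j * ((S.Λ j * pre S.Q j) * pre S.Λ j) := by rw [hc.eq]
          _ = _ := by simp only [mul_assoc]
      exact congrArg (fun A : H →L[ℂ] H => A z) h2
    rw [h1]
    refine (S.one_gate j _).trans ?_
    have h3 : S.ν j (pre S.Q j (pre S.Λ j z)) = pre S.Q j (pre S.Λ j (S.ν j z)) :=
      congrArg (fun A : H →L[ℂ] H => A z) hQν.eq
    have h4 : pre S.ν j (S.ν j z) = pre S.ν (j + 1) z :=
      congrArg (fun A : H →L[ℂ] H => A z) hν.eq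
    rw [h3, Finset.prod_range_succ]
    have h5 := ih (S.ν j z)
    rw [h4] at h5
    have h6 := mul_le_mul_of_nonneg_left h5 (show 0 ≤ 1 + S.w j by linarith [S.hw j])
    calc (1 + S.w j) * ‖pre S.Q j (pre S.Λ j (S.ν j z))‖
        ≤ (1 + S.w j) * ((∏ i ∈ Finset.range j, (1 + S.w i)) * ‖pre S.ν (j + 1) z‖) := h6
      _ = _ := by ring

theorem Q_le_ν (j : ℕ) (z : H) : ‖pre S.Q j z‖ ≤ ‖pre S.ν j z‖ := by
  induction j generalizing z with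
  | zero => exact le_rfl
  | succ j ih =>
    have hQν : Commute (S.ν j) (pre S.Q j) := S.LA_comm (s := {j}) (t := Set.Iio j)
      (fun i hi k hk => by rw [Set.mem_singleton_iff.1 hi]; exact (ne_of_lt hk).symm)
      (S.ν_mem rfl) (S.pre_mem fun i hi => S.Q_mem hi)
    have hν : Commute (pre S.ν j) (S.ν j) := S.LA_comm (s := Set.Iio j) (t := {j})
      (fun i hi k hk => by rw [Set.mem_singleton_iff.1 hk]; exact ne_of_lt hi)
      (S.pre_mem fun i hi => S.ν_mem hi) (S.ν_mem rfl)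
    have h1 : ‖S.Q j (pre S.Q j z)‖ ≤ ‖S.ν j (pre S.Q j z)‖ := by
      have h2 := S.ν_norm_sq j (pre S.Q j z)
      refine le_of_sq_le_sq ?_ (norm_nonneg _)
      have := mul_nonneg S.hτ0 (sq_nonneg ‖(1 - S.Q j) (pre S.Q j z)‖)
      linarith
    have h3 : S.ν j (pre S.Q j z) = pre S.Q j (S.ν j z) :=
      congrArg (fun A : H →L[ℂ] H => A z) hQν.eq
    have h4 : pre S.ν j (S.ν j z) = pre S.ν (j + 1) z :=
      congrArg (fun A : H →L[ℂ] H => A z) hν.eq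
    show ‖S.Q j (pre S.Q j z)‖ ≤ _
    refine h1.trans ?_
    rw [h3, ← h4]
    exact ih _

end Chain

/-- telescoping lemma -/
theorem chain_tele (m : ℕ) (τ : ℝ) (hτ0 : 0 ≤ τ) (hτ : τ ≤ 1 / 4) (Q : ℕ → (H →L[ℂ] H))
    (hQ : ∀ j, IsStarProjection (Q j)) (hc : ∀ i j, Commute (Q i) (Q j)) (η : H) :
    ∑ j ∈ Finset.range m,
      ‖(1 - Q j) (pre (fun i => Q i + ((Real.sqrt τ : ℝ) : ℂ) • (1 - Q i)) j η)‖ ^ 2 ≤
      4 / 3 * ‖η‖ ^ 2 := by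
  set ν : ℕ → (H →L[ℂ] H) := fun i => Q i + ((Real.sqrt τ : ℝ) : ℂ) • (1 - Q i) with hν
  have hstep : ∀ j x, ‖ν j x‖ ^ 2 = ‖x‖ ^ 2 - (1 - τ) * ‖(1 - Q j) x‖ ^ 2 := by
    intro i x
    have hid : Q i * Q i = Q i := (hQ i).isIdempotentElem
    have h1 := proj_norm_sq (hQ i) (ν i x)
    have h2 : Q i (ν i x) = Q i x := by
      have h : Q i * ν i = Q i := by
        rw [hν]
        show Q i * (Q i + ((Real.sqrt τ : ℝ) : ℂ) • (1 - Q i)) = Q i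
        rw [mul_add, hid, mul_smul_comm, mul_sub, mul_one, hid, sub_self, smul_zero, add_zero]
      exact congrArg (fun A : H →L[ℂ] H => A x) h
    have h3 : (1 - Q i) (ν i x) = ((Real.sqrt τ : ℝ) : ℂ) • (1 - Q i) x := by
      have h : (1 - Q i) * ν i = ((Real.sqrt τ : ℝ) : ℂ) • (1 - Q i) := by
        rw [hν]
        show (1 - Q i) * (Q i + ((Real.sqrt τ : ℝ) : ℂ) • (1 - Q i)) = _
        have h4 : (1 - Q i) * (1 - Q i) = 1 - Q i := (hQ i).one_sub.isIdempotentElem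
        have h5 : (1 - Q i) * Q i = 0 := by rw [sub_mul, one_mul, hid, sub_self]
        rw [mul_add, h5, mul_smul_comm, h4, zero_add]
      exact congrArg (fun A : H →L[ℂ] H => A x) h
    have h4 := proj_norm_sq (hQ i) x
    rw [h1, h2, h3, norm_smul, Complex.norm_real, Real.norm_of_nonneg (Real.sqrt_nonneg _),
      mul_pow, Real.sq_sqrt hτ0]
    linarith
  have htot : ∀ m, (1 - τ) * ∑ j ∈ Finset.range m, ‖(1 - Q j) (pre ν j η)‖ ^ 2 =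
      ‖η‖ ^ 2 - ‖pre ν m η‖ ^ 2 := by
    intro m
    induction m with
    | zero => simp [pre]
    | succ m ih =>
      rw [Finset.sum_range_succ, mul_add, ih]
      have h1 : pre ν (m + 1) η = ν m (pre ν m η) := rfl
      rw [h1, hstep]
      ring
  have h1 := htot m
  have h2 : 0 ≤ ∑ j ∈ Finset.range m, ‖(1 - Q j) (pre ν j η)‖ ^ 2 :=
    Finset.sum_nonneg fun _ _ => sq_nonneg _
  have h3 := sq_nonneg ‖pre ν m η‖
  nlinarith

theorem proj_mul {A B : H →L[ℂ] H} (hA : IsStarProjection A) (hB : IsStarProjection B)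
    (h : Commute A B) : IsStarProjection (A * B) := by
  have hAs : star A = A := hA.isSelfAdjoint
  have hBs : star B = B := hB.isSelfAdjoint
  have hAi : A * A = A := hA.isIdempotentElem
  have hBi : B * B = B := hB.isIdempotentElem
  refine ⟨?_, ?_⟩
  · show A * B * (A * B) = A * B
    calc A * B * (A * B) = A * (B * A) * B := by simp only [mul_assoc]
      _ = A * (A * B) * B := by rw [h.eq]
      _ = (A * A) * (B * B) := by simp only [mul_assoc]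
      _ = A * B := by rw [hAi, hBi]
  · show star (A * B) = A * B
    rw [star_mul, hAs, hBs, h.eq]

theorem proj_one : IsStarProjection (1 : H →L[ℂ] H) := ⟨one_mul 1, star_one _⟩

omit [CompleteSpace H] in
theorem comm_pre {X : H →L[ℂ] H} {Q : ℕ → (H →L[ℂ] H)} (hc : ∀ i, Commute X (Q i)) (k : ℕ) :
    Commute X (pre Q k) := by
  induction k with
  | zero => exact Commute.one_right _
  | succ k ih => exact (hc k).mul_right ih

theorem pre_proj {Q : ℕ → (H →L[ℂ] H)} (hQ : ∀ j, IsStarProjection (Q j))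
    (hc : ∀ i j, Commute (Q i) (Q j)) (k : ℕ) : IsStarProjection (pre Q k) := by
  induction k with
  | zero => exact proj_one
  | succ k ih => exact proj_mul (hQ k) ih (comm_pre (hc k) k)

namespace Chain

variable (S : Chain H)

theorem Q_comm (i j : ℕ) : Commute (S.Q i) (S.Q j) := by
  by_cases h : i = j
  · rw [h]
  · exact S.comm i j h _ (by simp) _ (by simp)

/-- creation amplitude -/
noncomputable def cr (j : ℕ) (z : H) : ℝ := ‖S.O j ((1 - S.P j) (S.Q j (pre S.ν j z)))‖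

noncomputable def qq (j : ℕ) (z : H) : ℝ := ‖(1 - S.Q j) (pre S.ν j z)‖

noncomputable def ka (j : ℕ) (z : H) : ℝ := ‖(1 - S.O j) z‖

/-- remaining gates -/
noncomputable def seg (f : ℕ → (H →L[ℂ] H)) (j : ℕ) : H →L[ℂ] H :=
  pre (fun i => f (j + i)) (S.m - j)

theorem seg_zero (f : ℕ → (H →L[ℂ] H)) : S.seg f 0 = pre f S.m := by
  unfold seg
  rw [Nat.sub_zero]
  congr 1
  funext i
  rw [Nat.zero_add]

theorem seg_m (f : ℕ → (H →L[ℂ] H)) : S.seg f S.m = 1 := by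
  unfold seg
  rw [Nat.sub_self]
  rfl

theorem seg_succ (f : ℕ → (H →L[ℂ] H)) {j : ℕ} (hj : j < S.m) :
    S.seg f j = S.seg f (j + 1) * f j := by
  unfold seg
  have h : S.m - j = 1 + (S.m - (j + 1)) := by omega
  rw [h, pre_add]
  have h2 : pre (fun i => f (j + i)) 1 = f j := by
    show f (j + 0) * 1 = f j
    rw [mul_one, add_zero]
  rw [h2]
  congr 2
  funext i
  congr 1
  ring

theorem seg_mem {f : ℕ → (H →L[ℂ] H)} (hf : ∀ i, f i ∈ S.LA {i}) (j : ℕ) :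
    S.seg f (j + 1) ∈ S.LA (Set.Ioi j) := by
  refine S.pre_mem fun i _ => S.LA_mono ?_ (hf (j + 1 + i))
  rw [Set.singleton_subset_iff]
  show j < j + 1 + i
  omega

theorem pre_mem' {f : ℕ → (H →L[ℂ] H)} (hf : ∀ i, f i ∈ S.LA {i}) (j : ℕ) :
    pre f j ∈ S.LA (Set.Iio j) :=
  S.pre_mem fun i hi =>
    S.LA_mono (s := {i}) (t := Set.Iio j) (Set.singleton_subset_iff.2 hi) (hf i)

theorem comm_lo {j : ℕ} {A B : H →L[ℂ] H} (hA : A ∈ S.LA (Set.Iio j)) (hB : B ∈ S.LA {j}) :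
    Commute A B :=
  S.LA_comm (fun i hi k hk => by rw [Set.mem_singleton_iff.1 hk]; exact ne_of_lt hi) hA hB

theorem comm_hi {j : ℕ} {A B : H →L[ℂ] H} (hA : A ∈ S.LA (Set.Ioi j)) (hB : B ∈ S.LA {j}) :
    Commute A B :=
  S.LA_comm (fun i hi k hk => by rw [Set.mem_singleton_iff.1 hk]; exact ne_of_gt hi) hA hB

theorem comm_hilo {j : ℕ} {A B : H →L[ℂ] H} (hA : A ∈ S.LA (Set.Ioi j))
    (hB : B ∈ S.LA (Set.Iio j)) : Commute A B :=
  S.LA_comm (fun _ hi _ hk => ne_of_gt (lt_trans (Set.mem_Iio.1 hk) (Set.mem_Ioi.1 hi))) hA hB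

/-- dropping the other gates -/
theorem drop_gates {j : ℕ} {X T M : H →L[ℂ] H} (hX : X ∈ S.LA {j}) (hT : T ∈ S.LA (Set.Ioi j))
    (hM : M ∈ S.LA (Set.Iio j)) (hT1 : ∀ x, ‖T x‖ ≤ ‖x‖) {κ : ℝ}
    (hMκ : ∀ x, ‖M x‖ ≤ κ * ‖pre S.ν j x‖) (z : H) :
    ‖X (T (M z))‖ ≤ κ * ‖X (pre S.ν j z)‖ := by
  have h1 : X * (T * M) = T * (M * X) := by
    have e1 := (S.comm_hi hT hX).eq
    have e2 := (S.comm_lo hM hX).eq
    calc X * (T * M) = (X * T) * M := by rw [mul_assoc]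
      _ = (T * X) * M := by rw [e1]
      _ = T * (X * M) := by rw [mul_assoc]
      _ = T * (M * X) := by rw [e2]
  have h2 : X (T (M z)) = T (M (X z)) := congrArg (fun A : H →L[ℂ] H => A z) h1
  have h3 : pre S.ν j (X z) = X (pre S.ν j z) := congrArg (fun A : H →L[ℂ] H => A z)
    (S.comm_lo (S.pre_mem' (fun i => S.ν_mem rfl) j) hX).eq
  rw [h2]
  refine (hT1 _).trans ((hMκ _).trans ?_)
  rw [h3]

/-- `P_j` acts trivially after the replacements -/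
theorem cr_bound {j : ℕ} {T M : H →L[ℂ] H} (hT : T ∈ S.LA (Set.Ioi j))
    (hM : M ∈ S.LA (Set.Iio j)) (hT1 : ∀ x, ‖T x‖ ≤ ‖x‖) {κ : ℝ}
    (hMκ : ∀ x, ‖M x‖ ≤ κ * ‖pre S.ν j x‖) (z : H) :
    ‖S.O j ((1 - S.P j) (S.Q j (T (M z))))‖ ≤ κ * S.cr j z :=
  S.drop_gates (X := S.O j * ((1 - S.P j) * S.Q j))
    (mul_mem (S.O_mem rfl) (mul_mem (sub_mem (one_mem _) (S.P_mem rfl)) (S.Q_mem rfl)))
    hT hM hT1 hMκ z

theorem qq_bound {j : ℕ} {T M : H →L[ℂ] H} (hT : T ∈ S.LA (Set.Ioi j))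
    (hM : M ∈ S.LA (Set.Iio j)) (hT1 : ∀ x, ‖T x‖ ≤ ‖x‖) {κ : ℝ}
    (hMκ : ∀ x, ‖M x‖ ≤ κ * ‖pre S.ν j x‖) (hκ : 0 ≤ κ) (z : H) (hz : S.P j z = z) :
    ‖(1 - S.P j) (S.Q j (T (M z)))‖ ≤ κ * S.qq j z := by
  have h1 := S.drop_gates (X := (1 - S.P j) * S.Q j)
    (mul_mem (sub_mem (one_mem _) (S.P_mem rfl)) (S.Q_mem rfl)) hT hM hT1 hMκ z
  refine h1.trans (mul_le_mul_of_nonneg_left ?_ hκ)
  show ‖(1 - S.P j) (S.Q j (pre S.ν j z))‖ ≤ ‖(1 - S.Q j) (pre S.ν j z)‖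
  have h2 : S.P j (pre S.ν j z) = pre S.ν j z := by
    have h3 : S.P j (pre S.ν j z) = pre S.ν j (S.P j z) := congrArg (fun A : H →L[ℂ] H => A z)
      (S.comm_lo (S.pre_mem' (fun i => S.ν_mem rfl) j) (S.P_mem rfl)).eq.symm
    rw [h3, hz]
  set y := pre S.ν j z
  have h3 : (1 - S.P j) (S.Q j y) = -((1 - S.P j) ((1 - S.Q j) y)) := by
    have e1 : (1 - S.Q j) y = y - S.Q j y := rfl
    have e2 : (1 - S.P j) y = 0 := by
      show y - S.P j y = 0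
      rw [h2, sub_self]
    rw [e1, map_sub, e2, zero_sub, neg_neg]
  rw [h3, norm_neg]
  exact S.norm_P' j _

theorem Δ_norm {j : ℕ} {u : H} (hu : S.P j u = u) :
    ‖S.Φ j u - (S.c j : ℂ) • u‖ ≤ Real.sqrt (S.w j) * ‖u‖ := by
  have h1 : S.P j (S.Φ j u) = (S.c j : ℂ) • u := by
    have h2 : (S.P j * S.Φ j * S.P j) u = (S.c j : ℂ) • S.P j u :=
      congrArg (fun A : H →L[ℂ] H => A u) (S.hPΦ j)
    have h3 : (S.P j * S.Φ j * S.P j) u = S.P j (S.Φ j (S.P j u)) := rfl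
    rw [h3, hu] at h2
    exact h2
  have h2 := proj_norm_sq (S.hP j) (S.Φ j u)
  have h3 : (1 - S.P j) (S.Φ j u) = S.Φ j u - (S.c j : ℂ) • u := by
    show S.Φ j u - S.P j (S.Φ j u) = _
    rw [h1]
  rw [h3, h1, S.norm_Φ, norm_smul, Complex.norm_real, Real.norm_of_nonneg (S.hc j)] at h2
  have h4 : ‖S.Φ j u - (S.c j : ℂ) • u‖ ^ 2 = S.w j * ‖u‖ ^ 2 := by
    have := S.hcw j
    have e : S.w j = 1 - S.c j ^ 2 := by linarith
    rw [e]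
    nlinarith [h2]
  refine le_of_sq_le_sq ?_ (by positivity)
  rw [h4, mul_pow, Real.sq_sqrt (S.hw j)]

theorem cross {j : ℕ} {u v : H} (hu : S.P j u = u) {α β : ℝ}
    (hα : ‖S.O j ((1 - S.P j) v)‖ ≤ α) (hβ : ‖(1 - S.P j) v‖ ≤ β) :
    ‖⟪v, S.Φ j u - (S.c j : ℂ) • u⟫_ℂ‖ ≤
      Real.sqrt (S.w j) * (α * ‖u‖ + β * ‖(1 - S.O j) u‖) := by
  set Δ := S.Φ j - (S.c j : ℂ) • (1 : H →L[ℂ] H) with hΔ
  have hΔu : ∀ x, S.Φ j x - (S.c j : ℂ) • x = Δ x := fun x => rfl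
  rw [hΔu]
  have hPs : star (1 - S.P j) = 1 - S.P j := (S.hP j).one_sub.isSelfAdjoint
  have hOs : star (S.O j) = S.O j := (S.hO j).isSelfAdjoint
  have hPΔ : (1 - S.P j) (Δ u) = Δ u := by
    have h1 : S.P j (S.Φ j u) = (S.c j : ℂ) • u := by
      have h2 : (S.P j * S.Φ j * S.P j) u = (S.c j : ℂ) • S.P j u :=
        congrArg (fun A : H →L[ℂ] H => A u) (S.hPΦ j)
      have h3 : (S.P j * S.Φ j * S.P j) u = S.P j (S.Φ j (S.P j u)) := rfl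
      rw [h3, hu] at h2
      exact h2
    show Δ u - S.P j (Δ u) = Δ u
    have h4 : S.P j (Δ u) = 0 := by
      rw [← hΔu, map_sub, h1, map_smul, hu, sub_self]
    rw [h4, sub_zero]
  have hOΔ : (1 - S.O j) (Δ u) = Δ ((1 - S.O j) u) := by
    have hc : Commute (1 - S.O j) Δ := by
      refine Commute.sub_left (Commute.one_left _) ?_
      exact Commute.sub_right (S.commOΦ j) ((Commute.one_right _).smul_right _)
    exact congrArg (fun A : H →L[ℂ] H => A u) hc.eq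
  have hPO : S.P j ((1 - S.O j) u) = (1 - S.O j) u := by
    have hc : Commute (S.P j) (1 - S.O j) := Commute.sub_right (Commute.one_right _) (S.commPO j)
    have h1 : S.P j ((1 - S.O j) u) = (1 - S.O j) (S.P j u) :=
      congrArg (fun A : H →L[ℂ] H => A u) hc.eq
    rw [h1, hu]
  have hsplit : ⟪v, Δ u⟫_ℂ = ⟪S.O j ((1 - S.P j) v), Δ u⟫_ℂ + ⟪(1 - S.P j) v, Δ ((1 - S.O j) u)⟫_ℂ := by
    have h1 : ⟪v, Δ u⟫_ℂ = ⟪(1 - S.P j) v, Δ u⟫_ℂ := by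
      rw [inner_sa hPs, hPΔ]
    rw [h1, inner_sa hOs, ← hOΔ, ← inner_add_right]
    congr 1
    show Δ u = S.O j (Δ u) + (Δ u - S.O j (Δ u))
    abel
  rw [hsplit]
  refine (norm_add_le _ _).trans ?_
  have h1 : ‖⟪S.O j ((1 - S.P j) v), Δ u⟫_ℂ‖ ≤ α * (Real.sqrt (S.w j) * ‖u‖) :=
    (norm_inner_le_norm _ _).trans (mul_le_mul hα (S.Δ_norm hu) (norm_nonneg _)
      ((norm_nonneg _).trans hα))
  have h2 : ‖⟪(1 - S.P j) v, Δ ((1 - S.O j) u)⟫_ℂ‖ ≤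
      β * (Real.sqrt (S.w j) * ‖(1 - S.O j) u‖) :=
    (norm_inner_le_norm _ _).trans (mul_le_mul hβ (S.Δ_norm hPO) (norm_nonneg _)
      ((norm_nonneg _).trans hβ))
  linarith

theorem iso_Φs (j : ℕ) (x : H) : ‖S.seg S.Φ (j + 1) x‖ = ‖x‖ :=
  pre_iso (fun _ => S.norm_Φ _) _ x

theorem contr_Qs (j : ℕ) (x : H) : ‖S.seg S.Q (j + 1) x‖ ≤ ‖x‖ :=
  pre_contr (fun _ => S.norm_Q _) _ x

theorem contr_Qp (j : ℕ) (x : H) : ‖pre S.Q j x‖ ≤ ‖x‖ :=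
  pre_contr (fun _ => S.norm_Q _) _ x

theorem contr_Λp (j : ℕ) (x : H) : ‖pre S.Λ j x‖ ≤ ‖x‖ :=
  pre_contr (fun _ => S.norm_Λ _) _ x

theorem Qs_mem (j : ℕ) : S.seg S.Q (j + 1) ∈ S.LA (Set.Ioi j) := S.seg_mem (fun _ => S.Q_mem rfl) j
theorem Φs_mem (j : ℕ) : S.seg S.Φ (j + 1) ∈ S.LA (Set.Ioi j) := S.seg_mem (fun _ => S.Φ_mem rfl) j
theorem Qp_mem (j : ℕ) : pre S.Q j ∈ S.LA (Set.Iio j) := S.pre_mem' (fun _ => S.Q_mem rfl) j
theorem Λp_mem (j : ℕ) : pre S.Λ j ∈ S.LA (Set.Iio j) := S.pre_mem' (fun _ => S.Λ_mem rfl) j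

theorem Q_split {j : ℕ} (hj : j < S.m) :
    pre S.Q S.m = S.seg S.Q (j + 1) * (S.Q j * pre S.Q j) := pre_split S.Q hj

theorem star_preQ : star (pre S.Q S.m) = pre S.Q S.m :=
  (pre_proj S.hQ S.Q_comm S.m).isSelfAdjoint

theorem P_fix {j : ℕ} {A : H →L[ℂ] H} (hA : A ∈ S.LA (Set.Ioi j)) {z : H} (hz : S.P j z = z) :
    S.P j (A z) = A z := by
  have h1 : S.P j (A z) = A (S.P j z) := congrArg (fun B : H →L[ℂ] H => B z)
    (S.comm_hi hA (S.P_mem rfl)).eq.symm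
  rw [h1, hz]

theorem O_through {j : ℕ} {A : H →L[ℂ] H} (hA : A ∈ S.LA (Set.Ioi j)) (z : H) :
    (1 - S.O j) (A z) = A ((1 - S.O j) z) :=
  congrArg (fun B : H →L[ℂ] H => B z)
    (S.comm_hi hA (sub_mem (one_mem _) (S.O_mem rfl))).eq.symm

/-- one step of the first telescoping -/
theorem stepA {j : ℕ} (hj : j < S.m) (η' η : H) (h' : S.P j η' = η') (h : S.P j η = η) :
    ‖⟪η', pre S.Q S.m (S.seg S.Φ j η)⟫_ℂ -
      (S.c j : ℂ) * ⟪η', pre S.Q S.m (S.seg S.Φ (j + 1) η)⟫_ℂ‖ ≤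
      Real.sqrt (S.w j) * (S.cr j η' * ‖η‖ + S.qq j η' * S.ka j η) := by
  set u := S.seg S.Φ (j + 1) η with hu
  have hPu : S.P j u = u := S.P_fix (S.Φs_mem j) h
  have h1 : S.seg S.Φ j η = S.Φ j u := by
    rw [S.seg_succ S.Φ hj]
    exact congrArg (fun B : H →L[ℂ] H => B η) (S.comm_hi (S.Φs_mem j) (S.Φ_mem rfl)).eq
  have h2 : ⟪η', pre S.Q S.m (S.seg S.Φ j η)⟫_ℂ -
      (S.c j : ℂ) * ⟪η', pre S.Q S.m u⟫_ℂ =
      ⟪pre S.Q S.m η', S.Φ j u - (S.c j : ℂ) • u⟫_ℂ := by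
    rw [h1, inner_sa S.star_preQ, map_sub, map_smul, inner_sub_right, inner_smul_right]
  rw [h2]
  have hv : pre S.Q S.m η' = S.Q j (S.seg S.Q (j + 1) (pre S.Q j η')) := by
    have e : pre S.Q S.m = S.Q j * (S.seg S.Q (j + 1) * pre S.Q j) := by
      rw [S.Q_split hj, ← mul_assoc, (S.comm_hi (S.Qs_mem j) (S.Q_mem rfl)).eq, mul_assoc]
    exact congrArg (fun B : H →L[ℂ] H => B η') e
  have hM : ∀ x, ‖pre S.Q j x‖ ≤ 1 * ‖pre S.ν j x‖ := fun x => by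
    rw [one_mul]; exact S.Q_le_ν j x
  have hα : ‖S.O j ((1 - S.P j) (pre S.Q S.m η'))‖ ≤ S.cr j η' := by
    rw [hv]
    exact (S.cr_bound (S.Qs_mem j) (S.Qp_mem j) (S.contr_Qs j) hM η').trans_eq (one_mul _)
  have hβ : ‖(1 - S.P j) (pre S.Q S.m η')‖ ≤ S.qq j η' := by
    rw [hv]
    exact (S.qq_bound (S.Qs_mem j) (S.Qp_mem j) (S.contr_Qs j) hM zero_le_one η' h').trans_eq
      (one_mul _)
  have h3 := S.cross hPu hα hβ
  have h4 : ‖u‖ = ‖η‖ := S.iso_Φs j η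
  have h5 : ‖(1 - S.O j) u‖ = S.ka j η := by
    rw [hu, S.O_through (S.Φs_mem j), S.iso_Φs]
    rfl
  rw [h4, h5] at h3
  exact h3

/-- the quadratic form of gate `j` -/
theorem form_bound {j : ℕ} {x y : H} (hx : S.P j x = x) (hy : S.P j y = y) :
    ‖⟪S.Φ j x - (S.c j : ℂ) • x, S.Q j (S.Φ j y - (S.c j : ℂ) • y)⟫_ℂ -
      (S.w j : ℂ) * ⟪x, S.D j y⟫_ℂ‖ ≤ 2 * S.w j * (‖x‖ * ‖y‖) := by
  refine (norm_sub_le _ _).trans ?_
  have h1 : ‖⟪S.Φ j x - (S.c j : ℂ) • x, S.Q j (S.Φ j y - (S.c j : ℂ) • y)⟫_ℂ‖ ≤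
      S.w j * (‖x‖ * ‖y‖) := by
    refine (norm_inner_le_norm _ _).trans ?_
    calc ‖S.Φ j x - (S.c j : ℂ) • x‖ * ‖S.Q j (S.Φ j y - (S.c j : ℂ) • y)‖
        ≤ (Real.sqrt (S.w j) * ‖x‖) * (Real.sqrt (S.w j) * ‖y‖) :=
          mul_le_mul (S.Δ_norm hx) ((S.norm_Q j _).trans (S.Δ_norm hy)) (norm_nonneg _)
            (by positivity)
      _ = (Real.sqrt (S.w j) * Real.sqrt (S.w j)) * (‖x‖ * ‖y‖) := by ring
      _ = S.w j * (‖x‖ * ‖y‖) := by rw [Real.mul_self_sqrt (S.hw j)]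
  have h2 : ‖(S.w j : ℂ) * ⟪x, S.D j y⟫_ℂ‖ ≤ S.w j * (‖x‖ * ‖y‖) := by
    rw [norm_mul, Complex.norm_real, Real.norm_of_nonneg (S.hw j)]
    refine mul_le_mul_of_nonneg_left ?_ (S.hw j)
    exact (norm_inner_le_norm _ _).trans (mul_le_mul_of_nonneg_left (S.norm_D j y) (norm_nonneg _))
  linarith

theorem form_split {j : ℕ} {x y : H} (hx : S.P j x = x) (hy : S.P j y = y) :
    ‖⟪S.Φ j x - (S.c j : ℂ) • x, S.Q j (S.Φ j y - (S.c j : ℂ) • y)⟫_ℂ -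
      (S.w j : ℂ) * ⟪x, S.D j y⟫_ℂ‖ ≤
      2 * S.w j * (‖x‖ * ‖(1 - S.O j) y‖ + ‖(1 - S.O j) x‖ * ‖y‖) := by
  set Δ := S.Φ j - (S.c j : ℂ) • (1 : H →L[ℂ] H) with hΔ
  have hΔu : ∀ x, S.Φ j x - (S.c j : ℂ) • x = Δ x := fun x => rfl
  have hPO : ∀ z, S.P j z = z → S.P j (S.O j z) = S.O j z := by
    intro z hz
    have h1 : S.P j (S.O j z) = S.O j (S.P j z) :=
      congrArg (fun A : H →L[ℂ] H => A z) (S.commPO j).eq
    rw [h1, hz]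
  have hPO' : ∀ z, S.P j z = z → S.P j ((1 - S.O j) z) = (1 - S.O j) z := by
    intro z hz
    show S.P j (z - S.O j z) = z - S.O j z
    rw [map_sub, hz, hPO z hz]
  have hOO : ∀ z, S.O j (S.O j z) = S.O j z := by
    intro z
    exact congrArg (fun A : H →L[ℂ] H => A z) (S.hO j).isIdempotentElem
  have hdec : ∀ z, z = S.O j z + (1 - S.O j) z := by
    intro z
    show z = S.O j z + (z - S.O j z)
    abel
  have hk := S.key j (S.O j x) (S.O j y) (hPO x hx) (hOO x) (hPO y hy) (hOO y)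
  have b1 := S.form_bound (hPO x hx) (hPO' y hy)
  have b2 := S.form_bound (hPO' x hx) hy
  simp only [hΔu] at hk b1 b2 ⊢
  have e : ⟪Δ x, S.Q j (Δ y)⟫_ℂ - (S.w j : ℂ) * ⟪x, S.D j y⟫_ℂ =
      (⟪Δ (S.O j x), S.Q j (Δ ((1 - S.O j) y))⟫_ℂ -
        (S.w j : ℂ) * ⟪S.O j x, S.D j ((1 - S.O j) y)⟫_ℂ) +
      (⟪Δ ((1 - S.O j) x), S.Q j (Δ y)⟫_ℂ - (S.w j : ℂ) * ⟪(1 - S.O j) x, S.D j y⟫_ℂ) := by
    have e1 : ⟪Δ x, S.Q j (Δ y)⟫_ℂ = ⟪Δ (S.O j x), S.Q j (Δ (S.O j y))⟫_ℂ +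
        ⟪Δ (S.O j x), S.Q j (Δ ((1 - S.O j) y))⟫_ℂ + ⟪Δ ((1 - S.O j) x), S.Q j (Δ y)⟫_ℂ := by
      rw [← inner_add_right, ← map_add, ← map_add, ← hdec y, ← inner_add_left, ← map_add, ← hdec x]
    have e2 : ⟪x, S.D j y⟫_ℂ = ⟪S.O j x, S.D j (S.O j y)⟫_ℂ +
        ⟪S.O j x, S.D j ((1 - S.O j) y)⟫_ℂ + ⟪(1 - S.O j) x, S.D j y⟫_ℂ := by
      rw [← inner_add_right, ← map_add, ← hdec y, ← inner_add_left, ← hdec x]
    rw [e1, e2, hk]
    ring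
  rw [e]
  refine (norm_add_le _ _).trans ?_
  have h1 := mul_le_mul_of_nonneg_right (S.norm_O j x) (norm_nonneg ((1 - S.O j) y))
  have h2 := S.hw j
  nlinarith

theorem star_Λp (j : ℕ) : star (pre S.Λ j) = pre S.Λ j := by
  induction j with
  | zero => exact star_one _
  | succ j ih =>
    show star (S.Λ j * pre S.Λ j) = S.Λ j * pre S.Λ j
    rw [star_mul, ih, S.star_Λ, (S.comm_lo (S.Λp_mem j) (S.Λ_mem rfl)).eq]

/-- the other gates -/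
noncomputable def NN (j : ℕ) : H →L[ℂ] H := S.seg S.Q (j + 1) * pre S.Q j

theorem NN_proj (j : ℕ) : IsStarProjection (S.NN j) := by
  refine proj_mul ?_ (pre_proj S.hQ S.Q_comm j) (S.comm_hilo (S.Qs_mem j) (S.Qp_mem j))
  exact pre_proj (Q := fun i => S.Q (j + 1 + i)) (fun i => S.hQ _) (fun i k => S.Q_comm _ _) _

theorem NN_comm {j : ℕ} {A : H →L[ℂ] H} (hA : A ∈ S.LA {j}) : Commute (S.NN j) A :=
  Commute.mul_left (S.comm_hi (S.Qs_mem j) hA) (S.comm_lo (S.Qp_mem j) hA)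

theorem Q_eq_NN {j : ℕ} (hj : j < S.m) : pre S.Q S.m = S.Q j * S.NN j := by
  rw [S.Q_split hj, NN, ← mul_assoc, (S.comm_hi (S.Qs_mem j) (S.Q_mem rfl)).eq, mul_assoc]

theorem norm_NN (j : ℕ) (x : H) : ‖S.NN j x‖ ≤ ‖x‖ := proj_norm_le (S.NN_proj j) x

/-- one step of the second telescoping -/
theorem stepB {j : ℕ} (hj : j < S.m) (η' η : H) (h' : S.P j η' = η') (h : S.P j η = η) :
    ‖⟪pre S.Λ j (S.seg S.Φ j η'), pre S.Q S.m (S.seg S.Φ j η)⟫_ℂ -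
      ⟪pre S.Λ (j + 1) (S.seg S.Φ (j + 1) η'), pre S.Q S.m (S.seg S.Φ (j + 1) η)⟫_ℂ‖ ≤
      Real.sqrt (S.w j) * (Real.exp S.W * (S.cr j η' * ‖η‖ + S.qq j η' * S.ka j η)) +
      Real.sqrt (S.w j) * (S.cr j η * ‖η'‖ + S.qq j η * S.ka j η') +
      2 * S.w j * (‖η'‖ * S.ka j η + S.ka j η' * ‖η‖) + S.w j * (‖η'‖ * S.qq j η) := by
  set u := S.seg S.Φ (j + 1) η with hu
  set u' := S.seg S.Φ (j + 1) η' with hu'
  set a' := pre S.Λ j u' with ha'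
  set Δ := S.Φ j - (S.c j : ℂ) • (1 : H →L[ℂ] H) with hΔ
  have hΔu : ∀ x, S.Φ j x - (S.c j : ℂ) • x = Δ x := fun x => rfl
  have hΔm : Δ ∈ S.LA {j} := sub_mem (S.Φ_mem rfl) (Subalgebra.smul_mem _ (one_mem _) _)
  have hPu : S.P j u = u := S.P_fix (S.Φs_mem j) h
  have hPu' : S.P j u' = u' := S.P_fix (S.Φs_mem j) h'
  have hPa' : S.P j a' = a' := by
    have h1 : S.P j (pre S.Λ j u') = pre S.Λ j (S.P j u') :=
      congrArg (fun B : H →L[ℂ] H => B u') (S.comm_lo (S.Λp_mem j) (S.P_mem rfl)).eq.symm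
    rw [ha', h1, hPu']
  have h1 : S.seg S.Φ j η = S.Φ j u := by
    rw [S.seg_succ S.Φ hj]
    exact congrArg (fun B : H →L[ℂ] H => B η) (S.comm_hi (S.Φs_mem j) (S.Φ_mem rfl)).eq
  have h1' : pre S.Λ j (S.seg S.Φ j η') = S.Φ j a' := by
    rw [S.seg_succ S.Φ hj]
    have e1 : S.seg S.Φ (j + 1) (S.Φ j η') = S.Φ j u' :=
      congrArg (fun B : H →L[ℂ] H => B η') (S.comm_hi (S.Φs_mem j) (S.Φ_mem rfl)).eq
    show pre S.Λ j (S.seg S.Φ (j + 1) (S.Φ j η')) = _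
    rw [e1]
    exact congrArg (fun B : H →L[ℂ] H => B u') (S.comm_lo (S.Λp_mem j) (S.Φ_mem rfl)).eq
  have h2' : pre S.Λ (j + 1) u' = S.Λ j a' := rfl
  have hΛ : S.Λ j a' = ((S.c j ^ 2 : ℝ) : ℂ) • a' + (S.w j : ℂ) • S.D j a' := rfl
  have hΦ : ∀ x, S.Φ j x = (S.c j : ℂ) • x + Δ x := by
    intro x
    rw [← hΔu]
    abel
  set Q := pre S.Q S.m with hQ
  have hdec : ⟪S.Φ j a', Q (S.Φ j u)⟫_ℂ - ⟪S.Λ j a', Q u⟫_ℂ =
      (S.c j : ℂ) * ⟪a', Q (Δ u)⟫_ℂ + (S.c j : ℂ) * ⟪Δ a', Q u⟫_ℂ +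
      (⟪Δ a', Q (Δ u)⟫_ℂ - (S.w j : ℂ) * ⟪S.D j a', Q u⟫_ℂ) := by
    rw [hΛ, hΦ a', hΦ u, map_add, map_smul, inner_add_left, inner_add_left, inner_add_right,
      inner_add_right]
    simp only [inner_smul_left, inner_smul_right, Complex.conj_ofReal]
    push_cast
    ring
  rw [h1, h1', h2', hdec]
  -- first order terms
  have hTm : S.seg S.Q (j + 1) * S.seg S.Φ (j + 1) ∈ S.LA (Set.Ioi j) :=
    mul_mem (S.Qs_mem j) (S.Φs_mem j)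
  have hT1 : ∀ x, ‖(S.seg S.Q (j + 1) * S.seg S.Φ (j + 1)) x‖ ≤ ‖x‖ := fun x =>
    (S.contr_Qs j _).trans_eq (S.iso_Φs j x)
  have hM1m : pre S.Q j * pre S.Λ j ∈ S.LA (Set.Iio j) := mul_mem (S.Qp_mem j) (S.Λp_mem j)
  have hM2m : pre S.Λ j * pre S.Q j ∈ S.LA (Set.Iio j) := mul_mem (S.Λp_mem j) (S.Qp_mem j)
  have hM1 : ∀ x, ‖(pre S.Q j * pre S.Λ j) x‖ ≤ Real.exp S.W * ‖pre S.ν j x‖ := fun x =>
    (S.QΛ_le j x).trans (mul_le_mul_of_nonneg_right (S.prod_le_exp j hj.le) (norm_nonneg _))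
  have hM2 : ∀ x, ‖(pre S.Λ j * pre S.Q j) x‖ ≤ 1 * ‖pre S.ν j x‖ := fun x => by
    rw [one_mul]
    exact (S.contr_Λp j _).trans (S.Q_le_ν j x)
  have cQs := (S.comm_hi (S.Qs_mem j) (S.Q_mem (s := {j}) rfl)).eq
  have hv1 : Q a' = S.Q j ((S.seg S.Q (j + 1) * S.seg S.Φ (j + 1)) ((pre S.Q j * pre S.Λ j) η')) := by
    have e : Q * (pre S.Λ j * S.seg S.Φ (j + 1)) =
        S.Q j * ((S.seg S.Q (j + 1) * S.seg S.Φ (j + 1)) * (pre S.Q j * pre S.Λ j)) := by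
      have c1 := (S.comm_hilo (S.Φs_mem j) hM1m).eq
      calc Q * (pre S.Λ j * S.seg S.Φ (j + 1))
          = (S.seg S.Q (j + 1) * S.Q j) * ((pre S.Q j * pre S.Λ j) * S.seg S.Φ (j + 1)) := by
            rw [hQ, S.Q_split hj]; simp only [mul_assoc]
        _ = (S.Q j * S.seg S.Q (j + 1)) * (S.seg S.Φ (j + 1) * (pre S.Q j * pre S.Λ j)) := by
            rw [cQs, c1]
        _ = _ := by simp only [mul_assoc]
    exact congrArg (fun B : H →L[ℂ] H => B η') e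
  have hv2 : pre S.Λ j (Q u) =
      S.Q j ((S.seg S.Q (j + 1) * S.seg S.Φ (j + 1)) ((pre S.Λ j * pre S.Q j) η)) := by
    have e : pre S.Λ j * (Q * S.seg S.Φ (j + 1)) =
        S.Q j * ((S.seg S.Q (j + 1) * S.seg S.Φ (j + 1)) * (pre S.Λ j * pre S.Q j)) := by
      have c1 := (S.comm_hilo (S.Φs_mem j) (S.Qp_mem j)).eq
      have c2 := (S.comm_lo (S.Λp_mem j) (S.Q_mem (s := {j}) rfl)).eq
      have c3 := (S.comm_hilo hTm (S.Λp_mem j)).eq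
      calc pre S.Λ j * (Q * S.seg S.Φ (j + 1))
          = pre S.Λ j * ((S.seg S.Q (j + 1) * S.Q j) * (pre S.Q j * S.seg S.Φ (j + 1))) := by
            rw [hQ, S.Q_split hj]; simp only [mul_assoc]
        _ = pre S.Λ j * ((S.Q j * S.seg S.Q (j + 1)) * (S.seg S.Φ (j + 1) * pre S.Q j)) := by
            rw [cQs, c1]
        _ = (pre S.Λ j * S.Q j) * ((S.seg S.Q (j + 1) * S.seg S.Φ (j + 1)) * pre S.Q j) := by
            simp only [mul_assoc]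
        _ = (S.Q j * pre S.Λ j) * ((S.seg S.Q (j + 1) * S.seg S.Φ (j + 1)) * pre S.Q j) := by
            rw [c2]
        _ = S.Q j * ((pre S.Λ j * (S.seg S.Q (j + 1) * S.seg S.Φ (j + 1))) * pre S.Q j) := by
            simp only [mul_assoc]
        _ = S.Q j * (((S.seg S.Q (j + 1) * S.seg S.Φ (j + 1)) * pre S.Λ j) * pre S.Q j) := by
            rw [c3]
        _ = _ := by simp only [mul_assoc]
    exact congrArg (fun B : H →L[ℂ] H => B η) e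
  have hα1 : ‖S.O j ((1 - S.P j) (Q a'))‖ ≤ Real.exp S.W * S.cr j η' := by
    rw [hv1]; exact S.cr_bound hTm hM1m hT1 hM1 η'
  have hβ1 : ‖(1 - S.P j) (Q a')‖ ≤ Real.exp S.W * S.qq j η' := by
    rw [hv1]; exact S.qq_bound hTm hM1m hT1 hM1 (Real.exp_pos _).le η' h'
  have hα2 : ‖S.O j ((1 - S.P j) (pre S.Λ j (Q u)))‖ ≤ S.cr j η := by
    rw [hv2]; exact (S.cr_bound hTm hM2m hT1 hM2 η).trans_eq (one_mul _)
  have hβ2 : ‖(1 - S.P j) (pre S.Λ j (Q u))‖ ≤ S.qq j η := by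
    rw [hv2]; exact (S.qq_bound hTm hM2m hT1 hM2 zero_le_one η h).trans_eq (one_mul _)
  have n1 : ‖u‖ = ‖η‖ := S.iso_Φs j η
  have n1' : ‖u'‖ = ‖η'‖ := S.iso_Φs j η'
  have n2 : ‖(1 - S.O j) u‖ = S.ka j η := by
    rw [hu, S.O_through (S.Φs_mem j), S.iso_Φs]; rfl
  have n2' : ‖(1 - S.O j) u'‖ = S.ka j η' := by
    rw [hu', S.O_through (S.Φs_mem j), S.iso_Φs]; rfl
  have hc0 := S.hc j
  have hc1 := S.c_le_one j
  have hT1b : ‖(S.c j : ℂ) * ⟪a', Q (Δ u)⟫_ℂ‖ ≤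
      Real.sqrt (S.w j) * (Real.exp S.W * (S.cr j η' * ‖η‖ + S.qq j η' * S.ka j η)) := by
    have e : ⟪a', Q (Δ u)⟫_ℂ = ⟪Q a', Δ u⟫_ℂ := (inner_sa S.star_preQ _ _).symm
    rw [norm_mul, Complex.norm_real, Real.norm_of_nonneg hc0, e]
    have h3 := S.cross hPu hα1 hβ1
    rw [hΔu, n1, n2] at h3
    refine (mul_le_of_le_one_left (norm_nonneg _) hc1).trans (h3.trans (le_of_eq ?_))
    ring
  have hT2b : ‖(S.c j : ℂ) * ⟪Δ a', Q u⟫_ℂ‖ ≤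
      Real.sqrt (S.w j) * (S.cr j η * ‖η'‖ + S.qq j η * S.ka j η') := by
    have e : ⟪Δ a', Q u⟫_ℂ = ⟪Δ u', pre S.Λ j (Q u)⟫_ℂ := by
      have e1 : Δ a' = pre S.Λ j (Δ u') := congrArg (fun B : H →L[ℂ] H => B u')
        (S.comm_lo (S.Λp_mem j) hΔm).eq.symm
      rw [e1, inner_sa (S.star_Λp j)]
    rw [norm_mul, Complex.norm_real, Real.norm_of_nonneg hc0, e, norm_inner_symm]
    have h3 := S.cross hPu' hα2 hβ2
    rw [hΔu, n1', n2'] at h3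
    exact (mul_le_of_le_one_left (norm_nonneg _) hc1).trans h3
  -- second order term
  set N := S.NN j with hN
  have hNs : star N = N := (S.NN_proj j).isSelfAdjoint
  have hNN : ∀ x, N (N x) = N x := fun x =>
    congrArg (fun B : H →L[ℂ] H => B x) (S.NN_proj j).isIdempotentElem
  have hcomm : ∀ A ∈ S.LA {j}, ∀ x, N (A x) = A (N x) := fun A hA x =>
    congrArg (fun B : H →L[ℂ] H => B x) (S.NN_comm hA).eq
  have hQN : ∀ x, Q x = S.Q j (N x) := fun x =>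
    congrArg (fun B : H →L[ℂ] H => B x) (S.Q_eq_NN hj)
  have hPb : S.P j (N u) = N u := by rw [← hcomm _ (S.P_mem rfl), hPu]
  have hPb' : S.P j (N a') = N a' := by rw [← hcomm _ (S.P_mem rfl), hPa']
  have hT3 : ⟪Δ a', Q (Δ u)⟫_ℂ - (S.w j : ℂ) * ⟪S.D j a', Q u⟫_ℂ =
      (⟪Δ (N a'), S.Q j (Δ (N u))⟫_ℂ - (S.w j : ℂ) * ⟪N a', S.D j (N u)⟫_ℂ) +
      (S.w j : ℂ) * ⟪S.D j (N a'), (1 - S.Q j) (N u)⟫_ℂ := by
    have e1 : ⟪Δ (N a'), S.Q j (Δ (N u))⟫_ℂ = ⟪Δ a', Q (Δ u)⟫_ℂ := by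
      rw [← hcomm Δ hΔm a', inner_sa hNs, ← hcomm Δ hΔm u, hcomm _ (S.Q_mem rfl), hNN, ← hQN]
    have e2 : ⟪N a', S.D j (N u)⟫_ℂ = ⟪S.D j (N a'), N u⟫_ℂ := (inner_sa (S.hD j) _ _).symm
    have e3 : ⟪S.D j (N a'), N u⟫_ℂ - ⟪S.D j (N a'), (1 - S.Q j) (N u)⟫_ℂ =
        ⟪S.D j a', Q u⟫_ℂ := by
      have e4 : (1 - S.Q j) (N u) = N u - S.Q j (N u) := rfl
      rw [e4, inner_sub_right, sub_sub_cancel, ← hcomm _ (S.D_mem rfl), inner_sa hNs,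
        hcomm _ (S.Q_mem rfl), hNN, ← hQN]
    rw [e1, e2, ← e3]
    ring
  have n3 : ‖N a'‖ ≤ ‖η'‖ := (S.norm_NN j _).trans ((S.contr_Λp j _).trans_eq n1')
  have n3u : ‖N u‖ ≤ ‖η‖ := (S.norm_NN j _).trans_eq n1
  have n4 : ‖(1 - S.O j) (N u)‖ ≤ S.ka j η := by
    rw [← hcomm _ (sub_mem (one_mem _) (S.O_mem rfl)), ← n2]
    exact S.norm_NN j _
  have n4' : ‖(1 - S.O j) (N a')‖ ≤ S.ka j η' := by
    rw [← hcomm _ (sub_mem (one_mem _) (S.O_mem rfl)), ← n2']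
    refine (S.norm_NN j _).trans ?_
    have e1 : (1 - S.O j) a' = pre S.Λ j ((1 - S.O j) u') := congrArg (fun B : H →L[ℂ] H => B u')
      (S.comm_lo (S.Λp_mem j) (sub_mem (one_mem _) (S.O_mem rfl))).eq.symm
    rw [e1]
    exact S.contr_Λp j _
  have n5 : ‖(1 - S.Q j) (N u)‖ ≤ S.qq j η := by
    have e1 : N u = (S.seg S.Q (j + 1) * S.seg S.Φ (j + 1)) (pre S.Q j η) := by
      have e : N * S.seg S.Φ (j + 1) = (S.seg S.Q (j + 1) * S.seg S.Φ (j + 1)) * pre S.Q j := by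
        rw [hN, NN, mul_assoc, mul_assoc, (S.comm_hilo (S.Φs_mem j) (S.Qp_mem j)).eq]
      exact congrArg (fun B : H →L[ℂ] H => B η) e
    rw [e1]
    have hM3 : ∀ x, ‖pre S.Q j x‖ ≤ 1 * ‖pre S.ν j x‖ := fun x => by
      rw [one_mul]; exact S.Q_le_ν j x
    exact (S.drop_gates (X := 1 - S.Q j) (sub_mem (one_mem _) (S.Q_mem rfl)) hTm (S.Qp_mem j)
      hT1 hM3 η).trans_eq (one_mul _)
  have hT3b : ‖⟪Δ a', Q (Δ u)⟫_ℂ - (S.w j : ℂ) * ⟪S.D j a', Q u⟫_ℂ‖ ≤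
      2 * S.w j * (‖η'‖ * S.ka j η + S.ka j η' * ‖η‖) + S.w j * (‖η'‖ * S.qq j η) := by
    rw [hT3]
    refine (norm_add_le _ _).trans (add_le_add ?_ ?_)
    · have h3 := S.form_split hPb' hPb
      rw [hΔu, hΔu] at h3
      refine h3.trans (mul_le_mul_of_nonneg_left ?_ (by linarith [S.hw j]))
      refine add_le_add ?_ ?_
      · exact mul_le_mul n3 n4 (norm_nonneg _) (norm_nonneg _)
      · exact mul_le_mul n4' n3u (norm_nonneg _) ((norm_nonneg _).trans n4')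
    · rw [norm_mul, Complex.norm_real, Real.norm_of_nonneg (S.hw j)]
      refine mul_le_mul_of_nonneg_left ?_ (S.hw j)
      refine (norm_inner_le_norm _ _).trans ?_
      exact mul_le_mul ((S.norm_D j _).trans n3) n5 (norm_nonneg _) (norm_nonneg _)
  refine (norm_add_le _ _).trans ?_
  refine (add_le_add (norm_add_le _ _) le_rfl).trans ?_
  linarith

theorem W_nonneg : 0 ≤ S.W := (Finset.sum_nonneg fun j _ => S.hw j).trans S.hW

theorem sum1 (f : ℕ → ℝ) : ∑ j ∈ Finset.range S.m, Real.sqrt (S.w j) * f j ≤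
    Real.sqrt S.W * Real.sqrt (∑ j ∈ Finset.range S.m, f j ^ 2) := by
  refine (Real.sum_mul_le_sqrt_mul_sqrt _ _ _).trans ?_
  refine mul_le_mul_of_nonneg_right (Real.sqrt_le_sqrt ?_) (Real.sqrt_nonneg _)
  refine le_trans (le_of_eq ?_) S.hW
  exact Finset.sum_congr rfl fun j _ => Real.sq_sqrt (S.hw j)

theorem sum2 (f : ℕ → ℝ) (hf : ∀ j, 0 ≤ f j) : ∑ j ∈ Finset.range S.m, S.w j * f j ≤
    Real.sqrt S.τ * (Real.sqrt S.W * Real.sqrt (∑ j ∈ Finset.range S.m, f j ^ 2)) := by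
  refine le_trans ?_ (mul_le_mul_of_nonneg_left (S.sum1 f) (Real.sqrt_nonneg _))
  rw [Finset.mul_sum]
  refine Finset.sum_le_sum fun j _ => ?_
  have h1 : S.w j = Real.sqrt (S.w j) * Real.sqrt (S.w j) := (Real.mul_self_sqrt (S.hw j)).symm
  have h2 : Real.sqrt (S.w j) ≤ Real.sqrt S.τ := Real.sqrt_le_sqrt (S.hwτ j)
  have h3 : 0 ≤ Real.sqrt (S.w j) * f j := mul_nonneg (Real.sqrt_nonneg _) (hf j)
  calc S.w j * f j = Real.sqrt (S.w j) * (Real.sqrt (S.w j) * f j) := by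
        rw [← mul_assoc, ← h1]
    _ ≤ Real.sqrt S.τ * (Real.sqrt (S.w j) * f j) := mul_le_mul_of_nonneg_right h2 h3

theorem sum3 (f g : ℕ → ℝ) (hf : ∀ j, 0 ≤ f j) (hg : ∀ j, 0 ≤ g j) :
    ∑ j ∈ Finset.range S.m, Real.sqrt (S.w j) * (f j * g j) ≤
    Real.sqrt S.τ * (Real.sqrt (∑ j ∈ Finset.range S.m, f j ^ 2) *
      Real.sqrt (∑ j ∈ Finset.range S.m, g j ^ 2)) := by
  refine le_trans ?_ (mul_le_mul_of_nonneg_left (Real.sum_mul_le_sqrt_mul_sqrt _ f g)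
    (Real.sqrt_nonneg _))
  rw [Finset.mul_sum]
  refine Finset.sum_le_sum fun j _ => ?_
  exact mul_le_mul_of_nonneg_right (Real.sqrt_le_sqrt (S.hwτ j)) (mul_nonneg (hf j) (hg j))

theorem qq_sum (z : H) : Real.sqrt (∑ j ∈ Finset.range S.m, S.qq j z ^ 2) ≤ 6 / 5 * ‖z‖ := by
  have h := chain_tele S.m S.τ S.hτ0 S.hτ S.Q S.hQ S.Q_comm z
  rw [Real.sqrt_le_left (by positivity)]
  refine le_trans h ?_
  rw [mul_pow]
  have := sq_nonneg ‖z‖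
  nlinarith

theorem cr_sum (z : H) : ∑ j ∈ Finset.range S.m, S.cr j z ^ 2 = S.Cr z := rfl

theorem ka_sum (z : H) : ∑ j ∈ Finset.range S.m, S.ka j z ^ 2 = S.Ka z := rfl

theorem cr_nonneg (j : ℕ) (z : H) : 0 ≤ S.cr j z := norm_nonneg _
theorem qq_nonneg (j : ℕ) (z : H) : 0 ≤ S.qq j z := norm_nonneg _
theorem ka_nonneg (j : ℕ) (z : H) : 0 ≤ S.ka j z := norm_nonneg _

/-- sum of the first order terms -/
theorem sumA (η' η : H) : ∑ j ∈ Finset.range S.m,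
    Real.sqrt (S.w j) * (S.cr j η' * ‖η‖ + S.qq j η' * S.ka j η) ≤
    Real.sqrt S.W * (Real.sqrt (S.Cr η') * ‖η‖) +
      6 / 5 * (Real.sqrt S.τ * (Real.sqrt (S.Ka η) * ‖η'‖)) := by
  have h1 : ∑ j ∈ Finset.range S.m,
      Real.sqrt (S.w j) * (S.cr j η' * ‖η‖ + S.qq j η' * S.ka j η) =
      (∑ j ∈ Finset.range S.m, Real.sqrt (S.w j) * S.cr j η') * ‖η‖ +
      ∑ j ∈ Finset.range S.m, Real.sqrt (S.w j) * (S.qq j η' * S.ka j η) := by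
    rw [Finset.sum_mul, ← Finset.sum_add_distrib]
    exact Finset.sum_congr rfl fun j _ => by ring
  have h2 := mul_le_mul_of_nonneg_right (S.sum1 (fun j => S.cr j η')) (norm_nonneg η)
  have h3 := S.sum3 (fun j => S.qq j η') (fun j => S.ka j η) (fun j => S.qq_nonneg j η')
    (fun j => S.ka_nonneg j η)
  rw [S.cr_sum] at h2
  rw [S.ka_sum] at h3
  have h4 := mul_le_mul_of_nonneg_right (S.qq_sum η') (Real.sqrt_nonneg (S.Ka η))
  have h5 := mul_le_mul_of_nonneg_left h4 (Real.sqrt_nonneg S.τ)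
  rw [h1]
  nlinarith

theorem sqrtW_le : 2 * Real.sqrt S.W ≤ 1 + S.W := by
  have h := Real.sq_sqrt S.W_nonneg
  nlinarith [sq_nonneg (Real.sqrt S.W - 1)]

theorem one_le_exp : 1 ≤ Real.exp S.W := Real.one_le_exp S.W_nonneg

end Chain

theorem chain_E1 (S : Chain H) (η' η : H) (h' : ∀ j, S.P j η' = η') (h : ∀ j, S.P j η = η) :
    ‖⟪η', pre S.Q S.m (pre S.Φ S.m η)⟫_ℂ -
      ((∏ j ∈ Finset.range S.m, S.c j : ℝ) : ℂ) * ⟪η', pre S.Q S.m η⟫_ℂ‖ ≤ S.Err η' η := by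
  set G : ℕ → ℂ := fun j => ((∏ i ∈ Finset.range j, S.c i : ℝ) : ℂ) *
    ⟪η', pre S.Q S.m (S.seg S.Φ j η)⟫_ℂ with hG
  have hG0 : G 0 = ⟪η', pre S.Q S.m (pre S.Φ S.m η)⟫_ℂ := by
    rw [hG]
    simp [S.seg_zero]
  have hGm : G S.m = ((∏ j ∈ Finset.range S.m, S.c j : ℝ) : ℂ) * ⟪η', pre S.Q S.m η⟫_ℂ := by
    rw [hG]
    simp [S.seg_m]
  rw [← hG0, ← hGm, ← Finset.sum_range_sub' G]
  refine (norm_sum_le _ _).trans ?_
  have hb : ∀ j ∈ Finset.range S.m, ‖G j - G (j + 1)‖ ≤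
      Real.sqrt (S.w j) * (S.cr j η' * ‖η‖ + S.qq j η' * S.ka j η) := by
    intro j hj
    have hj' := Finset.mem_range.1 hj
    have h1 : G j - G (j + 1) = ((∏ i ∈ Finset.range j, S.c i : ℝ) : ℂ) *
        (⟪η', pre S.Q S.m (S.seg S.Φ j η)⟫_ℂ -
        (S.c j : ℂ) * ⟪η', pre S.Q S.m (S.seg S.Φ (j + 1) η)⟫_ℂ) := by
      rw [hG]
      simp only [Finset.prod_range_succ]
      push_cast
      ring
    have h2 : 0 ≤ ∏ i ∈ Finset.range j, S.c i := Finset.prod_nonneg fun i _ => S.hc i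
    have h3 : ∏ i ∈ Finset.range j, S.c i ≤ 1 :=
      Finset.prod_le_one (fun i _ => S.hc i) fun i _ => S.c_le_one i
    rw [h1, norm_mul, Complex.norm_real, Real.norm_of_nonneg h2]
    exact (mul_le_of_le_one_left (norm_nonneg _) h3).trans (S.stepA hj' η' η (h' j) (h j))
  refine (Finset.sum_le_sum hb).trans ((S.sumA η' η).trans ?_)
  unfold Chain.Err Chain.K
  have hW := S.W_nonneg
  have h1 := S.sqrtW_le
  have h2 := S.one_le_exp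
  have a1 : 0 ≤ Real.sqrt (S.Cr η') * ‖η‖ := by positivity
  have a2 : 0 ≤ Real.sqrt (S.Cr η) * ‖η'‖ := by positivity
  have a3 : 0 ≤ Real.sqrt S.τ * (Real.sqrt (S.Ka η) * ‖η'‖) := by positivity
  have a4 : 0 ≤ Real.sqrt S.τ * (Real.sqrt (S.Ka η') * ‖η‖) := by positivity
  have a5 : 0 ≤ Real.sqrt S.τ * (‖η‖ * ‖η'‖) := by positivity
  have k1 : Real.sqrt S.W ≤ 4 * (1 + S.W) * Real.exp S.W := by nlinarith
  have k2 : 6 / 5 ≤ 4 * (1 + S.W) * Real.exp S.W := by nlinarith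
  have b1 := mul_le_mul_of_nonneg_right k1 a1
  have b2 := mul_le_mul_of_nonneg_right k2 a3
  have k0 : 0 ≤ 4 * (1 + S.W) * Real.exp S.W := by positivity
  have b3 := mul_nonneg k0 a2
  have b4 := mul_nonneg k0 a4
  have b5 := mul_nonneg k0 a5
  nlinarith

theorem chain_E1' (S : Chain H) (η' η : H) (h' : ∀ j, S.P j η' = η') (h : ∀ j, S.P j η = η) :
    ‖⟪pre S.Φ S.m η', pre S.Q S.m η⟫_ℂ -
      ((∏ j ∈ Finset.range S.m, S.c j : ℝ) : ℂ) * ⟪η', pre S.Q S.m η⟫_ℂ‖ ≤ S.Err η' η := by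
  have h1 := chain_E1 S η η' h h'
  have e1 : ⟪η, pre S.Q S.m (pre S.Φ S.m η')⟫_ℂ =
      (starRingEnd ℂ) ⟪pre S.Φ S.m η', pre S.Q S.m η⟫_ℂ := by
    rw [inner_conj_symm, ← inner_sa S.star_preQ]
  have e2 : ⟪η, pre S.Q S.m η'⟫_ℂ = (starRingEnd ℂ) ⟪η', pre S.Q S.m η⟫_ℂ := by
    rw [inner_conj_symm, ← inner_sa S.star_preQ]
  have e3 : ((∏ j ∈ Finset.range S.m, S.c j : ℝ) : ℂ) =
      (starRingEnd ℂ) ((∏ j ∈ Finset.range S.m, S.c j : ℝ) : ℂ) := (Complex.conj_ofReal _).symm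
  rw [e1, e2, e3, ← map_mul, ← map_sub, RCLike.norm_conj] at h1
  refine h1.trans (le_of_eq ?_)
  unfold Chain.Err
  ring

theorem chain_E2 (S : Chain H) (η' η : H) (h' : ∀ j, S.P j η' = η') (h : ∀ j, S.P j η = η) :
    ‖⟪pre S.Φ S.m η', pre S.Q S.m (pre S.Φ S.m η)⟫_ℂ -
      ⟪pre S.Λ S.m η', pre S.Q S.m η⟫_ℂ‖ ≤ S.Err η' η := by
  set G : ℕ → ℂ := fun j =>
    ⟪pre S.Λ j (S.seg S.Φ j η'), pre S.Q S.m (S.seg S.Φ j η)⟫_ℂ with hG
  have hG0 : G 0 = ⟪pre S.Φ S.m η', pre S.Q S.m (pre S.Φ S.m η)⟫_ℂ := by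
    rw [hG]
    simp only [S.seg_zero]
    rfl
  have hGm : G S.m = ⟪pre S.Λ S.m η', pre S.Q S.m η⟫_ℂ := by
    rw [hG]
    simp only [S.seg_m]
    rfl
  rw [← hG0, ← hGm, ← Finset.sum_range_sub' G]
  refine (norm_sum_le _ _).trans ?_
  refine (Finset.sum_le_sum fun j hj => S.stepB (Finset.mem_range.1 hj) η' η (h' j) (h j)).trans ?_
  rw [Finset.sum_add_distrib, Finset.sum_add_distrib, Finset.sum_add_distrib]
  have s1 : ∑ j ∈ Finset.range S.m, Real.sqrt (S.w j) *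
      (Real.exp S.W * (S.cr j η' * ‖η‖ + S.qq j η' * S.ka j η)) ≤ Real.exp S.W *
      (Real.sqrt S.W * (Real.sqrt (S.Cr η') * ‖η‖) +
      6 / 5 * (Real.sqrt S.τ * (Real.sqrt (S.Ka η) * ‖η'‖))) := by
    refine le_trans (le_of_eq ?_) (mul_le_mul_of_nonneg_left (S.sumA η' η) (Real.exp_pos _).le)
    rw [Finset.mul_sum]
    exact Finset.sum_congr rfl fun j _ => by ring
  have s2 := S.sumA η η'
  have s3 : ∑ j ∈ Finset.range S.m, 2 * S.w j * (‖η'‖ * S.ka j η + S.ka j η' * ‖η‖) ≤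
      2 * Real.sqrt S.W * (Real.sqrt S.τ * (Real.sqrt (S.Ka η) * ‖η'‖)) +
      2 * Real.sqrt S.W * (Real.sqrt S.τ * (Real.sqrt (S.Ka η') * ‖η‖)) := by
    have e : ∑ j ∈ Finset.range S.m, 2 * S.w j * (‖η'‖ * S.ka j η + S.ka j η' * ‖η‖) =
        2 * ‖η'‖ * (∑ j ∈ Finset.range S.m, S.w j * S.ka j η) +
        2 * ‖η‖ * (∑ j ∈ Finset.range S.m, S.w j * S.ka j η') := by
      rw [Finset.mul_sum, Finset.mul_sum, ← Finset.sum_add_distrib]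
      exact Finset.sum_congr rfl fun j _ => by ring
    rw [e]
    have t1 := mul_le_mul_of_nonneg_left (S.sum2 (fun j => S.ka j η) (fun j => S.ka_nonneg j η))
      (show 0 ≤ 2 * ‖η'‖ by positivity)
    have t2 := mul_le_mul_of_nonneg_left (S.sum2 (fun j => S.ka j η') (fun j => S.ka_nonneg j η'))
      (show 0 ≤ 2 * ‖η‖ by positivity)
    rw [S.ka_sum] at t1 t2
    nlinarith
  have s4 : ∑ j ∈ Finset.range S.m, S.w j * (‖η'‖ * S.qq j η) ≤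
      6 / 5 * Real.sqrt S.W * (Real.sqrt S.τ * (‖η‖ * ‖η'‖)) := by
    have e : ∑ j ∈ Finset.range S.m, S.w j * (‖η'‖ * S.qq j η) =
        ‖η'‖ * (∑ j ∈ Finset.range S.m, S.w j * S.qq j η) := by
      rw [Finset.mul_sum]
      exact Finset.sum_congr rfl fun j _ => by ring
    rw [e]
    have t1 := mul_le_mul_of_nonneg_left (S.sum2 (fun j => S.qq j η) (fun j => S.qq_nonneg j η))
      (norm_nonneg η')
    have t2 := mul_le_mul_of_nonneg_left (S.qq_sum η)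
      (show 0 ≤ ‖η'‖ * (Real.sqrt S.τ * Real.sqrt S.W) by positivity)
    nlinarith
  unfold Chain.Err Chain.K
  have hW := S.W_nonneg
  have h1 := S.sqrtW_le
  have h2 := S.one_le_exp
  have h3 := Real.sqrt_nonneg S.W
  set A1 := Real.sqrt (S.Cr η') * ‖η‖ with hA1
  set A2 := Real.sqrt (S.Cr η) * ‖η'‖ with hA2
  set A3 := Real.sqrt S.τ * (Real.sqrt (S.Ka η) * ‖η'‖) with hA3
  set A4 := Real.sqrt S.τ * (Real.sqrt (S.Ka η') * ‖η‖) with hA4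
  set A5 := Real.sqrt S.τ * (‖η‖ * ‖η'‖) with hA5
  have a1 : 0 ≤ A1 := by positivity
  have a2 : 0 ≤ A2 := by positivity
  have a3 : 0 ≤ A3 := by positivity
  have a4 : 0 ≤ A4 := by positivity
  have a5 : 0 ≤ A5 := by positivity
  set e := Real.exp S.W with he
  set q := Real.sqrt S.W with hq
  have kk : 4 * (1 + S.W) * e * (A1 + A2 + Real.sqrt S.τ * (Real.sqrt (S.Ka η) * ‖η'‖ +
      Real.sqrt (S.Ka η') * ‖η‖ + ‖η‖ * ‖η'‖)) = 4 * (1 + S.W) * e * A1 + 4 * (1 + S.W) * e * A2 +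
      4 * (1 + S.W) * e * A3 + 4 * (1 + S.W) * e * A4 + 4 * (1 + S.W) * e * A5 := by
    rw [hA3, hA4, hA5]; ring
  rw [kk]
  have g1 : e * q ≤ 4 * (1 + S.W) * e := by nlinarith
  have g2 : q ≤ 4 * (1 + S.W) * e := by nlinarith
  have g3 : e * (6 / 5) + 2 * q ≤ 4 * (1 + S.W) * e := by nlinarith
  have g4 : 6 / 5 + 2 * q ≤ 4 * (1 + S.W) * e := by nlinarith
  have g5 : 6 / 5 * q ≤ 4 * (1 + S.W) * e := by nlinarith
  have b1 := mul_le_mul_of_nonneg_right g1 a1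
  have b2 := mul_le_mul_of_nonneg_right g2 a2
  have b3 := mul_le_mul_of_nonneg_right g3 a3
  have b4 := mul_le_mul_of_nonneg_right g4 a4
  have b5 := mul_le_mul_of_nonneg_right g5 a5
  linarith

end Weak1

end P368
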